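import Vale.Agent.H83.ExpanderCount

/-!
Weighted double counting: if every near-perfect matching has augmenting paths of total weight
at least `z` (a path with `k` inner vertices has weight `d^-(k+1)`), then
`#near-perfect * z ≤ (K+1) N / d * #perfect`.
-/

namespace Vale.Agent.H83.Poly

open Finset SimpleGraph Vale.Agent.H83.Matchings

variable {V : Type*} [Fintype V] [DecidableEq V] {G : SimpleGraph V} [DecidableRel G.Adj]

lemma list_eq_of_getD {α : Type*} (l l' : List α) (k : ℕ) (a : α) (hl : l.length = k)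
    (hl' : l'.length = k) (h : ∀ i : Fin k, l.getD i a = l'.getD i a) : l = l' := by
  apply List.ext_getElem (by rw [hl, hl'])
  intro i h1 h2
  have := h ⟨i, by omega⟩
  simp only [List.getD_eq_getElem?_getD, List.getElem?_eq_getElem h1,
    List.getElem?_eq_getElem h2, Option.getD_some] at this
  exact this

theorem weighted_ratio (d K : ℕ) (hd : 0 < d) (hdeg : ∀ x, G.degree x ≤ d) (z : ℝ)
    (hmany : ∀ (τ : V → V) (u v : V), IsNPM G τ u v →
      ∃ P : Finset (List V), (∀ as ∈ P, IsAug G τ u v as ∧ as.length ≤ K) ∧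
        z ≤ ∑ as ∈ P, (1 / d : ℝ) ^ (as.length + 1)) :
    (Nat.card {M : G.Subgraph // M.IsMatching ∧ M.vertsᶜ.ncard = 2} : ℝ) * z
      ≤ ((K : ℝ) + 1) * Fintype.card V / d
          * Nat.card {M : G.Subgraph // M.IsPerfectMatching} := by
  classical
  have : Fintype {M : G.Subgraph // M.IsMatching ∧ M.vertsᶜ.ncard = 2} := Fintype.ofFinite _
  have : Fintype {M : G.Subgraph // M.IsPerfectMatching} := Fintype.ofFinite _
  have hdata : ∀ m : {M : G.Subgraph // M.IsMatching ∧ M.vertsᶜ.ncard = 2},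
      ∃ (u v : V) (P : Finset (List V)), IsNPM G (partner m.1 m.2.1) u v ∧
        (∀ as ∈ P, IsAug G (partner m.1 m.2.1) u v as ∧ as.length ≤ K) ∧
        z ≤ ∑ as ∈ P, (1 / d : ℝ) ^ (as.length + 1) := by
    intro m
    obtain ⟨u, v, huv, huvc⟩ := Set.ncard_eq_two.mp m.2.2
    have hτ := isNPM_partner m.1 m.2.1 huv huvc
    obtain ⟨P, hP, hz⟩ := hmany _ u v hτ
    exact ⟨u, v, P, hτ, hP, hz⟩
  choose fu fv fP h1 h2 h3 using hdata
  have hσ : ∀ p : (Σ m : {M : G.Subgraph // M.IsMatching ∧ M.vertsᶜ.ncard = 2},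
      {as : List V // as ∈ fP m}),
      ∃ σ, IsPM G σ ∧ Follow σ (partner p.1.1 p.1.2.1) (fv p.1) (fu p.1) p.2.1 ∧
        (∀ x, x ≠ fu p.1 → x ≠ fv p.1 → x ∉ p.2.1 →
          x ∉ p.2.1.map (partner p.1.1 p.1.2.1) → σ x = partner p.1.1 p.1.2.1 x) ∧
        (∀ a ∈ p.2.1, G.Adj a (partner p.1.1 p.1.2.1 a)) := by
    intro p
    have has := (h2 p.1 p.2.1 p.2.2).1
    obtain ⟨σ, hσ, hfol, hout⟩ := exists_augment p.2.1 _ _ _ (h1 p.1) has
    refine ⟨σ, hσ, hfol, hout, ?_⟩
    intro a ha
    apply (h1 p.1).adj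
    · intro e
      apply has.disj a ha a ha
      rw [e, (h1 p.1).fix_u]
    · intro e
      apply has.disj a ha a ha
      rw [e, (h1 p.1).fix_v]
  choose fσ g1 g2 g3 g4 using hσ
  -- counting the pairs with a path of length `k`
  have hcount : ∀ k : ℕ,
      ((univ.filter (fun p : (Σ m : {M : G.Subgraph // M.IsMatching ∧ M.vertsᶜ.ncard = 2},
        {as : List V // as ∈ fP m}) => p.2.1.length = k)).card : ℝ)
        ≤ (Fintype.card {M : G.Subgraph // M.IsPerfectMatching} : ℝ) * Fintype.card V * d ^ k := by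
    intro k
    let Φ : {p : (Σ m : {M : G.Subgraph // M.IsMatching ∧ M.vertsᶜ.ncard = 2},
        {as : List V // as ∈ fP m}) // p.2.1.length = k} →
        {M : G.Subgraph // M.IsPerfectMatching} × V × (Fin k → Fin d) :=
      fun p => (⟨toSubgraph (fσ p.1) (g1 p.1), toSubgraph_isPerfectMatching _ _⟩, fu p.1.1,
        fun i => (p.1.2.1.map (fun a => nidx G d hd hdeg a (partner p.1.1.1 p.1.1.2.1 a))).getD i
          ⟨0, hd⟩)
    have hinj : Function.Injective Φ := by
      rintro ⟨⟨m, as, has⟩, hk⟩ ⟨⟨m', as', has'⟩, hk'⟩ heq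
      simp only at hk hk'
      have e1 : toSubgraph (fσ ⟨m, as, has⟩) (g1 ⟨m, as, has⟩)
          = toSubgraph (fσ ⟨m', as', has'⟩) (g1 ⟨m', as', has'⟩) :=
        congrArg (fun p => p.1.1) heq
      have hσeq : fσ ⟨m, as, has⟩ = fσ ⟨m', as', has'⟩ := toSubgraph_inj _ _ e1
      have hu : fu m = fu m' := congrArg (fun p => p.2.1) heq
      have e2 := congrArg (fun p => p.2.2) heq
      simp only [Φ] at e2
      have hcode : as.map (fun a => nidx G d hd hdeg a (partner m.1 m.2.1 a))
          = as'.map (fun a => nidx G d hd hdeg a (partner m'.1 m'.2.1 a)) :=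
        list_eq_of_getD _ _ k ⟨0, hd⟩ (by simp [hk]) (by simp [hk']) (fun i => congrFun e2 i)
      have hf := g2 ⟨m, as, has⟩
      have hf' := g2 ⟨m', as', has'⟩
      have ho := g3 ⟨m, as, has⟩
      have ho' := g3 ⟨m', as', has'⟩
      simp only at hf hf' ho ho'
      rw [← hσeq, ← hu] at hf'
      rw [← hσeq, ← hu] at ho'
      have hmap : as.map (partner m.1 m.2.1) = as'.map (partner m'.1 m'.2.1) :=
        code_inj hd hdeg as as' (fu m) hf hf' (g4 ⟨m, as, has⟩) (g4 ⟨m', as', has'⟩) hcode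
      have h1' := h1 m'
      rw [← hu] at h1'
      have hτeq : partner m.1 m.2.1 = partner m'.1 m'.2.1 :=
        decode (h1 m) h1' hf hf' ho ho' (by rw [hmap])
      have hm : m = m' := Subtype.ext (eq_of_partner_eq _ _ _ _ hτeq)
      subst hm
      have has_eq : as = as' := (follow_unique as as' (fu m) hf hf' hmap).1
      subst has_eq
      rfl
    have hcard := Fintype.card_le_of_injective Φ hinj
    rw [Fintype.card_subtype, Fintype.card_prod, Fintype.card_prod, Fintype.card_fun,
      Fintype.card_fin, Fintype.card_fin] at hcard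
    have : ((univ.filter (fun p : (Σ m : {M : G.Subgraph // M.IsMatching ∧ M.vertsᶜ.ncard = 2},
        {as : List V // as ∈ fP m}) => p.2.1.length = k)).card : ℝ)
        ≤ ((Fintype.card {M : G.Subgraph // M.IsPerfectMatching} * (Fintype.card V * d ^ k) : ℕ) : ℝ) := by
      exact_mod_cast hcard
    calc _ ≤ _ := this
      _ = _ := by push_cast; ring
  -- the weighted sum over all pairs
  have hd' : (0 : ℝ) < d := by exact_mod_cast hd
  have hsum1 : (Fintype.card {M : G.Subgraph // M.IsMatching ∧ M.vertsᶜ.ncard = 2} : ℝ) * z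
      ≤ ∑ p : (Σ m : {M : G.Subgraph // M.IsMatching ∧ M.vertsᶜ.ncard = 2},
        {as : List V // as ∈ fP m}), (1 / d : ℝ) ^ (p.2.1.length + 1) := by
    rw [Fintype.sum_sigma]
    have : ∀ m : {M : G.Subgraph // M.IsMatching ∧ M.vertsᶜ.ncard = 2},
        z ≤ ∑ y : {as : List V // as ∈ fP m}, (1 / d : ℝ) ^ (y.1.length + 1) := by
      intro m
      rw [Finset.sum_coe_sort (fP m) (fun as => (1 / d : ℝ) ^ (as.length + 1))]
      exact h3 m
    calc (Fintype.card {M : G.Subgraph // M.IsMatching ∧ M.vertsᶜ.ncard = 2} : ℝ) * z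
        = ∑ _m : {M : G.Subgraph // M.IsMatching ∧ M.vertsᶜ.ncard = 2}, z := by
          rw [Finset.sum_const, Finset.card_univ, nsmul_eq_mul]
      _ ≤ _ := Finset.sum_le_sum (fun m _ => this m)
  have hsum2 : ∑ p : (Σ m : {M : G.Subgraph // M.IsMatching ∧ M.vertsᶜ.ncard = 2},
        {as : List V // as ∈ fP m}), (1 / d : ℝ) ^ (p.2.1.length + 1)
      ≤ ∑ k ∈ range (K + 1), (1 / d : ℝ) ^ (k + 1) *
          ((Fintype.card {M : G.Subgraph // M.IsPerfectMatching} : ℝ) * Fintype.card V * d ^ k) := by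
    rw [← Finset.sum_fiberwise_of_maps_to (s := univ) (t := range (K + 1))
      (g := fun p : (Σ m : {M : G.Subgraph // M.IsMatching ∧ M.vertsᶜ.ncard = 2},
        {as : List V // as ∈ fP m}) => p.2.1.length)]
    · apply Finset.sum_le_sum
      intro k _
      calc ∑ p ∈ univ.filter (fun p : (Σ m : {M : G.Subgraph // M.IsMatching ∧ M.vertsᶜ.ncard = 2},
              {as : List V // as ∈ fP m}) => p.2.1.length = k), (1 / d : ℝ) ^ (p.2.1.length + 1)
          = ∑ p ∈ univ.filter (fun p : (Σ m : {M : G.Subgraph // M.IsMatching ∧ M.vertsᶜ.ncard = 2},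
              {as : List V // as ∈ fP m}) => p.2.1.length = k), (1 / d : ℝ) ^ (k + 1) := by
            apply Finset.sum_congr rfl
            intro p hp
            rw [(Finset.mem_filter.mp hp).2]
        _ = (1 / d : ℝ) ^ (k + 1) * (univ.filter (fun p : (Σ m : {M : G.Subgraph //
              M.IsMatching ∧ M.vertsᶜ.ncard = 2}, {as : List V // as ∈ fP m}) =>
              p.2.1.length = k)).card := by
            rw [Finset.sum_const, nsmul_eq_mul, mul_comm]
        _ ≤ _ := by
            apply mul_le_mul_of_nonneg_left (hcount k)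
            positivity
    · intro p _
      rw [Finset.mem_range]
      have := (h2 p.1 p.2.1 p.2.2).2
      omega
  have hsum3 : ∑ k ∈ range (K + 1), (1 / d : ℝ) ^ (k + 1) *
          ((Fintype.card {M : G.Subgraph // M.IsPerfectMatching} : ℝ) * Fintype.card V * d ^ k)
      = ((K : ℝ) + 1) * Fintype.card V / d
          * Fintype.card {M : G.Subgraph // M.IsPerfectMatching} := by
    have : ∀ k ∈ range (K + 1), (1 / d : ℝ) ^ (k + 1) *
          ((Fintype.card {M : G.Subgraph // M.IsPerfectMatching} : ℝ) * Fintype.card V * d ^ k)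
        = (Fintype.card V : ℝ) / d * Fintype.card {M : G.Subgraph // M.IsPerfectMatching} := by
      intro k _
      rw [pow_succ, one_div, inv_pow]
      field_simp
    rw [Finset.sum_congr rfl this, Finset.sum_const, Finset.card_range, nsmul_eq_mul]
    push_cast
    ring
  rw [Nat.card_eq_fintype_card, Nat.card_eq_fintype_card]
  calc _ ≤ _ := hsum1
    _ ≤ _ := hsum2
    _ = _ := hsum3

end Vale.Agent.H83.Poly
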