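import Mathlib

/-!
Definitions for the polynomial bound on near-perfect versus perfect matchings in regular
spectral expanders (weighted count of short augmenting paths).

Setting: `G` is `d`-regular on `V`, `τ : V → V` is the partner map of a near-perfect matching
with holes `u`, `v` (an involution fixing exactly `u` and `v`), and `I : Finset V` is an
orientation: a set containing exactly one endpoint of every matching edge (the inner vertices);
the other endpoints are the outer vertices.  A restricted alternating step goes from a vertex `x`
along a graph edge to an inner vertex `y ∈ I` and then along the matching edge to `τ y`.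
-/

namespace Vale.Agent.H83.Poly

open Finset

variable {V : Type*} [Fintype V] [DecidableEq V]

/-- weight of one restricted alternating step from `x` to `x'`: the step passes through the
inner vertex `τ x'`, which has to be adjacent to `x` and to lie in `I`; weight `1/d`. -/
noncomputable def qk (G : SimpleGraph V) [DecidableRel G.Adj] (d : ℕ) (τ : V → V) (I : Finset V)
    (x x' : V) : ℝ :=
  if G.Adj x (τ x') ∧ τ x' ∈ I then (1 / d : ℝ) else 0

/-- weight of the final step from `x` to the hole `v`: `1/d` if `x` is adjacent to `v`. -/
noncomputable def bv (G : SimpleGraph V) [DecidableRel G.Adj] (d : ℕ) (v : V) (x : V) : ℝ :=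
  if G.Adj x v then (1 / d : ℝ) else 0

/-- `bet K x`: total weight of the restricted alternating walks from `x` with exactly `K`
steps followed by the final step to `v`. -/
noncomputable def bet (G : SimpleGraph V) [DecidableRel G.Adj] (d : ℕ) (τ : V → V) (I : Finset V)
    (v : V) : ℕ → V → ℝ
  | 0, x => bv G d v x
  | K + 1, x => ∑ z, qk G d τ I x z * bet G d τ I v K z

/-- `wsum K F x`: total weight of the restricted alternating walks from `x` with at most `K`
steps, all of whose steps end outside `F`, followed by the final step to `v`. -/
noncomputable def wsum (G : SimpleGraph V) [DecidableRel G.Adj] (d : ℕ) (τ : V → V) (I : Finset V)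
    (v : V) : ℕ → Finset V → V → ℝ
  | 0, _, x => bv G d v x
  | K + 1, F, x => bv G d v x + ∑ z ∈ univ \ F, qk G d τ I x z * wsum G d τ I v K F z

/-- `ssum K F x`: the same for self-avoiding walks: a step from `x` must end outside
`insert x F`, and afterwards `x` is forbidden as well. -/
noncomputable def ssum (G : SimpleGraph V) [DecidableRel G.Adj] (d : ℕ) (τ : V → V) (I : Finset V)
    (v : V) : ℕ → Finset V → V → ℝ
  | 0, _, x => bv G d v x
  | K + 1, F, x => bv G d v x +
      ∑ z ∈ univ \ insert x F, qk G d τ I x z * ssum G d τ I v K (insert x F) z

/-- `pw F j x' x`: total weight of the restricted walks with exactly `j` steps from `x'` to `x`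
all of whose steps end outside `F`. -/
noncomputable def pw (G : SimpleGraph V) [DecidableRel G.Adj] (d : ℕ) (τ : V → V) (I : Finset V)
    (F : Finset V) : ℕ → V → V → ℝ
  | 0, x', x => if x' = x then 1 else 0
  | j + 1, x', x => ∑ z ∈ univ \ F, qk G d τ I x' z * pw G d τ I F j z x

/-- weight of one unrestricted alternating step from `x` to `x'` (through `τ x'`). -/
noncomputable def altQ (G : SimpleGraph V) [DecidableRel G.Adj] (d : ℕ) (τ : V → V)
    (x x' : V) : ℝ :=
  if G.Adj x (τ x') then (1 / d : ℝ) else 0

/-- `altPow j x' x`: total weight of the unrestricted alternating walks with exactly `j` steps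
from `x'` to `x`. -/
noncomputable def altPow (G : SimpleGraph V) [DecidableRel G.Adj] (d : ℕ) (τ : V → V) :
    ℕ → V → V → ℝ
  | 0, x', x => if x' = x then 1 else 0
  | j + 1, x', x => ∑ z, altQ G d τ x' z * altPow G d τ j z x

end Vale.Agent.H83.Poly
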