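import Vale.Agent.H83.ExpanderCount

/-!
The dense case: a `d`-regular graph with `24 * lam ≤ d` and `d ≤ 288` has at most `2 d` vertices,
and in a `d`-regular graph with at most `2 d` vertices every near-perfect matching has an
augmenting path with at most one inner vertex.
-/

namespace Vale.Agent.H83.Poly

open Finset SimpleGraph Vale.Agent.H83.Matchings

variable {V : Type*} [Fintype V] [DecidableEq V] {G : SimpleGraph V} [DecidableRel G.Adj]

lemma dense_card_le (d : ℕ) (lam : ℝ) (hd : 0 < d) (hlam : 0 ≤ lam)
    (hreg : ∀ x, G.degree x = d)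
    (hspec : ∀ f : V → ℝ, ∑ x, f x = 0 →
      ∑ x, (∑ y ∈ G.neighborFinset x, f y) ^ 2 ≤ lam ^ 2 * ∑ x, f x ^ 2)
    (hgap : 24 * lam ≤ d) (hd288 : d ≤ 288) (x : V) : Fintype.card V ≤ 2 * d := by
  by_contra hcon
  push Not at hcon
  have hNpos : (0 : ℝ) < Fintype.card V := by
    have : 0 < Fintype.card V := Fintype.card_pos_iff.mpr ⟨x⟩
    exact_mod_cast this
  obtain ⟨c, hc⟩ : ∃ c : ℝ, c = 1 / (Fintype.card V : ℝ) := ⟨_, rfl⟩
  have hcN : c * Fintype.card V = 1 := by rw [hc]; field_simp
  obtain ⟨f, hfdef⟩ : ∃ f : V → ℝ, f = fun z => (if z = x then (1 : ℝ) else 0) - c := ⟨_, rfl⟩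
  have hf0 : ∑ z, f z = 0 := by
    rw [hfdef]
    simp only [Finset.sum_sub_distrib, Finset.sum_ite_eq', Finset.mem_univ, if_true,
      Finset.sum_const, Finset.card_univ, nsmul_eq_mul]
    linarith
  have hf2 : ∑ z, f z ^ 2 = 1 - c := by
    have e : ∀ z, f z ^ 2 = (if z = x then (1 : ℝ) else 0) * (1 - 2 * c) + c ^ 2 := by
      intro z
      rw [hfdef]
      by_cases hz : z = x
      · simp only [hz, if_true]; ring
      · simp only [hz, if_false]; ring
    simp_rw [e]
    rw [Finset.sum_add_distrib, ← Finset.sum_mul]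
    simp only [Finset.sum_ite_eq', Finset.mem_univ, if_true, Finset.sum_const, Finset.card_univ,
      nsmul_eq_mul]
    have : (Fintype.card V : ℝ) * c ^ 2 = c := by
      calc (Fintype.card V : ℝ) * c ^ 2 = (c * Fintype.card V) * c := by ring
        _ = c := by rw [hcN]; ring
    linarith
  have hA : ∀ z, ∑ y ∈ G.neighborFinset z, f y = (if G.Adj z x then (1 : ℝ) else 0) - d * c := by
    intro z
    rw [hfdef]
    simp only [Finset.sum_sub_distrib, Finset.sum_const, nsmul_eq_mul]
    have h1 : (G.neighborFinset z).card = d := hreg z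
    rw [h1]
    congr 1
    rw [Finset.sum_ite_eq']
    simp [SimpleGraph.mem_neighborFinset]
  have hA2 : ∑ z, (∑ y ∈ G.neighborFinset z, f y) ^ 2 = d * (1 - d * c) := by
    have e : ∀ z, (∑ y ∈ G.neighborFinset z, f y) ^ 2
        = (if G.Adj z x then (1 : ℝ) else 0) * (1 - 2 * (d * c)) + (d * c) ^ 2 := by
      intro z
      rw [hA z]
      by_cases hz : G.Adj z x
      · simp only [hz, if_true]; ring
      · simp only [hz, if_false]; ring
    simp_rw [e]
    rw [Finset.sum_add_distrib, ← Finset.sum_mul]
    have h1 : ∑ z, (if G.Adj z x then (1 : ℝ) else 0) = d := by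
      have : ∑ z, (if G.Adj z x then (1 : ℝ) else 0) = ((G.neighborFinset x).card : ℝ) := by
        rw [Finset.card_eq_sum_ones]
        push_cast
        rw [G.neighborFinset_eq_filter, Finset.sum_filter]
        apply Finset.sum_congr rfl
        intro z _
        simp only [G.adj_comm z x]
      rw [this]
      have h2 : (G.neighborFinset x).card = d := hreg x
      rw [h2]
    rw [h1]
    simp only [Finset.sum_const, Finset.card_univ, nsmul_eq_mul]
    have : (Fintype.card V : ℝ) * (d * c) ^ 2 = d * (d * c) := by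
      calc (Fintype.card V : ℝ) * (d * c) ^ 2 = (c * Fintype.card V) * (d * (d * c)) := by ring
        _ = d * (d * c) := by rw [hcN]; ring
    rw [this]
    ring
  have hs := hspec f hf0
  rw [hA2, hf2] at hs
  -- hs : d * (1 - d * c) ≤ lam ^ 2 * (1 - c)
  have hdr : (0 : ℝ) < d := by exact_mod_cast hd
  have hlam2 : lam ^ 2 ≤ (d : ℝ) ^ 2 / 576 := by
    have : lam ≤ d / 24 := by linarith
    nlinarith
  have hd288r : (d : ℝ) ≤ 288 := by exact_mod_cast hd288
  have hNr : 2 * (d : ℝ) + 1 ≤ Fintype.card V := by exact_mod_cast hcon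
  have hc0 : 0 < c := by rw [hc]; positivity
  have hc1 : c ≤ 1 := by
    have : (1 : ℝ) ≤ Fintype.card V := by linarith
    rw [hc, div_le_one hNpos]
    exact this
  -- multiply by `N`: `d (N - d) ≤ lam^2 (N - 1)`
  have h1 : (d : ℝ) * (Fintype.card V - d) ≤ lam ^ 2 * (Fintype.card V - 1) := by
    have := mul_le_mul_of_nonneg_right hs hNpos.le
    have e1 : (d : ℝ) * (1 - d * c) * Fintype.card V = d * (Fintype.card V - d) := by
      calc (d : ℝ) * (1 - d * c) * Fintype.card V
          = d * (Fintype.card V - d * (c * Fintype.card V)) := by ring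
        _ = d * (Fintype.card V - d) := by rw [hcN]; ring
    have e2 : lam ^ 2 * (1 - c) * Fintype.card V = lam ^ 2 * (Fintype.card V - 1) := by
      calc lam ^ 2 * (1 - c) * Fintype.card V
          = lam ^ 2 * (Fintype.card V - c * Fintype.card V) := by ring
        _ = lam ^ 2 * (Fintype.card V - 1) := by rw [hcN]
    linarith
  have h2 : lam ^ 2 * ((Fintype.card V : ℝ) - 1) ≤ (d : ℝ) ^ 2 / 576 * (Fintype.card V - 1) :=
    mul_le_mul_of_nonneg_right hlam2 (by linarith)
  have h3 : 576 * ((Fintype.card V : ℝ) - d) ≤ d * (Fintype.card V - 1) := by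
    have : (d : ℝ) * (576 * ((Fintype.card V : ℝ) - d)) ≤ d * (d * (Fintype.card V - 1)) := by
      nlinarith
    exact le_of_mul_le_mul_left this hdr
  nlinarith

lemma dense_aug (d : ℕ) (hreg : ∀ x, G.degree x = d) (hN : Fintype.card V ≤ 2 * d)
    {τ : V → V} {u v : V} (hτ : IsNPM G τ u v) :
    ∃ as : List V, IsAug G τ u v as ∧ as.length ≤ 1 := by
  by_cases huv : G.Adj u v
  · exact ⟨[], ⟨trivial, huv, List.nodup_nil, by simp⟩, by simp⟩
  · have hτinj : Function.Injective τ := fun a b h => hτ.inj h
    have hA : ((G.neighborFinset u).image τ).card = d := by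
      rw [Finset.card_image_of_injective _ hτinj]
      exact hreg u
    have hB : (G.neighborFinset v).card = d := hreg v
    have hsubA : (G.neighborFinset u).image τ ⊆ (univ.erase u).erase v := by
      intro w hw
      obtain ⟨y, hy, rfl⟩ := Finset.mem_image.mp hw
      have hyadj : G.Adj u y := (G.mem_neighborFinset u y).mp hy
      rw [Finset.mem_erase, Finset.mem_erase]
      refine ⟨?_, ?_, Finset.mem_univ _⟩
      · intro h
        have : y = v := hτ.apply_eq_v h
        exact huv (this ▸ hyadj)
      · intro h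
        have : y = u := hτ.apply_eq_u h
        exact G.ne_of_adj hyadj this.symm
    have hsubB : G.neighborFinset v ⊆ (univ.erase u).erase v := by
      intro w hw
      have hwadj : G.Adj v w := (G.mem_neighborFinset v w).mp hw
      rw [Finset.mem_erase, Finset.mem_erase]
      refine ⟨?_, ?_, Finset.mem_univ _⟩
      · intro h
        exact G.ne_of_adj hwadj h.symm
      · intro h
        exact huv (h ▸ hwadj.symm)
    have hcardE : ((univ.erase u).erase v : Finset V).card = Fintype.card V - 2 := by
      rw [Finset.card_erase_of_mem, Finset.card_erase_of_mem (Finset.mem_univ u),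
        Finset.card_univ]
      · omega
      · rw [Finset.mem_erase]
        exact ⟨hτ.ne.symm, Finset.mem_univ v⟩
    have hnd : ¬ Disjoint ((G.neighborFinset u).image τ) (G.neighborFinset v) := by
      intro hdis
      have h1 := Finset.card_le_card (Finset.union_subset hsubA hsubB)
      rw [Finset.card_union_of_disjoint hdis, hA, hB, hcardE] at h1
      have hdpos : 0 < d := by
        by_contra h0
        have hd0 : d = 0 := by omega
        have h2 : 2 ≤ Fintype.card V := by
          have : ({u, v} : Finset V).card ≤ Fintype.card V := Finset.card_le_univ _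
          rw [Finset.card_pair hτ.ne] at this
          exact this
        omega
      omega
    rw [Finset.not_disjoint_iff] at hnd
    obtain ⟨w, hwA, hwB⟩ := hnd
    obtain ⟨y, hy, rfl⟩ := Finset.mem_image.mp hwA
    have hyadj : G.Adj u y := (G.mem_neighborFinset u y).mp hy
    have hlast : G.Adj (τ y) v := ((G.mem_neighborFinset v (τ y)).mp hwB).symm
    have hyu : y ≠ u := (G.ne_of_adj hyadj).symm
    have hyv : y ≠ v := fun h => huv (h ▸ hyadj)
    refine ⟨[y], ⟨⟨hyadj, trivial⟩, hlast, List.nodup_singleton y, ?_⟩, by simp⟩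
    intro a ha a' ha'
    rw [List.mem_singleton] at ha ha'
    rw [ha, ha']
    exact G.ne_of_adj (hτ.adj y hyu hyv)

end Vale.Agent.H83.Poly
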