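import Mathlib

/-!
Independence of events of the uniform measure on `P → Bool` that are determined by disjoint
sets of coordinates, in counting form.

Proof sketch.  For `ω ω' : P → Bool` let `mix ω ω' r = if r ∈ S then ω r else ω' r`.
The map `Φ (ω, ω') = (mix ω ω', mix ω' ω)` is an involution of `(P → Bool) × (P → Bool)`;
it maps `A ×ˢ C` into `(A ∩ C) ×ˢ univ` and `(A ∩ C) ×ˢ univ` into `A ×ˢ C`
(`mix ω ω'` agrees with `ω` on `S` and with `ω'` on `T`, because `S` and `T` are disjoint).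
Hence the two products have the same cardinality.
-/

namespace Vale.Agent.H83.Poly

open Finset

/-- the mixing of two configurations along a coordinate set -/
def mixOn {P : Type*} [DecidableEq P] (S : Finset P) (ω ω' : P → Bool) : P → Bool :=
  fun r => if r ∈ S then ω r else ω' r

theorem mixOn_of_mem {P : Type*} [DecidableEq P] (S : Finset P) (ω ω' : P → Bool) {r : P}
    (hr : r ∈ S) : mixOn S ω ω' r = ω r := by
  unfold mixOn
  rw [if_pos hr]

theorem mixOn_of_not_mem {P : Type*} [DecidableEq P] (S : Finset P) (ω ω' : P → Bool) {r : P}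
    (hr : r ∉ S) : mixOn S ω ω' r = ω' r := by
  unfold mixOn
  rw [if_neg hr]

theorem mixOn_mixOn {P : Type*} [DecidableEq P] (S : Finset P) (ω ω' : P → Bool) :
    mixOn S (mixOn S ω ω') (mixOn S ω' ω) = ω := by
  funext r
  by_cases hr : r ∈ S
  · rw [mixOn_of_mem S _ _ hr, mixOn_of_mem S _ _ hr]
  · rw [mixOn_of_not_mem S _ _ hr, mixOn_of_not_mem S _ _ hr]

theorem card_inter_of_determined {P : Type*} [Fintype P] [DecidableEq P]
    (S T : Finset P) (hST : Disjoint S T) (A C : Finset (P → Bool))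
    (hA : ∀ ω ω' : P → Bool, (∀ r ∈ S, ω r = ω' r) → (ω ∈ A ↔ ω' ∈ A))
    (hC : ∀ ω ω' : P → Bool, (∀ r ∈ T, ω r = ω' r) → (ω ∈ C ↔ ω' ∈ C)) :
    (A ∩ C).card * Fintype.card (P → Bool) = A.card * C.card := by
  have hTS : ∀ r ∈ T, r ∉ S := fun r hrT hrS => (Finset.disjoint_left.mp hST hrS) hrT
  rw [← Finset.card_univ, ← Finset.card_product, ← Finset.card_product]
  refine Finset.card_nbij'
    (fun x : (P → Bool) × (P → Bool) => (mixOn S x.1 x.2, mixOn S x.2 x.1))
    (fun x : (P → Bool) × (P → Bool) => (mixOn S x.1 x.2, mixOn S x.2 x.1)) ?_ ?_ ?_ ?_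
  · rintro ⟨ω, ω'⟩ hx
    have hx' := Finset.mem_product.mp (Finset.mem_coe.mp hx)
    have hω := Finset.mem_inter.mp hx'.1
    refine Finset.mem_coe.mpr (Finset.mem_product.mpr ⟨?_, ?_⟩)
    · exact (hA (mixOn S ω ω') ω (fun r hr => mixOn_of_mem S ω ω' hr)).2 hω.1
    · exact (hC (mixOn S ω' ω) ω (fun r hr => mixOn_of_not_mem S ω' ω (hTS r hr))).2 hω.2
  · rintro ⟨ω, ω'⟩ hx
    have hx' := Finset.mem_product.mp (Finset.mem_coe.mp hx)
    refine Finset.mem_coe.mpr (Finset.mem_product.mpr ⟨Finset.mem_inter.mpr ⟨?_, ?_⟩,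
      Finset.mem_univ _⟩)
    · exact (hA (mixOn S ω ω') ω (fun r hr => mixOn_of_mem S ω ω' hr)).2 hx'.1
    · exact (hC (mixOn S ω ω') ω' (fun r hr => mixOn_of_not_mem S ω ω' (hTS r hr))).2 hx'.2
  · rintro ⟨ω, ω'⟩ _
    exact Prod.ext (mixOn_mixOn S ω ω') (mixOn_mixOn S ω' ω)
  · rintro ⟨ω, ω'⟩ _
    exact Prod.ext (mixOn_mixOn S ω ω') (mixOn_mixOn S ω' ω)

end Vale.Agent.H83.Poly
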