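import Vale.Agent.H83.Poly.Defs

/-!
Self-avoiding walks versus all walks (a loop-erasure inequality, proved without loop erasure).

All quantities are nonnegative (`qk`, `bv` are `0` or `1/d`).  Write `w k F x = wsum .. k F x`,
`s k F x = ssum .. k F x`, `q = qk ..`, `b = bv ..`, `M j x' x = pw .. F j x' x`.

Step 1 (monotone): `w k F x ≤ w (k+1) F x`.
Step 2 (D): for `x ∉ F`, `x' ∉ F`, `x' ≠ x`:
  `w k F x' ≤ w k (insert x F) x' + ∑ i ∈ range k, M (i+1) x' x * w (k-(i+1)) F x`.
  Induction on `k` (for all `x'`): unfold `w (k+1) F x'`, split off the term `z = x`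
  (`q x' x * w k F x = M 1 x' x * w k F x`), apply the induction hypothesis to the terms
  `z ∉ insert x F`, and use `∑ z ∈ univ \ insert x F, q x' z * M (i+1) z x ≤ M (i+2) x' x`.
Step 3 (R): for `x ∉ F`:
  `∑ z ∈ univ \ F, q x z * w k F z ≤ ∑ z ∈ univ \ insert x F, q x z * w k (insert x F) z
      + ∑ j ∈ range (k+1), M (j+1) x x * w (k-j) F x`
  (split off `z = x`, apply (D) to the other terms).  With Step 1 and `hret` this gives
  `b x + ∑ z ∈ univ \ insert x F, q x z * w k (insert x F) z ≥ (1 - f) * w (k+1) F x`.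
Step 4: induction on `k` for the claim, using the recursion of `ssum`.
-/

namespace Vale.Agent.H83.Poly

open Finset

section LEaux

variable {V : Type*} [Fintype V] [DecidableEq V] (G : SimpleGraph V) [DecidableRel G.Adj]
  (d : ℕ) (τ : V → V) (I : Finset V) (v : V)

omit [Fintype V] in
theorem leh_qk_nonneg (x x' : V) : 0 ≤ qk G d τ I x x' := by
  unfold qk
  split_ifs
  · positivity
  · exact le_rfl

omit [Fintype V] [DecidableEq V] in
theorem leh_bv_nonneg (x : V) : 0 ≤ bv G d v x := by
  unfold bv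
  split_ifs
  · positivity
  · exact le_rfl

theorem leh_wsum_zero (F : Finset V) (x : V) : wsum G d τ I v 0 F x = bv G d v x := rfl

theorem leh_wsum_succ (k : ℕ) (F : Finset V) (x : V) :
    wsum G d τ I v (k + 1) F x =
      bv G d v x + ∑ z ∈ univ \ F, qk G d τ I x z * wsum G d τ I v k F z := rfl

theorem leh_ssum_zero (F : Finset V) (x : V) : ssum G d τ I v 0 F x = bv G d v x := rfl

theorem leh_ssum_succ (k : ℕ) (F : Finset V) (x : V) :
    ssum G d τ I v (k + 1) F x =
      bv G d v x +
        ∑ z ∈ univ \ insert x F, qk G d τ I x z * ssum G d τ I v k (insert x F) z := rfl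

theorem leh_pw_zero (F : Finset V) (x' x : V) :
    pw G d τ I F 0 x' x = if x' = x then 1 else 0 := rfl

theorem leh_pw_succ (F : Finset V) (j : ℕ) (x' x : V) :
    pw G d τ I F (j + 1) x' x = ∑ z ∈ univ \ F, qk G d τ I x' z * pw G d τ I F j z x := rfl

theorem leh_wsum_nonneg : ∀ (k : ℕ) (F : Finset V) (x : V), 0 ≤ wsum G d τ I v k F x
  | 0, F, x => by
      rw [leh_wsum_zero]
      exact leh_bv_nonneg G d v x
  | k + 1, F, x => by
      rw [leh_wsum_succ]
      refine add_nonneg (leh_bv_nonneg G d v x) (Finset.sum_nonneg ?_)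
      intro z _
      exact mul_nonneg (leh_qk_nonneg G d τ I x z) (leh_wsum_nonneg k F z)

theorem leh_pw_nonneg (F : Finset V) : ∀ (j : ℕ) (x' x : V), 0 ≤ pw G d τ I F j x' x
  | 0, x', x => by
      rw [leh_pw_zero]
      split_ifs
      · exact zero_le_one
      · exact le_rfl
  | j + 1, x', x => by
      rw [leh_pw_succ]
      refine Finset.sum_nonneg ?_
      intro z _
      exact mul_nonneg (leh_qk_nonneg G d τ I x' z) (leh_pw_nonneg F j z x)

theorem leh_wsum_mono_succ : ∀ (k : ℕ) (F : Finset V) (x : V),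
    wsum G d τ I v k F x ≤ wsum G d τ I v (k + 1) F x
  | 0, F, x => by
      rw [leh_wsum_succ, leh_wsum_zero]
      have h : 0 ≤ ∑ z ∈ univ \ F, qk G d τ I x z * wsum G d τ I v 0 F z :=
        Finset.sum_nonneg (fun z _ =>
          mul_nonneg (leh_qk_nonneg G d τ I x z) (leh_wsum_nonneg G d τ I v 0 F z))
      linarith
  | k + 1, F, x => by
      rw [leh_wsum_succ G d τ I v (k + 1), leh_wsum_succ G d τ I v k]
      have h : ∑ z ∈ univ \ F, qk G d τ I x z * wsum G d τ I v k F z ≤
          ∑ z ∈ univ \ F, qk G d τ I x z * wsum G d τ I v (k + 1) F z :=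
        Finset.sum_le_sum (fun z _ =>
          mul_le_mul_of_nonneg_left (leh_wsum_mono_succ k F z) (leh_qk_nonneg G d τ I x z))
      linarith

theorem leh_wsum_mono (F : Finset V) (x : V) {k k' : ℕ} (h : k ≤ k') :
    wsum G d τ I v k F x ≤ wsum G d τ I v k' F x := by
  induction h with
  | refl => exact le_rfl
  | step _ ih => exact ih.trans (leh_wsum_mono_succ G d τ I v _ F x)

theorem leh_sum_split (F : Finset V) (x : V) (hx : x ∉ F) (g : V → ℝ) :
    ∑ z ∈ univ \ F, g z = g x + ∑ z ∈ univ \ insert x F, g z := by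
  have h1 : univ \ F = insert x (univ \ insert x F) := by
    ext z
    simp only [mem_sdiff, mem_univ, true_and, mem_insert, not_or]
    constructor
    · intro hz
      by_cases hzx : z = x
      · exact Or.inl hzx
      · exact Or.inr ⟨hzx, hz⟩
    · intro hz
      rcases hz with hz | hz
      · rw [hz]
        exact hx
      · exact hz.2
  have h2 : x ∉ univ \ insert x F := by simp
  rw [h1, Finset.sum_insert h2]

theorem leh_pw_one (F : Finset V) (x' x : V) (hx : x ∉ F) :
    pw G d τ I F 1 x' x = qk G d τ I x' x := by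
  have h := leh_pw_succ G d τ I F 0 x' x
  rw [zero_add] at h
  rw [h]
  have h0 : ∀ z ∈ univ \ F, qk G d τ I x' z * pw G d τ I F 0 z x =
      if z = x then qk G d τ I x' z else 0 := by
    intro z _
    rw [leh_pw_zero]
    split_ifs
    · rw [mul_one]
    · rw [mul_zero]
  rw [Finset.sum_congr rfl h0, Finset.sum_ite_eq']
  have hmem : x ∈ univ \ F := by simp [hx]
  rw [if_pos hmem]

/-- the common step of (D) and (R) -/
theorem leh_step (F : Finset V) (x : V) (hx : x ∉ F) (k : ℕ) (x' : V)
    (hD : ∀ z : V, z ≠ x →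
      wsum G d τ I v k F z ≤ wsum G d τ I v k (insert x F) z +
        ∑ i ∈ range k, pw G d τ I F (i + 1) z x * wsum G d τ I v (k - (i + 1)) F x) :
    ∑ z ∈ univ \ F, qk G d τ I x' z * wsum G d τ I v k F z ≤
      ∑ z ∈ univ \ insert x F, qk G d τ I x' z * wsum G d τ I v k (insert x F) z +
        ∑ j ∈ range (k + 1), pw G d τ I F (j + 1) x' x * wsum G d τ I v (k - j) F x := by
  have hsplit : ∑ z ∈ univ \ F, qk G d τ I x' z * wsum G d τ I v k F z =
      qk G d τ I x' x * wsum G d τ I v k F x +
        ∑ z ∈ univ \ insert x F, qk G d τ I x' z * wsum G d τ I v k F z :=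
    leh_sum_split F x hx (fun z => qk G d τ I x' z * wsum G d τ I v k F z)
  have hA : ∑ z ∈ univ \ insert x F, qk G d τ I x' z * wsum G d τ I v k F z ≤
      ∑ z ∈ univ \ insert x F, qk G d τ I x' z * wsum G d τ I v k (insert x F) z +
        ∑ i ∈ range k,
          (∑ z ∈ univ \ insert x F, qk G d τ I x' z * pw G d τ I F (i + 1) z x) *
            wsum G d τ I v (k - (i + 1)) F x := by
    have h1 : ∀ z ∈ univ \ insert x F, qk G d τ I x' z * wsum G d τ I v k F z ≤
        qk G d τ I x' z * wsum G d τ I v k (insert x F) z +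
          ∑ i ∈ range k, (qk G d τ I x' z * pw G d τ I F (i + 1) z x) *
            wsum G d τ I v (k - (i + 1)) F x := by
      intro z hz
      have hzx : z ≠ x := by
        intro h
        rw [h] at hz
        simp at hz
      have h2 := mul_le_mul_of_nonneg_left (hD z hzx) (leh_qk_nonneg G d τ I x' z)
      rw [mul_add, Finset.mul_sum] at h2
      refine h2.trans (le_of_eq ?_)
      congr 1
      refine Finset.sum_congr rfl (fun i _ => ?_)
      ring
    refine (Finset.sum_le_sum h1).trans (le_of_eq ?_)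
    rw [Finset.sum_add_distrib, Finset.sum_comm]
    congr 1
    refine Finset.sum_congr rfl (fun i _ => ?_)
    rw [Finset.sum_mul]
  have hM : ∀ i : ℕ,
      ∑ z ∈ univ \ insert x F, qk G d τ I x' z * pw G d τ I F (i + 1) z x ≤
        pw G d τ I F (i + 1 + 1) x' x := by
    intro i
    have h3 : ∑ z ∈ univ \ F, qk G d τ I x' z * pw G d τ I F (i + 1) z x =
        qk G d τ I x' x * pw G d τ I F (i + 1) x x +
          ∑ z ∈ univ \ insert x F, qk G d τ I x' z * pw G d τ I F (i + 1) z x :=
      leh_sum_split F x hx (fun z => qk G d τ I x' z * pw G d τ I F (i + 1) z x)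
    have h0 : 0 ≤ qk G d τ I x' x * pw G d τ I F (i + 1) x x :=
      mul_nonneg (leh_qk_nonneg G d τ I x' x) (leh_pw_nonneg G d τ I F (i + 1) x x)
    rw [leh_pw_succ G d τ I F (i + 1) x' x]
    linarith
  have hC : ∑ i ∈ range k,
      (∑ z ∈ univ \ insert x F, qk G d τ I x' z * pw G d τ I F (i + 1) z x) *
        wsum G d τ I v (k - (i + 1)) F x ≤
      ∑ i ∈ range k, pw G d τ I F (i + 1 + 1) x' x * wsum G d τ I v (k - (i + 1)) F x :=
    Finset.sum_le_sum (fun i _ =>
      mul_le_mul_of_nonneg_right (hM i) (leh_wsum_nonneg G d τ I v _ F x))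
  have hR : ∑ j ∈ range (k + 1), pw G d τ I F (j + 1) x' x * wsum G d τ I v (k - j) F x =
      ∑ i ∈ range k, pw G d τ I F (i + 1 + 1) x' x * wsum G d τ I v (k - (i + 1)) F x +
        qk G d τ I x' x * wsum G d τ I v k F x := by
    rw [Finset.sum_range_succ']
    congr 1
    rw [zero_add, leh_pw_one G d τ I F x' x hx, Nat.sub_zero]
  rw [hsplit, hR]
  linarith

/-- Step 2 (D) -/
theorem leh_D (F : Finset V) (x : V) (hx : x ∉ F) :
    ∀ (k : ℕ) (x' : V), x' ≠ x →
      wsum G d τ I v k F x' ≤ wsum G d τ I v k (insert x F) x' +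
        ∑ i ∈ range k, pw G d τ I F (i + 1) x' x * wsum G d τ I v (k - (i + 1)) F x := by
  intro k
  induction k with
  | zero =>
      intro x' _
      rw [Finset.range_zero, Finset.sum_empty, add_zero, leh_wsum_zero, leh_wsum_zero]
  | succ k ih =>
      intro x' _
      have hs := leh_step G d τ I v F x hx k x' ih
      have hR : ∑ i ∈ range (k + 1),
          pw G d τ I F (i + 1) x' x * wsum G d τ I v (k + 1 - (i + 1)) F x =
          ∑ j ∈ range (k + 1), pw G d τ I F (j + 1) x' x * wsum G d τ I v (k - j) F x := by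
        refine Finset.sum_congr rfl (fun i _ => ?_)
        rw [Nat.add_sub_add_right]
      rw [hR, leh_wsum_succ G d τ I v k F x', leh_wsum_succ G d τ I v k (insert x F) x']
      linarith

/-- Step 3 (R) -/
theorem leh_R (F : Finset V) (x : V) (hx : x ∉ F) (k : ℕ) :
    ∑ z ∈ univ \ F, qk G d τ I x z * wsum G d τ I v k F z ≤
      ∑ z ∈ univ \ insert x F, qk G d τ I x z * wsum G d τ I v k (insert x F) z +
        ∑ j ∈ range (k + 1), pw G d τ I F (j + 1) x x * wsum G d τ I v (k - j) F x :=
  leh_step G d τ I v F x hx k x (leh_D G d τ I v F x hx k)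

/-- consequence of (R), Step 1 and the return bound -/
theorem leh_main (f : ℝ) (K : ℕ)
    (hret : ∀ (F : Finset V) (x : V), x ∉ F →
      ∑ j ∈ range (K + 1), pw G d τ I F (j + 1) x x ≤ f)
    (F : Finset V) (x : V) (hx : x ∉ F) (k : ℕ) (hk : k + 1 ≤ K) :
    (1 - f) * wsum G d τ I v (k + 1) F x ≤
      bv G d v x + ∑ z ∈ univ \ insert x F, qk G d τ I x z * wsum G d τ I v k (insert x F) z := by
  have hR := leh_R G d τ I v F x hx k
  have hW : 0 ≤ wsum G d τ I v (k + 1) F x := leh_wsum_nonneg G d τ I v (k + 1) F x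
  have h1 : ∑ j ∈ range (k + 1), pw G d τ I F (j + 1) x x * wsum G d τ I v (k - j) F x ≤
      (∑ j ∈ range (k + 1), pw G d τ I F (j + 1) x x) * wsum G d τ I v (k + 1) F x := by
    rw [Finset.sum_mul]
    refine Finset.sum_le_sum (fun j _ => ?_)
    refine mul_le_mul_of_nonneg_left ?_ (leh_pw_nonneg G d τ I F (j + 1) x x)
    exact leh_wsum_mono G d τ I v F x (by omega)
  have h2 : ∑ j ∈ range (k + 1), pw G d τ I F (j + 1) x x ≤
      ∑ j ∈ range (K + 1), pw G d τ I F (j + 1) x x := by
    refine Finset.sum_le_sum_of_subset_of_nonneg ?_ ?_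
    · intro j hj
      rw [Finset.mem_range] at hj ⊢
      omega
    · intro j _ _
      exact leh_pw_nonneg G d τ I F (j + 1) x x
  have h3 : (∑ j ∈ range (k + 1), pw G d τ I F (j + 1) x x) * wsum G d τ I v (k + 1) F x ≤
      f * wsum G d τ I v (k + 1) F x :=
    mul_le_mul_of_nonneg_right (h2.trans (hret F x hx)) hW
  have h4 := leh_wsum_succ G d τ I v k F x
  have h5 : (1 - f) * wsum G d τ I v (k + 1) F x =
      wsum G d τ I v (k + 1) F x - f * wsum G d τ I v (k + 1) F x := by ring
  rw [h5]
  linarith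

end LEaux

theorem ssum_ge_wsum {V : Type*} [Fintype V] [DecidableEq V] (G : SimpleGraph V)
    [DecidableRel G.Adj] (d : ℕ) (τ : V → V) (I : Finset V) (v : V) (f : ℝ) (K : ℕ)
    (hf0 : 0 ≤ f) (hf1 : f ≤ 1)
    (hret : ∀ (F : Finset V) (x : V), x ∉ F →
      ∑ j ∈ range (K + 1), pw G d τ I F (j + 1) x x ≤ f) :
    ∀ k ≤ K, ∀ (F : Finset V) (x : V), x ∉ F →
      (1 - f) ^ k * wsum G d τ I v k F x ≤ ssum G d τ I v k F x := by
  intro k
  induction k with
  | zero =>
      intro _ F x _
      rw [pow_zero, one_mul, leh_wsum_zero, leh_ssum_zero]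
  | succ k ih =>
      intro hk F x hx
      have hk' : k ≤ K := Nat.le_of_succ_le hk
      have h1f : 0 ≤ 1 - f := by linarith
      have h1f' : 1 - f ≤ 1 := by linarith
      have hpow0 : 0 ≤ (1 - f) ^ k := pow_nonneg h1f k
      have hpow1 : (1 - f) ^ k ≤ 1 := pow_le_one₀ h1f h1f'
      have hmain := leh_main G d τ I v f K hret F x hx k hk
      have hb := leh_bv_nonneg G d v x
      have hsum : ∑ z ∈ univ \ insert x F,
          qk G d τ I x z * ((1 - f) ^ k * wsum G d τ I v k (insert x F) z) ≤
          ∑ z ∈ univ \ insert x F, qk G d τ I x z * ssum G d τ I v k (insert x F) z := by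
        refine Finset.sum_le_sum (fun z hz => ?_)
        have hz' : z ∉ insert x F := (Finset.mem_sdiff.mp hz).2
        exact mul_le_mul_of_nonneg_left (ih hk' (insert x F) z hz') (leh_qk_nonneg G d τ I x z)
      have hb' : (1 - f) ^ k * bv G d v x ≤ bv G d v x := mul_le_of_le_one_left hb hpow1
      rw [leh_ssum_succ]
      calc (1 - f) ^ (k + 1) * wsum G d τ I v (k + 1) F x
          = (1 - f) ^ k * ((1 - f) * wsum G d τ I v (k + 1) F x) := by ring
        _ ≤ (1 - f) ^ k * (bv G d v x +
              ∑ z ∈ univ \ insert x F, qk G d τ I x z * wsum G d τ I v k (insert x F) z) :=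
            mul_le_mul_of_nonneg_left hmain hpow0
        _ = (1 - f) ^ k * bv G d v x + ∑ z ∈ univ \ insert x F,
              qk G d τ I x z * ((1 - f) ^ k * wsum G d τ I v k (insert x F) z) := by
            rw [mul_add, Finset.mul_sum]
            congr 1
            refine Finset.sum_congr rfl (fun z _ => ?_)
            ring
        _ ≤ bv G d v x +
              ∑ z ∈ univ \ insert x F, qk G d τ I x z * ssum G d τ I v k (insert x F) z := by
            linarith

end Vale.Agent.H83.Poly
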