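import Mathlib

/-!
Symmetric local lemma, counting form (uniform measure on a finite type).

Proof.  Write `G S = {ω | ∀ j ∈ S, ω ∉ B j}`.  By strong induction on `S` show for
all `S` and all `i`:  `0 < (G S).card`  and  `(B i ∩ G S).card ≤ 2 * p * (G S).card`.
Split `S = S₁ ∪ S₂`, `S₁ = S ∩ Γ i`, `S₂ = S \ Γ i`.
Then `(B i ∩ G S).card ≤ (B i ∩ G S₂).card ≤ p * (G S₂).card` (by `hind`, `hp`) and
`(G S).card ≥ (G S₂).card - ∑ j ∈ S₁, (B j ∩ G S₂).card ≥ (1 - 2 p D) (G S₂).card
 ≥ (G S₂).card / 2` by the induction hypothesis for `S₂` (strictly smaller as soon as `S₁` is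
nonempty) and `j ∈ S₁`.
Positivity: `G (insert j S) = G S \ B j` has at least `(1 - 2 p) (G S).card > 0` elements.
Finally take `S = univ`.
-/

namespace Vale.Agent.H83.Poly

open Finset

theorem lll_counting {Ω ι : Type*} [Fintype Ω] [DecidableEq Ω] [Fintype ι] [DecidableEq ι]
    (B : ι → Finset Ω) (Γ : ι → Finset ι) (p : ℝ) (D : ℕ)
    (hΩ : Nonempty Ω) (hD : 1 ≤ D)
    (hp : ∀ i, ((B i).card : ℝ) ≤ p * Fintype.card Ω)
    (hΓ : ∀ i, (Γ i).card ≤ D)
    (hpD : 4 * p * D ≤ 1)
    (hind : ∀ (i : ι) (J : Finset ι), Disjoint J (Γ i) →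
      ((B i ∩ univ.filter (fun ω => ∀ j ∈ J, ω ∉ B j)).card : ℝ) * Fintype.card Ω
        = (B i).card * (univ.filter (fun ω => ∀ j ∈ J, ω ∉ B j)).card) :
    ∃ ω : Ω, ∀ i, ω ∉ B i := by
  classical
  rcases isEmpty_or_nonempty ι with hι | ⟨⟨i₀⟩⟩
  · obtain ⟨ω⟩ := hΩ
    exact ⟨ω, fun i => (hι.false i).elim⟩
  have hN : (0 : ℝ) < Fintype.card Ω := by exact_mod_cast Fintype.card_pos
  have hp0 : 0 ≤ p := by
    have h1 := hp i₀
    by_contra h
    rw [not_le] at h
    have h3 : p * (Fintype.card Ω : ℝ) < 0 := mul_neg_of_neg_of_pos h hN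
    have h2 : (0 : ℝ) ≤ (B i₀).card := Nat.cast_nonneg _
    linarith
  have hD1 : (1 : ℝ) ≤ D := by exact_mod_cast hD
  have hp4 : 4 * p ≤ 1 := by nlinarith
  have key : ∀ S : Finset ι,
      0 < ((univ.filter (fun ω => ∀ j ∈ S, ω ∉ B j)).card : ℝ) ∧
      ∀ i, ((B i ∩ univ.filter (fun ω => ∀ j ∈ S, ω ∉ B j)).card : ℝ)
        ≤ 2 * p * (univ.filter (fun ω => ∀ j ∈ S, ω ∉ B j)).card := by
    intro S
    induction S using Finset.strongInduction with
    | H S ih =>
      have hpos : 0 < ((univ.filter (fun ω => ∀ j ∈ S, ω ∉ B j)).card : ℝ) := by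
        rcases S.eq_empty_or_nonempty with rfl | ⟨j, hj⟩
        · simpa using hN
        · have hS' : S.erase j ⊂ S := Finset.erase_ssubset hj
          obtain ⟨h1, h2⟩ := ih _ hS'
          have hsub : (univ.filter (fun ω => ∀ k ∈ S.erase j, ω ∉ B k)) \ B j
              ⊆ univ.filter (fun ω => ∀ k ∈ S, ω ∉ B k) := by
            intro ω hω
            simp only [mem_sdiff, mem_filter, mem_univ, true_and] at hω ⊢
            intro k hk
            by_cases hkj : k = j
            · subst hkj; exact hω.2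
            · exact hω.1 k (mem_erase.mpr ⟨hkj, hk⟩)
          have hc1 := Finset.card_le_card hsub
          have hc2 := Finset.card_sdiff_add_card_inter
            (univ.filter (fun ω => ∀ k ∈ S.erase j, ω ∉ B k)) (B j)
          rw [Finset.inter_comm] at hc2
          have hc3 : ((univ.filter (fun ω => ∀ k ∈ S.erase j, ω ∉ B k)).card : ℝ)
              ≤ (univ.filter (fun ω => ∀ k ∈ S, ω ∉ B k)).card
                + (B j ∩ univ.filter (fun ω => ∀ k ∈ S.erase j, ω ∉ B k)).card := by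
            have : (univ.filter (fun ω => ∀ k ∈ S.erase j, ω ∉ B k)).card
              ≤ (univ.filter (fun ω => ∀ k ∈ S, ω ∉ B k)).card
                + (B j ∩ univ.filter (fun ω => ∀ k ∈ S.erase j, ω ∉ B k)).card := by omega
            exact_mod_cast this
          have h4 := h2 j
          nlinarith
      refine ⟨hpos, fun i => ?_⟩
      have hdisj : Disjoint (S \ Γ i) (Γ i) := Finset.sdiff_disjoint
      have hI := hind i (S \ Γ i) hdisj
      have hpi := hp i
      -- abbreviations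
      set g2 : ℝ := ((univ.filter (fun ω => ∀ j ∈ S \ Γ i, ω ∉ B j)).card : ℝ) with hg2
      set gS : ℝ := ((univ.filter (fun ω => ∀ j ∈ S, ω ∉ B j)).card : ℝ) with hgS
      have hg2nn : 0 ≤ g2 := Nat.cast_nonneg _
      have hA : ((B i ∩ univ.filter (fun ω => ∀ j ∈ S \ Γ i, ω ∉ B j)).card : ℝ) ≤ p * g2 := by
        have h5 : ((B i ∩ univ.filter (fun ω => ∀ j ∈ S \ Γ i, ω ∉ B j)).card : ℝ)
            * Fintype.card Ω ≤ (p * g2) * Fintype.card Ω := by
          rw [hI]
          nlinarith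
        exact le_of_mul_le_mul_right h5 hN
      have hGsub : univ.filter (fun ω => ∀ j ∈ S, ω ∉ B j)
          ⊆ univ.filter (fun ω => ∀ j ∈ S \ Γ i, ω ∉ B j) := by
        intro ω hω
        simp only [mem_filter, mem_univ, true_and] at hω ⊢
        intro k hk
        exact hω k (mem_sdiff.mp hk).1
      have hB : ((B i ∩ univ.filter (fun ω => ∀ j ∈ S, ω ∉ B j)).card : ℝ)
          ≤ (B i ∩ univ.filter (fun ω => ∀ j ∈ S \ Γ i, ω ∉ B j)).card := by
        exact_mod_cast Finset.card_le_card (Finset.inter_subset_inter_left hGsub)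
      -- lower bound for `gS`
      have hsub2 : (univ.filter (fun ω => ∀ j ∈ S \ Γ i, ω ∉ B j))
          \ ((S ∩ Γ i).biUnion (fun j => B j ∩ univ.filter (fun ω => ∀ j ∈ S \ Γ i, ω ∉ B j)))
          ⊆ univ.filter (fun ω => ∀ j ∈ S, ω ∉ B j) := by
        intro ω hω
        simp only [mem_sdiff, mem_filter, mem_univ, true_and, mem_biUnion, mem_inter,
          not_exists, not_and] at hω ⊢
        intro k hk hkB
        by_cases hkΓ : k ∈ Γ i
        · exact hω.2 k ⟨hk, hkΓ⟩ hkB hω.1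
        · exact hω.1 k ⟨hk, hkΓ⟩ hkB
      have hc1 := Finset.card_le_card hsub2
      have hc2 := Finset.card_le_card_sdiff_add_card
        (s := univ.filter (fun ω => ∀ j ∈ S \ Γ i, ω ∉ B j))
        (t := (S ∩ Γ i).biUnion
          (fun j => B j ∩ univ.filter (fun ω => ∀ j ∈ S \ Γ i, ω ∉ B j)))
      have hc3 := Finset.card_biUnion_le (s := S ∩ Γ i)
        (t := fun j => B j ∩ univ.filter (fun ω => ∀ j ∈ S \ Γ i, ω ∉ B j))
      have hsum : (∑ j ∈ S ∩ Γ i,
          ((B j ∩ univ.filter (fun ω => ∀ j ∈ S \ Γ i, ω ∉ B j)).card : ℝ))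
          ≤ ∑ _j ∈ S ∩ Γ i, 2 * p * g2 := by
        apply Finset.sum_le_sum
        intro j hj
        have hj' := mem_inter.mp hj
        have hss : S \ Γ i ⊂ S := by
          refine ⟨Finset.sdiff_subset, fun h => ?_⟩
          exact (mem_sdiff.mp (h hj'.1)).2 hj'.2
        exact (ih _ hss).2 j
      have hcardS1 : (((S ∩ Γ i).card : ℕ) : ℝ) ≤ D := by
        have : (S ∩ Γ i).card ≤ D :=
          (Finset.card_le_card Finset.inter_subset_right).trans (hΓ i)
        exact_mod_cast this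
      have hsum2 : (∑ _j ∈ S ∩ Γ i, 2 * p * g2) ≤ D * (2 * p * g2) := by
        rw [Finset.sum_const, nsmul_eq_mul]
        apply mul_le_mul_of_nonneg_right hcardS1
        positivity
      have hnat : (univ.filter (fun ω => ∀ j ∈ S \ Γ i, ω ∉ B j)).card
          ≤ (univ.filter (fun ω => ∀ j ∈ S, ω ∉ B j)).card
            + ∑ j ∈ S ∩ Γ i,
              (B j ∩ univ.filter (fun ω => ∀ j ∈ S \ Γ i, ω ∉ B j)).card := by
        omega
      have hreal : g2 ≤ gS + ∑ j ∈ S ∩ Γ i,
          ((B j ∩ univ.filter (fun ω => ∀ j ∈ S \ Γ i, ω ∉ B j)).card : ℝ) := by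
        have := (Nat.cast_le (α := ℝ)).mpr hnat
        push_cast at this
        exact this
      have hlow : g2 ≤ gS + D * (2 * p * g2) := by linarith
      have hhalf : g2 ≤ 2 * gS := by nlinarith
      have : p * g2 ≤ 2 * p * gS := by nlinarith
      linarith
  obtain ⟨hpos, -⟩ := key univ
  have hne : (univ.filter (fun ω => ∀ j ∈ (univ : Finset ι), ω ∉ B j)).Nonempty := by
    rw [← Finset.card_pos]
    exact_mod_cast hpos
  obtain ⟨ω, hω⟩ := hne
  exact ⟨ω, fun i => (mem_filter.mp hω).2 i (mem_univ i)⟩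

end Vale.Agent.H83.Poly
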