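import Mathlib

/-!
Walk-independent spectral lemmas for the mass bound (row MASS).

`G` is `d`-regular on `V`, `N = card V`, `A h x = ∑ y ∈ G.neighborFinset x, h y`, and `hspec` is
the spectral hypothesis in the form used by the stubs.

* `ms_mean_step`: `∑ x, ((1/d) * A h x - (∑ h)/N)^2 ≤ (lam/d)^2 * ∑ h^2`.
* `ms_sq_step`: for `2 * card Y ≤ N`:
  `∑ x ∈ Y, ((1/d) * A h x)^2 ≤ (∑ h)^2 / N + 2 * (lam/d)^2 * ∑ h^2`.
* `ms_mixing`: `d * (∑ a) * (∑ g) / N - lam * √(∑ a^2) * √(∑ g^2) ≤ ∑ x, a x * A g x`.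
* `ms_mixing_of_spread`: the same without square roots, for spread vectors.
-/

namespace Vale.Agent.H83.Poly

open Finset

section MassSpec

variable {V : Type*} [Fintype V] [DecidableEq V]

omit [DecidableEq V] in
theorem ms_sum_sub_mean [Nonempty V] (h : V → ℝ) :
    ∑ x, (h x - (∑ y, h y) / (Fintype.card V : ℝ)) = 0 := by
  have hN : (Fintype.card V : ℝ) ≠ 0 := by
    have : 0 < Fintype.card V := Fintype.card_pos
    positivity
  rw [Finset.sum_sub_distrib, Finset.sum_const, Finset.card_univ, nsmul_eq_mul]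
  field_simp
  ring

omit [DecidableEq V] in
theorem ms_sum_sq_sub_mean [Nonempty V] (h : V → ℝ) :
    ∑ x, (h x - (∑ y, h y) / (Fintype.card V : ℝ)) ^ 2 =
      ∑ x, h x ^ 2 - (∑ y, h y) ^ 2 / (Fintype.card V : ℝ) := by
  have hN : (Fintype.card V : ℝ) ≠ 0 := by
    have : 0 < Fintype.card V := Fintype.card_pos
    positivity
  have h1 : ∀ x, (h x - (∑ y, h y) / (Fintype.card V : ℝ)) ^ 2 =
      h x ^ 2 - 2 * ((∑ y, h y) / (Fintype.card V : ℝ)) * h x +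
        ((∑ y, h y) / (Fintype.card V : ℝ)) ^ 2 := fun x => by ring
  rw [Finset.sum_congr rfl (fun x _ => h1 x), Finset.sum_add_distrib, Finset.sum_sub_distrib,
    ← Finset.mul_sum, Finset.sum_const, Finset.card_univ, nsmul_eq_mul]
  field_simp
  ring

omit [DecidableEq V] in
theorem ms_sum_sq_sub_mean_le (h : V → ℝ) :
    ∑ x, (h x - (∑ y, h y) / (Fintype.card V : ℝ)) ^ 2 ≤ ∑ x, h x ^ 2 := by
  rcases isEmpty_or_nonempty V with hV | hV
  · simp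
  · rw [ms_sum_sq_sub_mean h]
    have : 0 ≤ (∑ y, h y) ^ 2 / (Fintype.card V : ℝ) := by positivity
    linarith

variable (G : SimpleGraph V) [DecidableRel G.Adj]

omit [DecidableEq V] in
theorem ms_nbr_sub_const (d : ℕ) (hreg : ∀ x, G.degree x = d) (h : V → ℝ) (c : ℝ) (x : V) :
    ∑ y ∈ G.neighborFinset x, (h y - c) = ∑ y ∈ G.neighborFinset x, h y - d * c := by
  rw [Finset.sum_sub_distrib, Finset.sum_const, nsmul_eq_mul,
    G.card_neighborFinset_eq_degree, hreg]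

omit [DecidableEq V] in
/-- (S1) one averaging step contracts the deviation from the mean by `lam / d` in `ℓ²`. -/
theorem ms_mean_step (d : ℕ) (lam : ℝ) (hd : 0 < d) (hreg : ∀ x, G.degree x = d)
    (hspec : ∀ f : V → ℝ, ∑ x, f x = 0 →
      ∑ x, (∑ y ∈ G.neighborFinset x, f y) ^ 2 ≤ lam ^ 2 * ∑ x, f x ^ 2)
    (h : V → ℝ) :
    ∑ x, ((1 / (d : ℝ)) * (∑ y ∈ G.neighborFinset x, h y) -
        (∑ y, h y) / (Fintype.card V : ℝ)) ^ 2
      ≤ (lam / d) ^ 2 * ∑ x, h x ^ 2 := by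
  rcases isEmpty_or_nonempty V with hV | hV
  · simp
  · have hd' : (d : ℝ) ≠ 0 := by positivity
    have h1 := hspec (fun x => h x - (∑ y, h y) / (Fintype.card V : ℝ)) (ms_sum_sub_mean h)
    have h2 : ∀ x, (1 / (d : ℝ)) * (∑ y ∈ G.neighborFinset x, h y) -
        (∑ y, h y) / (Fintype.card V : ℝ) =
        (1 / (d : ℝ)) *
          ∑ y ∈ G.neighborFinset x, (h y - (∑ y, h y) / (Fintype.card V : ℝ)) := by
      intro x
      rw [ms_nbr_sub_const G d hreg h _ x]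
      field_simp
    have h3 : ∑ x, ((1 / (d : ℝ)) * (∑ y ∈ G.neighborFinset x, h y) -
        (∑ y, h y) / (Fintype.card V : ℝ)) ^ 2 =
        (1 / (d : ℝ)) ^ 2 *
          ∑ x, (∑ y ∈ G.neighborFinset x, (h y - (∑ y, h y) / (Fintype.card V : ℝ))) ^ 2 := by
      rw [Finset.mul_sum]
      refine Finset.sum_congr rfl (fun x _ => ?_)
      rw [h2 x, mul_pow]
    rw [h3]
    have h4 := ms_sum_sq_sub_mean_le h
    calc (1 / (d : ℝ)) ^ 2 *
          ∑ x, (∑ y ∈ G.neighborFinset x, (h y - (∑ y, h y) / (Fintype.card V : ℝ))) ^ 2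
        ≤ (1 / (d : ℝ)) ^ 2 *
            (lam ^ 2 * ∑ x, (h x - (∑ y, h y) / (Fintype.card V : ℝ)) ^ 2) :=
          mul_le_mul_of_nonneg_left h1 (sq_nonneg _)
      _ ≤ (1 / (d : ℝ)) ^ 2 * (lam ^ 2 * ∑ x, h x ^ 2) :=
          mul_le_mul_of_nonneg_left (mul_le_mul_of_nonneg_left h4 (sq_nonneg _)) (sq_nonneg _)
      _ = (lam / d) ^ 2 * ∑ x, h x ^ 2 := by ring

omit [DecidableEq V] in
/-- (S2) one averaging step followed by restriction to a set `Y` of at most half the vertices. -/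
theorem ms_sq_step (d : ℕ) (lam : ℝ) (hd : 0 < d) (hreg : ∀ x, G.degree x = d)
    (hspec : ∀ f : V → ℝ, ∑ x, f x = 0 →
      ∑ x, (∑ y ∈ G.neighborFinset x, f y) ^ 2 ≤ lam ^ 2 * ∑ x, f x ^ 2)
    (h : V → ℝ) (Y : Finset V) (hY : 2 * Y.card ≤ Fintype.card V) :
    ∑ x ∈ Y, ((1 / (d : ℝ)) * (∑ y ∈ G.neighborFinset x, h y)) ^ 2
      ≤ (∑ y, h y) ^ 2 / (Fintype.card V : ℝ) + 2 * (lam / d) ^ 2 * ∑ x, h x ^ 2 := by
  have hS1 := ms_mean_step G d lam hd hreg hspec h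
  have h1 : ∀ x ∈ Y, ((1 / (d : ℝ)) * (∑ y ∈ G.neighborFinset x, h y)) ^ 2 ≤
      2 * ((∑ y, h y) / (Fintype.card V : ℝ)) ^ 2 +
        2 * ((1 / (d : ℝ)) * (∑ y ∈ G.neighborFinset x, h y) -
          (∑ y, h y) / (Fintype.card V : ℝ)) ^ 2 := by
    intro x _
    nlinarith [sq_nonneg ((1 / (d : ℝ)) * (∑ y ∈ G.neighborFinset x, h y) -
      2 * ((∑ y, h y) / (Fintype.card V : ℝ)))]
  have h2 : ∑ x ∈ Y, ((1 / (d : ℝ)) * (∑ y ∈ G.neighborFinset x, h y) -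
        (∑ y, h y) / (Fintype.card V : ℝ)) ^ 2 ≤
      ∑ x, ((1 / (d : ℝ)) * (∑ y ∈ G.neighborFinset x, h y) -
        (∑ y, h y) / (Fintype.card V : ℝ)) ^ 2 :=
    Finset.sum_le_sum_of_subset_of_nonneg (Finset.subset_univ Y) (fun x _ _ => sq_nonneg _)
  have h3 : (2 * (Y.card : ℝ)) * ((∑ y, h y) / (Fintype.card V : ℝ)) ^ 2 ≤
      (∑ y, h y) ^ 2 / (Fintype.card V : ℝ) := by
    rcases Nat.eq_zero_or_pos (Fintype.card V) with hN | hN
    · have hY0 : Y.card = 0 := by omega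
      simp [hY0, hN]
    · have hN' : (0 : ℝ) < (Fintype.card V : ℝ) := by exact_mod_cast hN
      have hYr : (2 * (Y.card : ℝ)) ≤ (Fintype.card V : ℝ) := by exact_mod_cast hY
      calc (2 * (Y.card : ℝ)) * ((∑ y, h y) / (Fintype.card V : ℝ)) ^ 2
          ≤ (Fintype.card V : ℝ) * ((∑ y, h y) / (Fintype.card V : ℝ)) ^ 2 :=
            mul_le_mul_of_nonneg_right hYr (sq_nonneg _)
        _ = (∑ y, h y) ^ 2 / (Fintype.card V : ℝ) := by
            field_simp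
  calc ∑ x ∈ Y, ((1 / (d : ℝ)) * (∑ y ∈ G.neighborFinset x, h y)) ^ 2
      ≤ ∑ x ∈ Y, (2 * ((∑ y, h y) / (Fintype.card V : ℝ)) ^ 2 +
          2 * ((1 / (d : ℝ)) * (∑ y ∈ G.neighborFinset x, h y) -
            (∑ y, h y) / (Fintype.card V : ℝ)) ^ 2) := Finset.sum_le_sum h1
    _ = (2 * (Y.card : ℝ)) * ((∑ y, h y) / (Fintype.card V : ℝ)) ^ 2 +
          2 * ∑ x ∈ Y, ((1 / (d : ℝ)) * (∑ y ∈ G.neighborFinset x, h y) -
            (∑ y, h y) / (Fintype.card V : ℝ)) ^ 2 := by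
        rw [Finset.sum_add_distrib, Finset.sum_const, nsmul_eq_mul, ← Finset.mul_sum]
        ring
    _ ≤ (∑ y, h y) ^ 2 / (Fintype.card V : ℝ) + 2 * (lam / d) ^ 2 * ∑ x, h x ^ 2 := by
        linarith

omit [DecidableEq V] in
/-- (S3) expander mixing in the form needed: pairing of `a` with the neighbour sums of `g`. -/
theorem ms_mixing (d : ℕ) (lam : ℝ) (hlam : 0 ≤ lam) (hreg : ∀ x, G.degree x = d)
    (hspec : ∀ f : V → ℝ, ∑ x, f x = 0 →
      ∑ x, (∑ y ∈ G.neighborFinset x, f y) ^ 2 ≤ lam ^ 2 * ∑ x, f x ^ 2)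
    (a g : V → ℝ) :
    (d : ℝ) * (∑ x, a x) * (∑ x, g x) / (Fintype.card V : ℝ) -
        lam * Real.sqrt (∑ x, a x ^ 2) * Real.sqrt (∑ x, g x ^ 2)
      ≤ ∑ x, a x * ∑ y ∈ G.neighborFinset x, g y := by
  rcases isEmpty_or_nonempty V with hV | hV
  · simp
  · have h1 := hspec (fun x => g x - (∑ y, g y) / (Fintype.card V : ℝ)) (ms_sum_sub_mean g)
    have h2 : ∀ x, ∑ y ∈ G.neighborFinset x, g y =
        d * ((∑ y, g y) / (Fintype.card V : ℝ)) +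
          ∑ y ∈ G.neighborFinset x, (g y - (∑ y, g y) / (Fintype.card V : ℝ)) := by
      intro x
      rw [ms_nbr_sub_const G d hreg g _ x]
      ring
    have h3 : ∑ x, a x * ∑ y ∈ G.neighborFinset x, g y =
        d * ((∑ y, g y) / (Fintype.card V : ℝ)) * ∑ x, a x +
          ∑ x, a x * ∑ y ∈ G.neighborFinset x, (g y - (∑ y, g y) / (Fintype.card V : ℝ)) := by
      rw [Finset.mul_sum, ← Finset.sum_add_distrib]
      refine Finset.sum_congr rfl (fun x _ => ?_)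
      rw [h2 x]
      ring
    have h4 := Real.sum_mul_le_sqrt_mul_sqrt (univ : Finset V) (fun x => - a x)
      (fun x => ∑ y ∈ G.neighborFinset x, (g y - (∑ y, g y) / (Fintype.card V : ℝ)))
    have h4a : ∑ x, (- a x) ^ 2 = ∑ x, a x ^ 2 :=
      Finset.sum_congr rfl (fun x _ => neg_sq (a x))
    have h4b : ∑ x, (- a x) *
        ∑ y ∈ G.neighborFinset x, (g y - (∑ y, g y) / (Fintype.card V : ℝ)) =
        - ∑ x, a x * ∑ y ∈ G.neighborFinset x, (g y - (∑ y, g y) / (Fintype.card V : ℝ)) := by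
      rw [← Finset.sum_neg_distrib]
      refine Finset.sum_congr rfl (fun x _ => ?_)
      ring
    rw [h4a, h4b] at h4
    have h5 : Real.sqrt (∑ x,
        (∑ y ∈ G.neighborFinset x, (g y - (∑ y, g y) / (Fintype.card V : ℝ))) ^ 2) ≤
        lam * Real.sqrt (∑ x, g x ^ 2) := by
      have h6 := ms_sum_sq_sub_mean_le g
      calc Real.sqrt (∑ x,
            (∑ y ∈ G.neighborFinset x, (g y - (∑ y, g y) / (Fintype.card V : ℝ))) ^ 2)
          ≤ Real.sqrt (lam ^ 2 * ∑ x, g x ^ 2) :=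
            Real.sqrt_le_sqrt (h1.trans (mul_le_mul_of_nonneg_left h6 (sq_nonneg lam)))
        _ = lam * Real.sqrt (∑ x, g x ^ 2) := by
            rw [Real.sqrt_mul (sq_nonneg lam), Real.sqrt_sq hlam]
    have h7 : Real.sqrt (∑ x, a x ^ 2) * Real.sqrt (∑ x,
        (∑ y ∈ G.neighborFinset x, (g y - (∑ y, g y) / (Fintype.card V : ℝ))) ^ 2) ≤
        Real.sqrt (∑ x, a x ^ 2) * (lam * Real.sqrt (∑ x, g x ^ 2)) :=
      mul_le_mul_of_nonneg_left h5 (Real.sqrt_nonneg _)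
    have h8 : (d : ℝ) * ((∑ y, g y) / (Fintype.card V : ℝ)) * ∑ x, a x =
        (d : ℝ) * (∑ x, a x) * (∑ x, g x) / (Fintype.card V : ℝ) := by ring
    rw [h3, h8]
    have h9 : Real.sqrt (∑ x, a x ^ 2) * (lam * Real.sqrt (∑ x, g x ^ 2)) =
        lam * Real.sqrt (∑ x, a x ^ 2) * Real.sqrt (∑ x, g x ^ 2) := by ring
    linarith

omit [DecidableEq V] in
/-- (S3) without square roots, for vectors whose `ℓ²` mass is at most `c` times the squared
`ℓ¹` mass. -/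
theorem ms_mixing_of_spread (d : ℕ) (lam : ℝ) (hlam : 0 ≤ lam) (hreg : ∀ x, G.degree x = d)
    (hspec : ∀ f : V → ℝ, ∑ x, f x = 0 →
      ∑ x, (∑ y ∈ G.neighborFinset x, f y) ^ 2 ≤ lam ^ 2 * ∑ x, f x ^ 2)
    (a g : V → ℝ) (c : ℝ) (hc : 0 ≤ c) (ha0 : 0 ≤ ∑ x, a x) (hg0 : 0 ≤ ∑ x, g x)
    (ha : ∑ x, a x ^ 2 ≤ c * (∑ x, a x) ^ 2) (hg : ∑ x, g x ^ 2 ≤ c * (∑ x, g x) ^ 2) :
    ((d : ℝ) / (Fintype.card V : ℝ) - lam * c) * ((∑ x, a x) * (∑ x, g x))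
      ≤ ∑ x, a x * ∑ y ∈ G.neighborFinset x, g y := by
  have hm := ms_mixing G d lam hlam hreg hspec a g
  have h1 : Real.sqrt (∑ x, a x ^ 2) ≤ Real.sqrt c * (∑ x, a x) := by
    calc Real.sqrt (∑ x, a x ^ 2) ≤ Real.sqrt (c * (∑ x, a x) ^ 2) := Real.sqrt_le_sqrt ha
      _ = Real.sqrt c * (∑ x, a x) := by rw [Real.sqrt_mul hc, Real.sqrt_sq ha0]
  have h2 : Real.sqrt (∑ x, g x ^ 2) ≤ Real.sqrt c * (∑ x, g x) := by
    calc Real.sqrt (∑ x, g x ^ 2) ≤ Real.sqrt (c * (∑ x, g x) ^ 2) := Real.sqrt_le_sqrt hg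
      _ = Real.sqrt c * (∑ x, g x) := by rw [Real.sqrt_mul hc, Real.sqrt_sq hg0]
  have h3 : Real.sqrt (∑ x, a x ^ 2) * Real.sqrt (∑ x, g x ^ 2) ≤
      (Real.sqrt c * (∑ x, a x)) * (Real.sqrt c * (∑ x, g x)) :=
    mul_le_mul h1 h2 (Real.sqrt_nonneg _) (mul_nonneg (Real.sqrt_nonneg _) ha0)
  have h4 : (Real.sqrt c * (∑ x, a x)) * (Real.sqrt c * (∑ x, g x)) =
      c * ((∑ x, a x) * (∑ x, g x)) := by
    have h5 : Real.sqrt c * Real.sqrt c = c := Real.mul_self_sqrt hc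
    calc (Real.sqrt c * (∑ x, a x)) * (Real.sqrt c * (∑ x, g x))
        = (Real.sqrt c * Real.sqrt c) * ((∑ x, a x) * (∑ x, g x)) := by ring
      _ = c * ((∑ x, a x) * (∑ x, g x)) := by rw [h5]
  have h6 : lam * (Real.sqrt (∑ x, a x ^ 2) * Real.sqrt (∑ x, g x ^ 2)) ≤
      lam * (c * ((∑ x, a x) * (∑ x, g x))) :=
    mul_le_mul_of_nonneg_left (h3.trans (le_of_eq h4)) hlam
  have h7 : ((d : ℝ) / (Fintype.card V : ℝ) - lam * c) * ((∑ x, a x) * (∑ x, g x)) =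
      (d : ℝ) * (∑ x, a x) * (∑ x, g x) / (Fintype.card V : ℝ) -
        lam * (c * ((∑ x, a x) * (∑ x, g x))) := by ring
  rw [h7]
  have h8 : lam * Real.sqrt (∑ x, a x ^ 2) * Real.sqrt (∑ x, g x ^ 2) =
      lam * (Real.sqrt (∑ x, a x ^ 2) * Real.sqrt (∑ x, g x ^ 2)) := by ring
  linarith

end MassSpec

end Vale.Agent.H83.Poly
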