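import Vale.Agent.H83.Poly.Defs
import Vale.Agent.H83.Poly.Mass_Spec

/-!
Walk bookkeeping for the mass bound (row MASS): forward and backward half-walk vectors,
the identity `bet t x = (1/d) * ∑ y ∈ N(x), bw t y`, the pairing identity, the mass and
square recursions, and the final lower bound.
-/

namespace Vale.Agent.H83.Poly

open Finset

section MassWalk

variable {V : Type*} [Fintype V] [DecidableEq V]

/-- forward vectors: `fw 0` is the indicator of `u`, and one restricted step is applied at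
each stage. -/
noncomputable def fw (G : SimpleGraph V) [DecidableRel G.Adj] (d : ℕ) (τ : V → V) (I : Finset V)
    (u : V) : ℕ → V → ℝ
  | 0, x => if x = u then 1 else 0
  | t + 1, x' => ∑ x, fw G d τ I u t x * qk G d τ I x x'

/-- backward vectors: `bw 0` is the indicator of `v`, and `bw (t+1) y = bet t (τ y)` on `I`. -/
noncomputable def bw (G : SimpleGraph V) [DecidableRel G.Adj] (d : ℕ) (τ : V → V) (I : Finset V)
    (v : V) : ℕ → V → ℝ
  | 0, y => if y = v then 1 else 0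
  | t + 1, y => if y ∈ I then bet G d τ I v t (τ y) else 0

variable (G : SimpleGraph V) [DecidableRel G.Adj] (d : ℕ) (τ : V → V) (I : Finset V)

omit [Fintype V] in
theorem mw_qk_nonneg (x x' : V) : 0 ≤ qk G d τ I x x' := by
  unfold qk
  split_ifs
  · positivity
  · exact le_refl _

omit [Fintype V] [DecidableEq V] in
theorem mw_bv_nonneg (v x : V) : 0 ≤ bv G d v x := by
  unfold bv
  split_ifs
  · positivity
  · exact le_refl _

theorem mw_bet_nonneg (v : V) : ∀ (t : ℕ) (x : V), 0 ≤ bet G d τ I v t x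
  | 0, x => mw_bv_nonneg G d v x
  | t + 1, x => by
      show 0 ≤ ∑ z, qk G d τ I x z * bet G d τ I v t z
      exact Finset.sum_nonneg (fun z _ => mul_nonneg (mw_qk_nonneg G d τ I x z)
        (mw_bet_nonneg v t z))

theorem mw_fw_nonneg (u : V) : ∀ (t : ℕ) (x : V), 0 ≤ fw G d τ I u t x
  | 0, x => by
      show 0 ≤ (if x = u then (1 : ℝ) else 0)
      split_ifs <;> norm_num
  | t + 1, x => by
      show 0 ≤ ∑ z, fw G d τ I u t z * qk G d τ I z x
      exact Finset.sum_nonneg (fun z _ => mul_nonneg (mw_fw_nonneg u t z)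
        (mw_qk_nonneg G d τ I z x))

theorem mw_bw_nonneg (v : V) : ∀ (t : ℕ) (y : V), 0 ≤ bw G d τ I v t y
  | 0, y => by
      show 0 ≤ (if y = v then (1 : ℝ) else 0)
      split_ifs <;> norm_num
  | t + 1, y => by
      show 0 ≤ (if y ∈ I then bet G d τ I v t (τ y) else 0)
      split_ifs
      · exact mw_bet_nonneg G d τ I v t (τ y)
      · exact le_refl _

omit [DecidableEq V] in
/-- reindexing a sum along the involution `τ`. -/
theorem mw_sum_tau (hinv : ∀ x, τ (τ x) = x) (f : V → ℝ) : ∑ z, f z = ∑ y, f (τ y) := by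
  have hτ : Function.Involutive τ := hinv
  exact (Equiv.sum_comp hτ.toPerm f).symm

omit [DecidableEq V] in
/-- a sum over the neighbours as a sum over all vertices. -/
theorem mw_nbr_sum (x : V) (f : V → ℝ) :
    ∑ y ∈ G.neighborFinset x, f y = ∑ y, if G.Adj x y then f y else 0 := by
  rw [SimpleGraph.neighborFinset_eq_filter, Finset.sum_filter]

/-- `bet` through the backward vectors. -/
theorem mw_bet_eq (hinv : ∀ x, τ (τ x) = x) (v : V) (t : ℕ) (x : V) :
    bet G d τ I v t x = (1 / (d : ℝ)) * ∑ y ∈ G.neighborFinset x, bw G d τ I v t y := by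
  cases t with
  | zero =>
      show bv G d v x = (1 / (d : ℝ)) * ∑ y ∈ G.neighborFinset x, (if y = v then (1 : ℝ) else 0)
      rw [Finset.sum_ite_eq']
      unfold bv
      by_cases h : G.Adj x v
      · simp [h]
      · simp [h]
  | succ t =>
      show ∑ z, qk G d τ I x z * bet G d τ I v t z =
        (1 / (d : ℝ)) * ∑ y ∈ G.neighborFinset x, (if y ∈ I then bet G d τ I v t (τ y) else 0)
      rw [mw_sum_tau τ hinv, mw_nbr_sum, Finset.mul_sum]
      refine Finset.sum_congr rfl (fun y _ => ?_)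
      unfold qk
      rw [hinv y]
      by_cases h1 : G.Adj x y <;> by_cases h2 : y ∈ I <;> simp [h1, h2]

/-- the pairing identity. -/
theorem mw_pair (u v : V) : ∀ (t s : ℕ),
    ∑ x, fw G d τ I u t x * bet G d τ I v s x = bet G d τ I v (s + t) u
  | 0, s => by
      show ∑ x, (if x = u then (1 : ℝ) else 0) * bet G d τ I v s x = bet G d τ I v (s + 0) u
      simp
  | t + 1, s => by
      show ∑ x, (∑ z, fw G d τ I u t z * qk G d τ I z x) * bet G d τ I v s x =
        bet G d τ I v (s + (t + 1)) u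
      have h1 : ∑ x, (∑ z, fw G d τ I u t z * qk G d τ I z x) * bet G d τ I v s x =
          ∑ z, fw G d τ I u t z * bet G d τ I v (s + 1) z := by
        have h2 : ∀ z, fw G d τ I u t z * bet G d τ I v (s + 1) z =
            ∑ x, fw G d τ I u t z * qk G d τ I z x * bet G d τ I v s x := by
          intro z
          show fw G d τ I u t z * (∑ x, qk G d τ I z x * bet G d τ I v s x) = _
          rw [Finset.mul_sum]
          exact Finset.sum_congr rfl (fun x _ => by ring)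
        rw [Finset.sum_congr rfl (fun z _ => h2 z), Finset.sum_comm]
        exact Finset.sum_congr rfl (fun x _ => Finset.sum_mul _ _ _)
      rw [h1, mw_pair u v t (s + 1)]
      congr 1
      omega

omit [Fintype V] [DecidableEq V] in
theorem mw_ratio_bounds (d c : ℝ) (hd : 0 < d) (h1 : d ≤ 16 * c) (h2 : c ≤ d) :
    1 / 16 ≤ (1 / d) * c ∧ (1 / d) * c ≤ 1 := by
  have e : (1 / d) * c = c / d := by ring
  rw [e]
  constructor
  · rw [le_div_iff₀ hd]
    linarith
  · rw [div_le_one hd]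
    exact h2

/-- the row sums of the step kernel. -/
theorem mw_qk_row (hinv : ∀ x, τ (τ x) = x) (x : V) :
    ∑ x', qk G d τ I x x' =
      (1 / (d : ℝ)) * (((G.neighborFinset x).filter (fun y => y ∈ I)).card : ℝ) := by
  rw [mw_sum_tau τ hinv]
  have h1 : ∀ y, qk G d τ I x (τ y) = if G.Adj x y ∧ y ∈ I then (1 / (d : ℝ)) else 0 := by
    intro y
    unfold qk
    rw [hinv y]
  rw [Finset.sum_congr rfl (fun y _ => h1 y), ← Finset.sum_filter, Finset.sum_const,
    nsmul_eq_mul, SimpleGraph.neighborFinset_eq_filter, Finset.filter_filter]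
  ring

/-- the step kernel keeps between `1/16` and all of the mass at every vertex. -/
theorem mw_qk_row_bounds (hd : 0 < d) (hreg : ∀ x, G.degree x = d) (hinv : ∀ x, τ (τ x) = x)
    (hdegI : ∀ x, d ≤ 16 * ((G.neighborFinset x).filter (fun y => y ∈ I)).card) (x : V) :
    1 / 16 ≤ ∑ x', qk G d τ I x x' ∧ ∑ x', qk G d τ I x x' ≤ 1 := by
  rw [mw_qk_row G d τ I hinv x]
  have hd' : (0 : ℝ) < d := by exact_mod_cast hd
  have h1 : (d : ℝ) ≤ 16 * (((G.neighborFinset x).filter (fun y => y ∈ I)).card : ℝ) := by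
    exact_mod_cast hdegI x
  have h2 : (((G.neighborFinset x).filter (fun y => y ∈ I)).card : ℝ) ≤ d := by
    have h3 : ((G.neighborFinset x).filter (fun y => y ∈ I)).card ≤ d := by
      calc ((G.neighborFinset x).filter (fun y => y ∈ I)).card
          ≤ (G.neighborFinset x).card := Finset.card_filter_le _ _
        _ = d := by rw [G.card_neighborFinset_eq_degree, hreg]
    exact_mod_cast h3
  exact mw_ratio_bounds _ _ hd' h1 h2

omit [DecidableEq V] in
/-- a weighted sum with weights in `[1/16, 1]`. -/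
theorem mw_mass_bounds (h r : V → ℝ) (hh : ∀ x, 0 ≤ h x)
    (hr : ∀ x, 1 / 16 ≤ r x ∧ r x ≤ 1) :
    (∑ x, h x) / 16 ≤ ∑ x, h x * r x ∧ ∑ x, h x * r x ≤ ∑ x, h x := by
  constructor
  · rw [Finset.sum_div]
    refine Finset.sum_le_sum (fun x _ => ?_)
    have := mul_le_mul_of_nonneg_left (hr x).1 (hh x)
    linarith
  · refine Finset.sum_le_sum (fun x _ => ?_)
    have := mul_le_mul_of_nonneg_left (hr x).2 (hh x)
    linarith

/-- mass recursion for the forward vectors. -/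
theorem mw_fw_mass_succ (u : V) (t : ℕ) :
    ∑ x', fw G d τ I u (t + 1) x' = ∑ x, fw G d τ I u t x * ∑ x', qk G d τ I x x' := by
  show ∑ x', ∑ x, fw G d τ I u t x * qk G d τ I x x' = _
  rw [Finset.sum_comm]
  exact Finset.sum_congr rfl (fun x _ => (Finset.mul_sum _ _ _).symm)

theorem mw_fw_mass_zero (u : V) : ∑ x, fw G d τ I u 0 x = 1 := by
  show ∑ x, (if x = u then (1 : ℝ) else 0) = 1
  simp

theorem mw_fw_sq_zero (u : V) : ∑ x, fw G d τ I u 0 x ^ 2 = 1 := by
  show ∑ x, (if x = u then (1 : ℝ) else 0) ^ 2 = 1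
  have h : ∀ x : V, (if x = u then (1 : ℝ) else 0) ^ 2 = if x = u then (1 : ℝ) else 0 := by
    intro x
    split_ifs <;> norm_num
  rw [Finset.sum_congr rfl (fun x _ => h x)]
  simp

theorem mw_bw_mass_zero (v : V) : ∑ x, bw G d τ I v 0 x = 1 := by
  show ∑ x, (if x = v then (1 : ℝ) else 0) = 1
  simp

theorem mw_bw_sq_zero (v : V) : ∑ x, bw G d τ I v 0 x ^ 2 = 1 := by
  show ∑ x, (if x = v then (1 : ℝ) else 0) ^ 2 = 1
  have h : ∀ x : V, (if x = v then (1 : ℝ) else 0) ^ 2 = if x = v then (1 : ℝ) else 0 := by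
    intro x
    split_ifs <;> norm_num
  rw [Finset.sum_congr rfl (fun x _ => h x)]
  simp

omit [Fintype V] in
/-- membership of the partner in `I`. -/
theorem mw_tau_mem (u v : V) (hu : τ u = u) (hv : τ v = v) (huI : u ∉ I) (hvI : v ∉ I)
    (hI : ∀ x, x ≠ u → x ≠ v → (x ∈ I ↔ τ x ∉ I)) (x : V) :
    τ x ∈ I ↔ (x ∉ I ∧ x ≠ u ∧ x ≠ v) := by
  by_cases h1 : x = u
  · subst h1
    rw [hu]
    simp [huI]
  · by_cases h2 : x = v
    · subst h2
      rw [hv]
      simp [hvI]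
    · have h3 := hI x h1 h2
      constructor
      · intro h
        exact ⟨fun hx => (h3.1 hx) h, h1, h2⟩
      · intro h
        by_contra hc
        exact h.1 (h3.2 hc)

/-- mass recursion for the backward vectors. -/
theorem mw_bw_mass_succ (hinv : ∀ x, τ (τ x) = x) (u v : V) (hu : τ u = u) (hv : τ v = v)
    (huI : u ∉ I) (hvI : v ∉ I) (hI : ∀ x, x ≠ u → x ≠ v → (x ∈ I ↔ τ x ∉ I)) (t : ℕ) :
    ∑ y, bw G d τ I v (t + 1) y = ∑ w, bw G d τ I v t w *
      ((1 / (d : ℝ)) *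
        (((G.neighborFinset w).filter (fun y => y ∉ I ∧ y ≠ u ∧ y ≠ v)).card : ℝ)) := by
  show ∑ y, (if y ∈ I then bet G d τ I v t (τ y) else 0) = _
  rw [mw_sum_tau τ hinv]
  have h1 : ∀ y, (if τ y ∈ I then bet G d τ I v t (τ (τ y)) else 0) =
      ∑ w, if (G.Adj w y ∧ (y ∉ I ∧ y ≠ u ∧ y ≠ v)) then
        (1 / (d : ℝ)) * bw G d τ I v t w else 0 := by
    intro y
    rw [hinv y, mw_bet_eq G d τ I hinv v t y, mw_nbr_sum, Finset.mul_sum]
    by_cases h : τ y ∈ I
    · have h' := (mw_tau_mem τ I u v hu hv huI hvI hI y).1 h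
      rw [if_pos h]
      refine Finset.sum_congr rfl (fun w _ => ?_)
      by_cases ha : G.Adj y w
      · have ha' : G.Adj w y := ha.symm
        simp [ha, ha', h']
      · have ha' : ¬ G.Adj w y := fun hc => ha hc.symm
        simp [ha, ha']
    · have h' : ¬ (y ∉ I ∧ y ≠ u ∧ y ≠ v) :=
        fun hc => h ((mw_tau_mem τ I u v hu hv huI hvI hI y).2 hc)
      rw [if_neg h]
      symm
      refine Finset.sum_eq_zero (fun w _ => ?_)
      rw [if_neg (fun hc => h' hc.2)]
  rw [Finset.sum_congr rfl (fun y _ => h1 y), Finset.sum_comm]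
  refine Finset.sum_congr rfl (fun w _ => ?_)
  rw [← Finset.sum_filter, Finset.sum_const, nsmul_eq_mul, SimpleGraph.neighborFinset_eq_filter,
    Finset.filter_filter]
  ring

/-- the backward step keeps between `1/16` and all of the mass at every vertex. -/
theorem mw_bw_row_bounds (hd : 0 < d) (hreg : ∀ x, G.degree x = d) (u v : V)
    (hdegO : ∀ x, d ≤ 16 * ((G.neighborFinset x).filter
      (fun y => y ∉ I ∧ y ≠ u ∧ y ≠ v)).card) (w : V) :
    1 / 16 ≤ (1 / (d : ℝ)) *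
        (((G.neighborFinset w).filter (fun y => y ∉ I ∧ y ≠ u ∧ y ≠ v)).card : ℝ) ∧
      (1 / (d : ℝ)) *
        (((G.neighborFinset w).filter (fun y => y ∉ I ∧ y ≠ u ∧ y ≠ v)).card : ℝ) ≤ 1 := by
  have hd' : (0 : ℝ) < d := by exact_mod_cast hd
  have h1 : (d : ℝ) ≤ 16 *
      (((G.neighborFinset w).filter (fun y => y ∉ I ∧ y ≠ u ∧ y ≠ v)).card : ℝ) := by
    exact_mod_cast hdegO w
  have h2 : (((G.neighborFinset w).filter (fun y => y ∉ I ∧ y ≠ u ∧ y ≠ v)).card : ℝ) ≤ d := by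
    have h3 : ((G.neighborFinset w).filter (fun y => y ∉ I ∧ y ≠ u ∧ y ≠ v)).card ≤ d := by
      calc ((G.neighborFinset w).filter (fun y => y ∉ I ∧ y ≠ u ∧ y ≠ v)).card
          ≤ (G.neighborFinset w).card := Finset.card_filter_le _ _
        _ = d := by rw [G.card_neighborFinset_eq_degree, hreg]
    exact_mod_cast h3
  exact mw_ratio_bounds _ _ hd' h1 h2

/-- explicit form of one forward step. -/
theorem mw_fw_succ_eq (u : V) (t : ℕ) (x' : V) :
    fw G d τ I u (t + 1) x' =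
      if τ x' ∈ I then (1 / (d : ℝ)) * ∑ x ∈ G.neighborFinset (τ x'), fw G d τ I u t x
      else 0 := by
  show ∑ x, fw G d τ I u t x * qk G d τ I x x' = _
  by_cases h : τ x' ∈ I
  · rw [if_pos h, mw_nbr_sum, Finset.mul_sum]
    refine Finset.sum_congr rfl (fun x _ => ?_)
    unfold qk
    by_cases ha : G.Adj x (τ x')
    · have ha' : G.Adj (τ x') x := ha.symm
      rw [if_pos ⟨ha, h⟩, if_pos ha']
      ring
    · have ha' : ¬ G.Adj (τ x') x := fun hc => ha hc.symm
      rw [if_neg (fun hc => ha hc.1), if_neg ha']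
      ring
  · rw [if_neg h]
    refine Finset.sum_eq_zero (fun x _ => ?_)
    unfold qk
    rw [if_neg (fun hc => h hc.2), mul_zero]

/-- squares of the forward vectors after one step. -/
theorem mw_fw_sq_succ (hinv : ∀ x, τ (τ x) = x) (u : V) (t : ℕ) :
    ∑ x', fw G d τ I u (t + 1) x' ^ 2 =
      ∑ y ∈ I, ((1 / (d : ℝ)) * ∑ x ∈ G.neighborFinset y, fw G d τ I u t x) ^ 2 := by
  have h1 : ∀ y, fw G d τ I u (t + 1) (τ y) ^ 2 =
      if y ∈ I then ((1 / (d : ℝ)) * ∑ x ∈ G.neighborFinset y, fw G d τ I u t x) ^ 2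
      else 0 := by
    intro y
    rw [mw_fw_succ_eq, hinv y]
    split_ifs
    · rfl
    · norm_num
  rw [mw_sum_tau τ hinv, Finset.sum_congr rfl (fun y _ => h1 y), ← Finset.sum_filter]
  congr 1
  ext y
  simp

/-- squares of the backward vectors after one step. -/
theorem mw_bw_sq_succ (hinv : ∀ x, τ (τ x) = x) (v : V) (t : ℕ) :
    ∑ y, bw G d τ I v (t + 1) y ^ 2 =
      ∑ x ∈ I.image τ, ((1 / (d : ℝ)) * ∑ w ∈ G.neighborFinset x, bw G d τ I v t w) ^ 2 := by
  show ∑ y, (if y ∈ I then bet G d τ I v t (τ y) else 0) ^ 2 = _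
  have h1 : ∀ y, (if y ∈ I then bet G d τ I v t (τ y) else 0) ^ 2 =
      if y ∈ I then ((1 / (d : ℝ)) * ∑ w ∈ G.neighborFinset (τ y), bw G d τ I v t w) ^ 2
      else 0 := by
    intro y
    split_ifs
    · rw [mw_bet_eq G d τ I hinv v t (τ y)]
    · norm_num
  rw [Finset.sum_congr rfl (fun y _ => h1 y), ← Finset.sum_filter]
  have h2 : (univ.filter (fun y => y ∈ I)) = I := by
    ext y
    simp
  rw [h2, Finset.sum_image]
  intro a _ b _ hab
  have h3 := congrArg τ hab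
  rwa [hinv, hinv] at h3

/-- `I` and its image under `τ` are disjoint, so `I` has at most half of the vertices. -/
theorem mw_card_I (hinv : ∀ x, τ (τ x) = x) (u v : V) (huI : u ∉ I) (hvI : v ∉ I)
    (hI : ∀ x, x ≠ u → x ≠ v → (x ∈ I ↔ τ x ∉ I)) :
    2 * I.card ≤ Fintype.card V ∧ 2 * (I.image τ).card ≤ Fintype.card V := by
  have hdisj : Disjoint I (I.image τ) := by
    rw [Finset.disjoint_left]
    intro y hy hy'
    obtain ⟨z, hz, rfl⟩ := Finset.mem_image.1 hy'
    exact ((hI z (ne_of_mem_of_not_mem hz huI) (ne_of_mem_of_not_mem hz hvI)).1 hz) hy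
  have hinj : Function.Injective τ := by
    intro a b hab
    have h3 := congrArg τ hab
    rwa [hinv, hinv] at h3
  have hcard : (I.image τ).card = I.card := Finset.card_image_of_injective I hinj
  have h1 := Finset.card_le_univ (I ∪ I.image τ)
  rw [Finset.card_union_of_disjoint hdisj, hcard] at h1
  rw [hcard]
  omega

omit [Fintype V] [DecidableEq V] in
/-- the generic induction: spread of the half walks. -/
theorem mw_spread_ind (N ε : ℝ) (hN : 0 < N) (hε : ε ^ 2 ≤ 1 / 1024) (m n : ℕ → ℝ)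
    (hm0 : ∀ t, 0 ≤ m t) (h0 : n 0 ≤ m 0 ^ 2) (hm : ∀ t, m t ≤ 16 * m (t + 1))
    (hn : ∀ t, n (t + 1) ≤ m t ^ 2 / N + 2 * ε ^ 2 * n t) :
    ∀ t, n t ≤ ((512 * ε ^ 2) ^ t + 512 / N) * m t ^ 2 := by
  intro t
  induction t with
  | zero =>
      have h1 : 0 ≤ 512 / N * m 0 ^ 2 := by positivity
      rw [pow_zero]
      linarith
  | succ t ih =>
      have hη : 0 ≤ (512 * ε ^ 2) ^ t := by positivity
      have hN' : 0 ≤ 1 / N := by positivity
      have h1 : n (t + 1) ≤ m t ^ 2 * (1 / N + 2 * ε ^ 2 * (512 * ε ^ 2) ^ t +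
          1024 * ε ^ 2 / N) := by
        have h2 := hn t
        have h3 : 2 * ε ^ 2 * n t ≤ 2 * ε ^ 2 * (((512 * ε ^ 2) ^ t + 512 / N) * m t ^ 2) :=
          mul_le_mul_of_nonneg_left ih (by positivity)
        have h4 : m t ^ 2 / N + 2 * ε ^ 2 * (((512 * ε ^ 2) ^ t + 512 / N) * m t ^ 2) =
            m t ^ 2 * (1 / N + 2 * ε ^ 2 * (512 * ε ^ 2) ^ t + 1024 * ε ^ 2 / N) := by
          field_simp
          ring
        linarith
      have h5 : m t ^ 2 ≤ 256 * m (t + 1) ^ 2 := by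
        have h6 := hm t
        have h7 := hm0 t
        nlinarith
      have h8 : 0 ≤ 1 / N + 2 * ε ^ 2 * (512 * ε ^ 2) ^ t + 1024 * ε ^ 2 / N := by positivity
      have h9 : m t ^ 2 * (1 / N + 2 * ε ^ 2 * (512 * ε ^ 2) ^ t + 1024 * ε ^ 2 / N) ≤
          256 * m (t + 1) ^ 2 * (1 / N + 2 * ε ^ 2 * (512 * ε ^ 2) ^ t + 1024 * ε ^ 2 / N) :=
        mul_le_mul_of_nonneg_right h5 h8
      have h10 : 256 * m (t + 1) ^ 2 *
          (1 / N + 2 * ε ^ 2 * (512 * ε ^ 2) ^ t + 1024 * ε ^ 2 / N) =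
          ((512 * ε ^ 2) ^ (t + 1) + (256 + 262144 * ε ^ 2) / N) * m (t + 1) ^ 2 := by
        rw [pow_succ]
        field_simp
        ring
      have h11 : (256 + 262144 * ε ^ 2) / N ≤ 512 / N := by
        apply div_le_div_of_nonneg_right _ hN.le
        linarith
      have h12 : ((512 * ε ^ 2) ^ (t + 1) + (256 + 262144 * ε ^ 2) / N) * m (t + 1) ^ 2 ≤
          ((512 * ε ^ 2) ^ (t + 1) + 512 / N) * m (t + 1) ^ 2 :=
        mul_le_mul_of_nonneg_right (by linarith) (sq_nonneg _)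
      linarith

/-- mass bounds for one forward step. -/
theorem mw_fw_mass (hd : 0 < d) (hreg : ∀ x, G.degree x = d) (hinv : ∀ x, τ (τ x) = x)
    (hdegI : ∀ x, d ≤ 16 * ((G.neighborFinset x).filter (fun y => y ∈ I)).card) (u : V)
    (t : ℕ) :
    (∑ x, fw G d τ I u t x) / 16 ≤ ∑ x, fw G d τ I u (t + 1) x ∧
      ∑ x, fw G d τ I u (t + 1) x ≤ ∑ x, fw G d τ I u t x := by
  rw [mw_fw_mass_succ]
  exact mw_mass_bounds _ _ (mw_fw_nonneg G d τ I u t)
    (mw_qk_row_bounds G d τ I hd hreg hinv hdegI)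

/-- mass bounds for one backward step. -/
theorem mw_bw_mass (hd : 0 < d) (hreg : ∀ x, G.degree x = d) (hinv : ∀ x, τ (τ x) = x)
    (u v : V) (hu : τ u = u) (hv : τ v = v) (huI : u ∉ I) (hvI : v ∉ I)
    (hI : ∀ x, x ≠ u → x ≠ v → (x ∈ I ↔ τ x ∉ I))
    (hdegO : ∀ x, d ≤ 16 * ((G.neighborFinset x).filter
      (fun y => y ∉ I ∧ y ≠ u ∧ y ≠ v)).card) (t : ℕ) :
    (∑ x, bw G d τ I v t x) / 16 ≤ ∑ x, bw G d τ I v (t + 1) x ∧
      ∑ x, bw G d τ I v (t + 1) x ≤ ∑ x, bw G d τ I v t x := by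
  rw [mw_bw_mass_succ G d τ I hinv u v hu hv huI hvI hI t]
  exact mw_mass_bounds _ _ (mw_bw_nonneg G d τ I v t)
    (mw_bw_row_bounds G d I hd hreg u v hdegO)

omit [Fintype V] [DecidableEq V] in
/-- a sequence losing at most a factor `16` per step. -/
theorem mw_pow_lower (m : ℕ → ℝ) (h0 : 1 ≤ m 0) (hm : ∀ t, m t / 16 ≤ m (t + 1)) :
    ∀ t, (1 / 16 : ℝ) ^ t ≤ m t := by
  intro t
  induction t with
  | zero => simpa using h0
  | succ t ih =>
      have h1 := hm t
      rw [pow_succ]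
      linarith

/-- the lower bound for the weight of the restricted alternating walks of length `2 T`. -/
theorem mw_bet_lower (lam : ℝ) (hd : 0 < d) (hlam : 0 ≤ lam)
    (hreg : ∀ x, G.degree x = d)
    (hspec : ∀ f : V → ℝ, ∑ x, f x = 0 →
      ∑ x, (∑ y ∈ G.neighborFinset x, f y) ^ 2 ≤ lam ^ 2 * ∑ x, f x ^ 2)
    (hgap : 2000 * lam ≤ d)
    (u v : V) (hinv : ∀ x, τ (τ x) = x) (hu : τ u = u) (hv : τ v = v)
    (huI : u ∉ I) (hvI : v ∉ I)
    (hI : ∀ x, x ≠ u → x ≠ v → (x ∈ I ↔ τ x ∉ I))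
    (hdegI : ∀ x, d ≤ 16 * ((G.neighborFinset x).filter (fun y => y ∈ I)).card)
    (hdegO : ∀ x, d ≤ 16 * ((G.neighborFinset x).filter (fun y => y ∉ I ∧ y ≠ u ∧ y ≠ v)).card)
    (T : ℕ) (hT : (Fintype.card V : ℝ) ≤ 4096 ^ T) :
    1 / (2 * (Fintype.card V : ℝ) * 256 ^ T) ≤ bet G d τ I v (2 * T) u := by
  have hNpos : (0 : ℝ) < (Fintype.card V : ℝ) := by
    have h : 0 < Fintype.card V := Fintype.card_pos_iff.2 ⟨u⟩
    exact_mod_cast h
  have hd' : (0 : ℝ) < d := by exact_mod_cast hd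
  have hε0 : 0 ≤ lam / d := div_nonneg hlam hd'.le
  have hε1 : lam / d ≤ 1 / 2000 := by
    rw [div_le_iff₀ hd']
    linarith
  have hε2 : (lam / d) ^ 2 ≤ 1 / 1024 := by nlinarith
  obtain ⟨hcI, hcI'⟩ := mw_card_I τ I hinv u v huI hvI hI
  -- forward half
  have hma0 : ∀ t, 0 ≤ ∑ x, fw G d τ I u t x :=
    fun t => Finset.sum_nonneg (fun x _ => mw_fw_nonneg G d τ I u t x)
  have hma_step : ∀ t, ∑ x, fw G d τ I u t x ≤ 16 * ∑ x, fw G d τ I u (t + 1) x := by
    intro t
    have h := (mw_fw_mass G d τ I hd hreg hinv hdegI u t).1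
    linarith
  have hna_step : ∀ t, ∑ x, fw G d τ I u (t + 1) x ^ 2 ≤
      (∑ x, fw G d τ I u t x) ^ 2 / (Fintype.card V : ℝ) +
        2 * (lam / d) ^ 2 * ∑ x, fw G d τ I u t x ^ 2 := by
    intro t
    rw [mw_fw_sq_succ G d τ I hinv u t]
    exact ms_sq_step G d lam hd hreg hspec (fw G d τ I u t) I hcI
  have hsa : ∑ x, fw G d τ I u T x ^ 2 ≤
      ((512 * (lam / d) ^ 2) ^ T + 512 / (Fintype.card V : ℝ)) *
        (∑ x, fw G d τ I u T x) ^ 2 :=
    mw_spread_ind (Fintype.card V : ℝ) (lam / d) hNpos hε2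
      (fun t => ∑ x, fw G d τ I u t x) (fun t => ∑ x, fw G d τ I u t x ^ 2) hma0
      (by
        show ∑ x, fw G d τ I u 0 x ^ 2 ≤ (∑ x, fw G d τ I u 0 x) ^ 2
        rw [mw_fw_mass_zero, mw_fw_sq_zero]
        norm_num)
      hma_step hna_step T
  -- backward half
  have hmg0 : ∀ t, 0 ≤ ∑ x, bw G d τ I v t x :=
    fun t => Finset.sum_nonneg (fun x _ => mw_bw_nonneg G d τ I v t x)
  have hmg_step : ∀ t, ∑ x, bw G d τ I v t x ≤ 16 * ∑ x, bw G d τ I v (t + 1) x := by
    intro t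
    have h := (mw_bw_mass G d τ I hd hreg hinv u v hu hv huI hvI hI hdegO t).1
    linarith
  have hng_step : ∀ t, ∑ x, bw G d τ I v (t + 1) x ^ 2 ≤
      (∑ x, bw G d τ I v t x) ^ 2 / (Fintype.card V : ℝ) +
        2 * (lam / d) ^ 2 * ∑ x, bw G d τ I v t x ^ 2 := by
    intro t
    rw [mw_bw_sq_succ G d τ I hinv v t]
    exact ms_sq_step G d lam hd hreg hspec (bw G d τ I v t) (I.image τ) hcI'
  have hsg : ∑ x, bw G d τ I v T x ^ 2 ≤
      ((512 * (lam / d) ^ 2) ^ T + 512 / (Fintype.card V : ℝ)) *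
        (∑ x, bw G d τ I v T x) ^ 2 :=
    mw_spread_ind (Fintype.card V : ℝ) (lam / d) hNpos hε2
      (fun t => ∑ x, bw G d τ I v t x) (fun t => ∑ x, bw G d τ I v t x ^ 2) hmg0
      (by
        show ∑ x, bw G d τ I v 0 x ^ 2 ≤ (∑ x, bw G d τ I v 0 x) ^ 2
        rw [mw_bw_mass_zero, mw_bw_sq_zero]
        norm_num)
      hmg_step hng_step T
  -- the geometric term is below `1/N`
  have hη : (512 * (lam / d) ^ 2) ^ T ≤ 1 / (Fintype.card V : ℝ) := by
    have h1 : 512 * (lam / d) ^ 2 ≤ 1 / 4096 := by nlinarith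
    have h2 : (512 * (lam / d) ^ 2) ^ T ≤ (1 / 4096 : ℝ) ^ T :=
      pow_le_pow_left₀ (by positivity) h1 T
    have h3 : (1 / 4096 : ℝ) ^ T = 1 / 4096 ^ T := by rw [one_div_pow]
    have h4 : (1 : ℝ) / 4096 ^ T ≤ 1 / (Fintype.card V : ℝ) :=
      one_div_le_one_div_of_le hNpos hT
    linarith
  have hc : (512 * (lam / d) ^ 2) ^ T + 512 / (Fintype.card V : ℝ) ≤
      513 / (Fintype.card V : ℝ) := by
    have h : (513 : ℝ) / (Fintype.card V : ℝ) =
        1 / (Fintype.card V : ℝ) + 512 / (Fintype.card V : ℝ) := by ring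
    linarith
  have hsa' : ∑ x, fw G d τ I u T x ^ 2 ≤
      513 / (Fintype.card V : ℝ) * (∑ x, fw G d τ I u T x) ^ 2 :=
    hsa.trans (mul_le_mul_of_nonneg_right hc (sq_nonneg _))
  have hsg' : ∑ x, bw G d τ I v T x ^ 2 ≤
      513 / (Fintype.card V : ℝ) * (∑ x, bw G d τ I v T x) ^ 2 :=
    hsg.trans (mul_le_mul_of_nonneg_right hc (sq_nonneg _))
  -- mixing
  have hmix := ms_mixing_of_spread G d lam hlam hreg hspec (fw G d τ I u T) (bw G d τ I v T)
    (513 / (Fintype.card V : ℝ)) (by positivity) (hma0 T) (hmg0 T) hsa' hsg'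
  -- pairing
  have hpair : bet G d τ I v (2 * T) u =
      (1 / (d : ℝ)) * ∑ x, fw G d τ I u T x * ∑ y ∈ G.neighborFinset x, bw G d τ I v T y := by
    have h1 := mw_pair G d τ I u v T T
    rw [show T + T = 2 * T by ring] at h1
    rw [← h1, Finset.mul_sum]
    refine Finset.sum_congr rfl (fun x _ => ?_)
    rw [mw_bet_eq G d τ I hinv v T x]
    ring
  -- masses
  have hmaT : (1 / 16 : ℝ) ^ T ≤ ∑ x, fw G d τ I u T x :=
    mw_pow_lower (fun t => ∑ x, fw G d τ I u t x)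
      (by
        show (1 : ℝ) ≤ ∑ x, fw G d τ I u 0 x
        rw [mw_fw_mass_zero])
      (fun t => (mw_fw_mass G d τ I hd hreg hinv hdegI u t).1) T
  have hmgT : (1 / 16 : ℝ) ^ T ≤ ∑ x, bw G d τ I v T x :=
    mw_pow_lower (fun t => ∑ x, bw G d τ I v t x)
      (by
        show (1 : ℝ) ≤ ∑ x, bw G d τ I v 0 x
        rw [mw_bw_mass_zero])
      (fun t => (mw_bw_mass G d τ I hd hreg hinv u v hu hv huI hvI hI hdegO t).1) T
  -- arithmetic
  have h1 : (d : ℝ) / (2 * (Fintype.card V : ℝ)) ≤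
      (d : ℝ) / (Fintype.card V : ℝ) - lam * (513 / (Fintype.card V : ℝ)) := by
    have h : (d : ℝ) / (Fintype.card V : ℝ) - lam * (513 / (Fintype.card V : ℝ)) -
        (d : ℝ) / (2 * (Fintype.card V : ℝ)) =
        ((d : ℝ) - 1026 * lam) / (2 * (Fintype.card V : ℝ)) := by
      field_simp
      ring
    have h' : 0 ≤ ((d : ℝ) - 1026 * lam) / (2 * (Fintype.card V : ℝ)) :=
      div_nonneg (by linarith) (by positivity)
    linarith
  have h2 : (1 / 256 : ℝ) ^ T ≤ (∑ x, fw G d τ I u T x) * (∑ x, bw G d τ I v T x) := by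
    have h : (1 / 256 : ℝ) ^ T = (1 / 16) ^ T * (1 / 16) ^ T := by
      rw [← mul_pow]
      norm_num
    rw [h]
    exact mul_le_mul hmaT hmgT (by positivity) (hma0 T)
  have h3 : (d : ℝ) / (2 * (Fintype.card V : ℝ)) * (1 / 256 : ℝ) ^ T ≤
      ∑ x, fw G d τ I u T x * ∑ y ∈ G.neighborFinset x, bw G d τ I v T y := by
    have h0 : (0 : ℝ) ≤ (d : ℝ) / (2 * (Fintype.card V : ℝ)) := by positivity
    exact (mul_le_mul h1 h2 (by positivity) (h0.trans h1)).trans hmix
  have h4 : 1 / (2 * (Fintype.card V : ℝ) * 256 ^ T) =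
      (1 / (d : ℝ)) * ((d : ℝ) / (2 * (Fintype.card V : ℝ)) * (1 / 256 : ℝ) ^ T) := by
    rw [one_div_pow]
    field_simp
  rw [hpair, h4]
  exact mul_le_mul_of_nonneg_left h3 (by positivity)

end MassWalk

end Vale.Agent.H83.Poly
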