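import Vale.Agent.H83.Poly.Defs
import Vale.Agent.H83.Poly.Mass_Walk

/-!
Lower bound for the weight of the restricted alternating walks of length `2 T` from `u` to `v`
(spectral mixing of the two half walks in `ℓ²`).

Notation: `N = card V`, `ε = lam / d ≤ 1/2000`, `A f x = ∑ y ∈ G.neighborFinset x, f y`.
Forward vectors: `a 0 = indicator of u`, `a (t+1) x' = ∑ x, a t x * qk x x'`
  `= (if τ x' ∈ I then (1/d) * A (a t) (τ x') else 0)`.
Backward vectors: `g 0 = indicator of v`, `g (t+1) y = (if y ∈ I then (1/d) * A (g t) (τ y) else 0)`;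
then `bet t x = (1/d) * A (g t) x` for all `t` (induction; reindex `z = τ y`).
Pairing: `∑ x, a (t+1) x * bet s x = ∑ x, a t x * bet (s+1) x`, hence
  `bet (2T) u = ∑ x, a T x * bet T x = (1/d) * ∑ x, a T x * A (g T) x`.
Mass (`m h = ∑ x, h x`, for `h ≥ 0`): `m (a (t+1)) = (1/d) * ∑ x, a t x * card (N(x) ∩ I) ≥ m (a t) / 16`
  by `hdegI`; `m (g (t+1)) = (1/d) * ∑ w, g t w * card {x ∈ N(w) | τ x ∈ I} ≥ m (g t) / 16` by `hdegO`
  (`τ x ∈ I ↔ x ∉ I ∧ x ≠ u ∧ x ≠ v`).  Also `m (step h) ≤ m h`.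
Squares (`n h = ∑ x, h x ^ 2`): each step is `h ↦ (1/d) * A h` restricted to a set `Y` with
  `2 * card Y ≤ N` (`I`, resp. `τ '' I`, transported by the bijection `τ`).  Write
  `(1/d) * A h = m h / N + e` with `e = (1/d) * A (h - m h / N)`, `∑ e^2 ≤ ε^2 * n h` by `hspec`.
  So `n (step h) ≤ 2 * card Y * (m h / N)^2 + 2 * ∑ e^2 ≤ (m h)^2 / N + 2 * ε^2 * n h`.
Induction: with `η = 512 * ε^2`: `n (a t) ≤ (η^t + 512/N) * (m (a t))^2` (uses `(m (a t))^2 ≤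
  256 * (m (a (t+1)))^2` and `ε^2 ≤ 1/1024`); the same for `g`.  As `η ≤ 1/4096` and `N ≤ 4096^T`:
  `n (a T) ≤ (513/N) * (m (a T))^2`, the same for `g T`.
Mixing: `∑ x, a T x * A (g T) x = d * m (a T) * m (g T) / N + ∑ x, a T x * A (g T - mean) x`
  and the last sum is at most `sqrt (n (a T)) * lam * sqrt (n (g T)) ≤ lam * (513/N) * m (a T) * m (g T)`
  in absolute value (Cauchy-Schwarz, `hspec`).  Since `513 * lam ≤ d / 2` this gives
  `∑ x, a T x * A (g T) x ≥ (d/(2N)) * m (a T) * m (g T) ≥ (d/(2N)) / 256^T`.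
-/

namespace Vale.Agent.H83.Poly

open Finset

theorem bet_lower {V : Type*} [Fintype V] [DecidableEq V] (G : SimpleGraph V)
    [DecidableRel G.Adj] (d : ℕ) (lam : ℝ) (hd : 0 < d) (hlam : 0 ≤ lam)
    (hreg : ∀ x, G.degree x = d)
    (hspec : ∀ f : V → ℝ, ∑ x, f x = 0 →
      ∑ x, (∑ y ∈ G.neighborFinset x, f y) ^ 2 ≤ lam ^ 2 * ∑ x, f x ^ 2)
    (hgap : 2000 * lam ≤ d)
    (τ : V → V) (u v : V) (hinv : ∀ x, τ (τ x) = x) (hu : τ u = u) (hv : τ v = v)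
    (I : Finset V) (huI : u ∉ I) (hvI : v ∉ I)
    (hI : ∀ x, x ≠ u → x ≠ v → (x ∈ I ↔ τ x ∉ I))
    (hdegI : ∀ x, d ≤ 16 * ((G.neighborFinset x).filter (fun y => y ∈ I)).card)
    (hdegO : ∀ x, d ≤ 16 * ((G.neighborFinset x).filter (fun y => y ∉ I ∧ y ≠ u ∧ y ≠ v)).card)
    (T : ℕ) (hT : (Fintype.card V : ℝ) ≤ 4096 ^ T) :
    1 / (2 * (Fintype.card V : ℝ) * 256 ^ T) ≤ bet G d τ I v (2 * T) u :=
  mw_bet_lower G d τ I lam hd hlam hreg hspec hgap u v hinv hu hv huI hvI hI hdegI hdegO T hT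

end Vale.Agent.H83.Poly
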