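import Vale.Agent.H83.Poly.Defs
import Vale.Agent.H83.Matchings

/-!
Self-avoiding restricted alternating walks as lists of inner vertices: they carry the weight
`ssum`, and from a hole `u` they are augmenting paths in the sense of `Matchings.IsAug`.
-/

namespace Vale.Agent.H83.Poly

open Finset Vale.Agent.H83.Matchings

variable {V : Type*} [Fintype V] [DecidableEq V]

/-- the self-avoiding restricted walks from `x` with at most `K` steps, all of whose steps end
outside `insert x F` and at pairwise different vertices, and whose last vertex is adjacent to
`v`; a walk is recorded as the list of its inner vertices. -/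
noncomputable def gpaths (G : SimpleGraph V) [DecidableRel G.Adj] (τ : V → V) (I : Finset V)
    (v : V) : ℕ → Finset V → V → Finset (List V)
  | 0, _, x => if G.Adj x v then {[]} else ∅
  | K + 1, F, x => (if G.Adj x v then {[]} else ∅) ∪
      ((univ \ insert x F).filter (fun z => G.Adj x (τ z) ∧ τ z ∈ I)).biUnion
        (fun z => (gpaths G τ I v K (insert x F) z).image (fun as => τ z :: as))

variable {G : SimpleGraph V} [DecidableRel G.Adj]

lemma ssum_eq_sum_gpaths (d : ℕ) {τ : V → V} (hinv : ∀ x, τ (τ x) = x) (I : Finset V) (v : V) :
    ∀ (K : ℕ) (F : Finset V) (x : V),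
      ssum G d τ I v K F x = ∑ as ∈ gpaths G τ I v K F x, (1 / d : ℝ) ^ (as.length + 1) := by
  intro K
  induction K with
  | zero =>
    intro F x
    simp only [ssum, gpaths, bv]
    split_ifs <;> simp
  | succ K ih =>
    intro F x
    have hτinj : Function.Injective τ := fun a b h => by
      have := congrArg τ h
      rwa [hinv, hinv] at this
    simp only [ssum, gpaths]
    rw [Finset.sum_union]
    · congr 1
      · simp only [bv]
        split_ifs <;> simp
      · rw [Finset.sum_biUnion]
        · rw [Finset.sum_filter]
          apply Finset.sum_congr rfl
          intro z _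
          rw [Finset.sum_image]
          · simp only [qk]
            split_ifs with h
            · rw [ih, Finset.mul_sum]
              apply Finset.sum_congr rfl
              intro as _
              simp only [List.length_cons]
              ring
            · simp
          · intro a _ b _ hab
            exact List.cons_injective hab
        · intro z _ z' _ hzz'
          simp only [Function.onFun]
          rw [Finset.disjoint_left]
          intro l hl hl'
          simp only [Finset.mem_image] at hl hl'
          obtain ⟨a, _, rfl⟩ := hl
          obtain ⟨b, _, hb⟩ := hl'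
          simp only [List.cons.injEq] at hb
          exact hzz' (hτinj hb.1.symm)
    · rw [Finset.disjoint_left]
      intro l hl hl'
      have hnil : l = [] := by
        split_ifs at hl
        · simpa using hl
        · simp at hl
      subst hnil
      simp only [Finset.mem_biUnion, Finset.mem_image] at hl'
      obtain ⟨z, _, a, _, ha⟩ := hl'
      simp at ha

lemma gpaths_spec {τ : V → V} (hinv : ∀ x, τ (τ x) = x) (I : Finset V) (v : V) :
    ∀ (K : ℕ) (F : Finset V) (x : V) (as : List V), as ∈ gpaths G τ I v K F x →
      Link G τ x as ∧ G.Adj (cur τ x as) v ∧ as.length ≤ K ∧ (∀ a ∈ as, a ∈ I) ∧ as.Nodup ∧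
        (∀ a ∈ as, τ a ∉ insert x F) := by
  intro K
  induction K with
  | zero =>
    intro F x as h
    simp only [gpaths] at h
    split_ifs at h with hadj
    · simp only [Finset.mem_singleton] at h
      subst h
      simp [Link, cur, hadj]
    · simp at h
  | succ K ih =>
    intro F x as h
    simp only [gpaths, Finset.mem_union] at h
    rcases h with h | h
    · split_ifs at h with hadj
      · simp only [Finset.mem_singleton] at h
        subst h
        simp [Link, cur, hadj]
      · simp at h
    · simp only [Finset.mem_biUnion, Finset.mem_filter, Finset.mem_sdiff, Finset.mem_univ,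
        true_and, Finset.mem_image] at h
      obtain ⟨z, ⟨hzF, hadj, hzI⟩, rest, hrest, rfl⟩ := h
      obtain ⟨h1, h2, h3, h4, h5, h6⟩ := ih (insert x F) z rest hrest
      refine ⟨?_, ?_, ?_, ?_, ?_, ?_⟩
      · simp only [Link, hinv]
        exact ⟨hadj, h1⟩
      · simp only [cur, hinv]
        exact h2
      · simp only [List.length_cons]
        omega
      · intro a ha
        rcases List.mem_cons.mp ha with rfl | ha
        · exact hzI
        · exact h4 a ha
      · rw [List.nodup_cons]
        refine ⟨?_, h5⟩
        intro hmem
        have := h6 (τ z) hmem
        rw [hinv] at this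
        exact this (Finset.mem_insert_self _ _)
      · intro a ha
        rcases List.mem_cons.mp ha with rfl | ha
        · rw [hinv]
          exact hzF
        · intro hmem
          exact h6 a ha (Finset.mem_insert_of_mem hmem)

lemma gpaths_isAug {τ : V → V} {u v : V} (hinv : ∀ x, τ (τ x) = x) {I : Finset V}
    (hI : ∀ a ∈ I, τ a ∉ I) {K : ℕ} {as : List V} (h : as ∈ gpaths G τ I v K ∅ u) :
    IsAug G τ u v as ∧ as.length ≤ K := by
  obtain ⟨h1, h2, h3, h4, h5, _⟩ := gpaths_spec hinv I v K ∅ u as h
  refine ⟨⟨h1, h2, h5, ?_⟩, h3⟩
  intro a ha a' ha' heq
  exact hI a' (h4 a' ha') (heq ▸ h4 a ha)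

end Vale.Agent.H83.Poly
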