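import Vale.Agent.H83.Poly.Defs

/-!
Return probabilities of the unrestricted alternating walk in a regular spectral expander.

Proof sketch.  Fix `x` and put `g j z = altPow G d τ j z x`.  Then `g 0 = indicator of x` and
`g (j+1) z = (1/d) * ∑ y ∈ G.neighborFinset z, g j (τ y)` (reindex the sum over `z'` by
`y = τ z'`; `τ` is an involution).  By regularity `∑ z, g j z = 1` for all `j`.
With `h j z = g j z - 1/N` (sum zero): `h (j+1) z = (1/d) * ∑ y ∈ neighbours of z, h j (τ y)`,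
so by `hspec` applied to `h j ∘ τ` (sum zero, same sum of squares):
`∑ z, h (j+1) z ^ 2 ≤ (lam/d)^2 * ∑ z, h j z ^ 2`, hence `∑ z, h j z ^ 2 ≤ (lam/d)^(2j)`
(`∑ z, h 0 z ^ 2 = 1 - 1/N ≤ 1`).  Therefore `h j x ≤ (lam/d)^j`.
-/

namespace Vale.Agent.H83.Poly

open Finset

namespace Ret

/-- one step of the alternating walk, as a sum over the neighbours -/
theorem altPow_succ {V : Type*} [Fintype V] [DecidableEq V] (G : SimpleGraph V)
    [DecidableRel G.Adj] (d : ℕ) (τ : V → V) (hinv : ∀ x, τ (τ x) = x) (j : ℕ) (z x : V) :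
    altPow G d τ (j + 1) z x =
      (1 / (d : ℝ)) * ∑ y ∈ G.neighborFinset z, altPow G d τ j (τ y) x := by
  have h0 : altPow G d τ (j + 1) z x = ∑ z', altQ G d τ z z' * altPow G d τ j z' x := rfl
  rw [h0]
  have hτ : Function.Involutive τ := hinv
  have h1 : ∑ z', altQ G d τ z z' * altPow G d τ j z' x =
      ∑ y, altQ G d τ z (τ y) * altPow G d τ j (τ y) x :=
    (Equiv.sum_comp (hτ.toPerm τ) (fun z' => altQ G d τ z z' * altPow G d τ j z' x)).symm
  rw [h1, SimpleGraph.neighborFinset_eq_filter, Finset.sum_filter, Finset.mul_sum]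
  refine Finset.sum_congr rfl (fun y _ => ?_)
  unfold altQ
  rw [hinv y]
  split_ifs <;> simp

/-- double counting over the edges of a regular graph -/
theorem sum_nbr {V : Type*} [Fintype V] [DecidableEq V] (G : SimpleGraph V)
    [DecidableRel G.Adj] (d : ℕ) (hreg : ∀ x, G.degree x = d) (f : V → ℝ) :
    ∑ z, ∑ y ∈ G.neighborFinset z, f y = (d : ℝ) * ∑ y, f y := by
  have h1 : ∑ z, ∑ y ∈ G.neighborFinset z, f y = ∑ y, ∑ z ∈ G.neighborFinset y, f y := by
    refine Finset.sum_comm' (fun z y => ?_)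
    simp only [Finset.mem_univ, true_and, and_true, SimpleGraph.mem_neighborFinset]
    exact ⟨fun h => h.symm, fun h => h.symm⟩
  rw [h1, Finset.mul_sum]
  refine Finset.sum_congr rfl (fun y _ => ?_)
  rw [Finset.sum_const, SimpleGraph.card_neighborFinset_eq_degree, hreg, nsmul_eq_mul]

/-- the centred walk vector has sum zero and contracts in `ℓ²` -/
theorem main {V : Type*} [Fintype V] [DecidableEq V] (G : SimpleGraph V)
    [DecidableRel G.Adj] (d : ℕ) (lam : ℝ) (hd : 0 < d)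
    (hreg : ∀ x, G.degree x = d)
    (hspec : ∀ f : V → ℝ, ∑ x, f x = 0 →
      ∑ x, (∑ y ∈ G.neighborFinset x, f y) ^ 2 ≤ lam ^ 2 * ∑ x, f x ^ 2)
    (τ : V → V) (hinv : ∀ x, τ (τ x) = x) (x : V) (j : ℕ) :
    ∑ z, (altPow G d τ j z x - 1 / (Fintype.card V : ℝ)) = 0 ∧
      ∑ z, (altPow G d τ j z x - 1 / (Fintype.card V : ℝ)) ^ 2 ≤ ((lam / d) ^ j) ^ 2 := by
  have hN : (0 : ℝ) < (Fintype.card V : ℝ) := by
    have : 0 < Fintype.card V := Fintype.card_pos_iff.2 ⟨x⟩
    exact_mod_cast this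
  have hd' : (0 : ℝ) < (d : ℝ) := by exact_mod_cast hd
  have hτ : Function.Involutive τ := hinv
  induction j with
  | zero =>
    have h0 : ∀ z, altPow G d τ 0 z x = if z = x then 1 else 0 := fun z => rfl
    constructor
    · simp only [h0]
      rw [Finset.sum_sub_distrib, Finset.sum_ite_eq', if_pos (Finset.mem_univ x),
        Finset.sum_const, Finset.card_univ, nsmul_eq_mul]
      field_simp
      ring
    · have e : ∀ z, (altPow G d τ 0 z x - 1 / (Fintype.card V : ℝ)) ^ 2 =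
          (if z = x then (1 : ℝ) else 0) * (1 - 2 / (Fintype.card V : ℝ)) +
            1 / (Fintype.card V : ℝ) ^ 2 := by
        intro z
        rw [h0]
        split_ifs <;> ring
      simp only [e]
      rw [Finset.sum_add_distrib, ← Finset.sum_mul, Finset.sum_ite_eq',
        if_pos (Finset.mem_univ x), Finset.sum_const, Finset.card_univ, nsmul_eq_mul]
      have e2 : 1 * (1 - 2 / (Fintype.card V : ℝ)) +
          (Fintype.card V : ℝ) * (1 / (Fintype.card V : ℝ) ^ 2) =
          1 - 1 / (Fintype.card V : ℝ) := by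
        field_simp
        ring
      rw [e2]
      have : 0 < 1 / (Fintype.card V : ℝ) := by positivity
      simp only [pow_zero, one_pow]
      linarith
  | succ j ih =>
    obtain ⟨ih1, ih2⟩ := ih
    have hf0 : ∑ y, (altPow G d τ j (τ y) x - 1 / (Fintype.card V : ℝ)) = 0 := by
      rw [← ih1]
      exact Equiv.sum_comp (hτ.toPerm τ)
        (fun y => altPow G d τ j y x - 1 / (Fintype.card V : ℝ))
    have hf2 : ∑ y, (altPow G d τ j (τ y) x - 1 / (Fintype.card V : ℝ)) ^ 2 =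
        ∑ y, (altPow G d τ j y x - 1 / (Fintype.card V : ℝ)) ^ 2 :=
      Equiv.sum_comp (hτ.toPerm τ)
        (fun y => (altPow G d τ j y x - 1 / (Fintype.card V : ℝ)) ^ 2)
    have hstep : ∀ z, altPow G d τ (j + 1) z x - 1 / (Fintype.card V : ℝ) =
        (1 / (d : ℝ)) * ∑ y ∈ G.neighborFinset z,
          (altPow G d τ j (τ y) x - 1 / (Fintype.card V : ℝ)) := by
      intro z
      rw [altPow_succ G d τ hinv, Finset.sum_sub_distrib, Finset.sum_const,
        SimpleGraph.card_neighborFinset_eq_degree, hreg, nsmul_eq_mul]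
      field_simp
    constructor
    · simp only [hstep]
      rw [← Finset.mul_sum, sum_nbr G d hreg, hf0]
      ring
    · simp only [hstep]
      have h1 := hspec (fun y => altPow G d τ j (τ y) x - 1 / (Fintype.card V : ℝ)) hf0
      rw [hf2] at h1
      have e : ∑ z, ((1 / (d : ℝ)) * ∑ y ∈ G.neighborFinset z,
          (altPow G d τ j (τ y) x - 1 / (Fintype.card V : ℝ))) ^ 2 =
          (1 / (d : ℝ)) ^ 2 * ∑ z, (∑ y ∈ G.neighborFinset z,
            (altPow G d τ j (τ y) x - 1 / (Fintype.card V : ℝ))) ^ 2 := by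
        rw [Finset.mul_sum]
        refine Finset.sum_congr rfl (fun z _ => ?_)
        ring
      rw [e]
      have h2 : (1 / (d : ℝ)) ^ 2 * ∑ z, (∑ y ∈ G.neighborFinset z,
            (altPow G d τ j (τ y) x - 1 / (Fintype.card V : ℝ))) ^ 2 ≤
          (1 / (d : ℝ)) ^ 2 * (lam ^ 2 *
            ∑ y, (altPow G d τ j y x - 1 / (Fintype.card V : ℝ)) ^ 2) :=
        mul_le_mul_of_nonneg_left h1 (sq_nonneg _)
      have h3 : (1 / (d : ℝ)) ^ 2 * (lam ^ 2 *
            ∑ y, (altPow G d τ j y x - 1 / (Fintype.card V : ℝ)) ^ 2) ≤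
          (1 / (d : ℝ)) ^ 2 * (lam ^ 2 * ((lam / d) ^ j) ^ 2) :=
        mul_le_mul_of_nonneg_left (mul_le_mul_of_nonneg_left ih2 (sq_nonneg _)) (sq_nonneg _)
      have e3 : (1 / (d : ℝ)) ^ 2 * (lam ^ 2 * ((lam / d) ^ j) ^ 2) =
          ((lam / d) ^ (j + 1)) ^ 2 := by
        rw [pow_succ]
        ring
      linarith

end Ret

theorem altPow_diag_le {V : Type*} [Fintype V] [DecidableEq V] (G : SimpleGraph V)
    [DecidableRel G.Adj] (d : ℕ) (lam : ℝ) (hd : 0 < d) (hlam : 0 ≤ lam)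
    (hreg : ∀ x, G.degree x = d)
    (hspec : ∀ f : V → ℝ, ∑ x, f x = 0 →
      ∑ x, (∑ y ∈ G.neighborFinset x, f y) ^ 2 ≤ lam ^ 2 * ∑ x, f x ^ 2)
    (τ : V → V) (hinv : ∀ x, τ (τ x) = x) (j : ℕ) (x : V) :
    altPow G d τ j x x ≤ 1 / (Fintype.card V : ℝ) + (lam / d) ^ j := by
  obtain ⟨_, h2⟩ := Ret.main G d lam hd hreg hspec τ hinv x j
  have hd' : (0 : ℝ) < (d : ℝ) := by exact_mod_cast hd
  have hb : 0 ≤ (lam / d) ^ j := pow_nonneg (div_nonneg hlam hd'.le) j
  have h3 : (altPow G d τ j x x - 1 / (Fintype.card V : ℝ)) ^ 2 ≤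
      ∑ z, (altPow G d τ j z x - 1 / (Fintype.card V : ℝ)) ^ 2 :=
    Finset.single_le_sum (f := fun z => (altPow G d τ j z x - 1 / (Fintype.card V : ℝ)) ^ 2)
      (fun z _ => sq_nonneg _) (Finset.mem_univ x)
  have h4 := (abs_le_of_sq_le_sq' (le_trans h3 h2) hb).2
  linarith

end Vale.Agent.H83.Poly
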