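import Vale.Agent.H83.Poly.Orient
import Vale.Agent.H83.Poly.Return
import Vale.Agent.H83.Poly.LE
import Vale.Agent.H83.Poly.Mass
import Vale.Agent.H83.Poly.Paths
import Vale.Agent.H83.Poly.Count
import Vale.Agent.H83.ExpanderSpectral

/-!
Assembly: in a `d`-regular graph on `N` vertices whose adjacency operator has norm at most `lam`
on the functions of sum zero, with `2000 * lam ≤ d`, the number of near-perfect matchings is at
most `N ^ 3` times the number of perfect matchings.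
-/

namespace Vale.Agent.H83.Poly

open Finset SimpleGraph Vale.Agent.H83.Matchings

variable {V : Type*} [Fintype V] [DecidableEq V] {G : SimpleGraph V} [DecidableRel G.Adj]

lemma qk_nonneg (d : ℕ) (τ : V → V) (I : Finset V) (x x' : V) : 0 ≤ qk G d τ I x x' := by
  unfold qk
  split_ifs <;> positivity

lemma bv_nonneg (d : ℕ) (v x : V) : 0 ≤ bv G d v x := by
  unfold bv
  split_ifs <;> positivity

lemma altQ_nonneg (d : ℕ) (τ : V → V) (x x' : V) : 0 ≤ altQ G d τ x x' := by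
  unfold altQ
  split_ifs <;> positivity

lemma qk_le_altQ (d : ℕ) (τ : V → V) (I : Finset V) (x x' : V) :
    qk G d τ I x x' ≤ altQ G d τ x x' := by
  unfold qk altQ
  by_cases h : G.Adj x (τ x')
  · by_cases h' : τ x' ∈ I
    · simp [h, h']
    · simp [h, h']
  · simp [h]

lemma pw_nonneg (d : ℕ) (τ : V → V) (I F : Finset V) :
    ∀ (j : ℕ) (x' x : V), 0 ≤ pw G d τ I F j x' x := by
  intro j
  induction j with
  | zero =>
    intro x' x
    simp only [pw]
    split_ifs <;> norm_num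
  | succ j ih =>
    intro x' x
    simp only [pw]
    exact Finset.sum_nonneg (fun z _ => mul_nonneg (qk_nonneg d τ I x' z) (ih z x))

lemma altPow_nonneg (d : ℕ) (τ : V → V) :
    ∀ (j : ℕ) (x' x : V), 0 ≤ altPow G d τ j x' x := by
  intro j
  induction j with
  | zero =>
    intro x' x
    simp only [altPow]
    split_ifs <;> norm_num
  | succ j ih =>
    intro x' x
    simp only [altPow]
    exact Finset.sum_nonneg (fun z _ => mul_nonneg (altQ_nonneg d τ x' z) (ih z x))

lemma pw_le_altPow (d : ℕ) (τ : V → V) (I F : Finset V) :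
    ∀ (j : ℕ) (x' x : V), pw G d τ I F j x' x ≤ altPow G d τ j x' x := by
  intro j
  induction j with
  | zero =>
    intro x' x
    simp only [pw, altPow, le_refl]
  | succ j ih =>
    intro x' x
    simp only [pw, altPow]
    calc ∑ z ∈ univ \ F, qk G d τ I x' z * pw G d τ I F j z x
        ≤ ∑ z ∈ univ \ F, altQ G d τ x' z * altPow G d τ j z x := by
          apply Finset.sum_le_sum
          intro z _
          exact mul_le_mul (qk_le_altQ d τ I x' z) (ih z x) (pw_nonneg d τ I F j z x)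
            (altQ_nonneg d τ x' z)
      _ ≤ ∑ z, altQ G d τ x' z * altPow G d τ j z x := by
          apply Finset.sum_le_sum_of_subset_of_nonneg (Finset.subset_univ _)
          intro z _ _
          exact mul_nonneg (altQ_nonneg d τ x' z) (altPow_nonneg d τ j z x)

lemma bet_le_wsum (d : ℕ) (τ : V → V) (I : Finset V) (v : V) :
    ∀ (K : ℕ) (x : V), bet G d τ I v K x ≤ wsum G d τ I v K ∅ x := by
  intro K
  induction K with
  | zero =>
    intro x
    simp only [bet, wsum, le_refl]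
  | succ K ih =>
    intro x
    simp only [bet, wsum, Finset.sdiff_empty]
    have : ∑ z, qk G d τ I x z * bet G d τ I v K z
        ≤ ∑ z, qk G d τ I x z * wsum G d τ I v K ∅ z :=
      Finset.sum_le_sum (fun z _ => mul_le_mul_of_nonneg_left (ih z) (qk_nonneg d τ I x z))
    linarith [bv_nonneg (G := G) d v x]

lemma geom_tail (e : ℝ) (he0 : 0 ≤ e) (he : e ≤ 1 / 2000) (n : ℕ) :
    ∑ j ∈ range n, e ^ (j + 1) ≤ (1 - e ^ n) / 1999 := by
  induction n with
  | zero => simp
  | succ n ih =>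
    rw [Finset.sum_range_succ]
    have h1 : 0 ≤ e ^ n := pow_nonneg he0 n
    have h2 : e ^ (n + 1) = e * e ^ n := by ring
    nlinarith [mul_le_mul_of_nonneg_right he h1]

lemma two_T_le (T : ℕ) : (2 * (T : ℝ) + 1) * 256 ^ T ≤ 772 ^ T * (398 / 399 : ℝ) ^ (2 * T) := by
  induction T with
  | zero => simp
  | succ T ih =>
    have e1 : (772 : ℝ) ^ (T + 1) * (398 / 399 : ℝ) ^ (2 * (T + 1))
        = (772 * (398 / 399) ^ 2) * (772 ^ T * (398 / 399 : ℝ) ^ (2 * T)) := by ring
    have e2 : (2 * ((T + 1 : ℕ) : ℝ) + 1) * 256 ^ (T + 1)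
        ≤ 768 * ((2 * (T : ℝ) + 1) * 256 ^ T) := by
      have hT : (0 : ℝ) ≤ T := Nat.cast_nonneg T
      have hp : (0 : ℝ) < 256 ^ T := by positivity
      push_cast
      have : (2 * ((T : ℝ) + 1) + 1) * 256 ^ (T + 1)
          = 256 * (2 * (T : ℝ) + 3) * 256 ^ T := by ring
      rw [this]
      have : 256 * (2 * (T : ℝ) + 3) ≤ 768 * (2 * (T : ℝ) + 1) := by linarith
      nlinarith
    rw [e1]
    have e3 : (768 : ℝ) ≤ 772 * (398 / 399) ^ 2 := by norm_num
    have hpos : (0 : ℝ) ≤ (2 * (T : ℝ) + 1) * 256 ^ T := by positivity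
    calc (2 * ((T + 1 : ℕ) : ℝ) + 1) * 256 ^ (T + 1)
        ≤ 768 * ((2 * (T : ℝ) + 1) * 256 ^ T) := e2
      _ ≤ (772 * (398 / 399) ^ 2) * ((2 * (T : ℝ) + 1) * 256 ^ T) :=
          mul_le_mul_of_nonneg_right e3 hpos
      _ ≤ (772 * (398 / 399) ^ 2) * (772 ^ T * (398 / 399 : ℝ) ^ (2 * T)) :=
          mul_le_mul_of_nonneg_left ih (by norm_num)

lemma clog_numeric (N : ℕ) (hN : 2001 ≤ N) :
    1 ≤ Nat.clog 4096 N ∧ 500 * (2 * Nat.clog 4096 N + 1) ≤ N ∧
      4096 ^ (Nat.clog 4096 N - 1) < N ∧ N ≤ 4096 ^ Nat.clog 4096 N := by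
  have h1 : 1 ≤ Nat.clog 4096 N := Nat.clog_pos (by norm_num) (by omega)
  have h3 : 4096 ^ (Nat.clog 4096 N - 1) < N := by
    have := Nat.pow_pred_clog_lt_self (b := 4096) (by norm_num) (x := N) (by omega)
    simpa [Nat.pred_eq_sub_one] using this
  have h4 : N ≤ 4096 ^ Nat.clog 4096 N := Nat.le_pow_clog (by norm_num) N
  refine ⟨h1, ?_, h3, h4⟩
  obtain ⟨t, ht⟩ : ∃ t, Nat.clog 4096 N = t + 1 := ⟨Nat.clog 4096 N - 1, by omega⟩
  rw [ht] at h3 ⊢
  simp only [Nat.add_sub_cancel] at h3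
  have key : ∀ s : ℕ, 500 * (2 * (s + 2) + 1) ≤ 4096 ^ (s + 1) := by
    intro s
    induction s with
    | zero => norm_num
    | succ s ih =>
      have : 4096 ^ (s + 1 + 1) = 4096 * 4096 ^ (s + 1) := by ring
      omega
  rcases t with _ | s
  · omega
  · have := key s
    omega

theorem poly_ratio (d : ℕ) (lam : ℝ) (hd : 0 < d) (hlam : 0 ≤ lam)
    (hreg : ∀ x, G.degree x = d)
    (hspec : ∀ f : V → ℝ, ∑ x, f x = 0 →
      ∑ x, (∑ y ∈ G.neighborFinset x, f y) ^ 2 ≤ lam ^ 2 * ∑ x, f x ^ 2)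
    (hgap : 2000 * lam ≤ d) :
    Nat.card {M : G.Subgraph // M.IsMatching ∧ M.vertsᶜ.ncard = 2}
      ≤ Fintype.card V ^ 3 * Nat.card {M : G.Subgraph // M.IsPerfectMatching} := by
  classical
  rcases isEmpty_or_nonempty V with hV | hV
  · have : IsEmpty {M : G.Subgraph // M.IsMatching ∧ M.vertsᶜ.ncard = 2} := by
      constructor
      rintro ⟨M, _, hM⟩
      have : M.vertsᶜ = ∅ := Set.eq_empty_of_isEmpty _
      rw [this] at hM
      simp at hM
    simp
  obtain ⟨x0⟩ := hV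
  -- an edge, hence `1 ≤ lam`, `2000 ≤ d`, `2001 ≤ N`
  have hcard0 : (G.neighborFinset x0).card = d := hreg x0
  obtain ⟨y0, hy0⟩ : (G.neighborFinset x0).Nonempty := by
    rw [← Finset.card_pos, hcard0]; exact hd
  have hadj0 : G.Adj x0 y0 := (G.mem_neighborFinset x0 y0).mp hy0
  have hlam1 : 1 ≤ lam := one_le_lam hlam hspec hadj0
  have hd2000r : (2000 : ℝ) ≤ d := by linarith
  have hd2000 : 2000 ≤ d := by exact_mod_cast hd2000r
  have hN : 2001 ≤ Fintype.card V := by
    have h1 : (G.neighborFinset x0).card < Fintype.card V := by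
      apply Finset.card_lt_univ_of_notMem (x := x0)
      simp
    omega
  obtain ⟨T, hTdef⟩ : ∃ T : ℕ, T = Nat.clog 4096 (Fintype.card V) := ⟨_, rfl⟩
  obtain ⟨hT1, hT500, hTlt, hTle⟩ := clog_numeric (Fintype.card V) hN
  rw [← hTdef] at hT1 hT500 hTlt hTle
  have hNr : (2001 : ℝ) ≤ Fintype.card V := by exact_mod_cast hN
  have hNpos : (0 : ℝ) < Fintype.card V := by linarith
  have hdr : (0 : ℝ) < d := by exact_mod_cast hd
  have heps0 : 0 ≤ lam / d := by positivity
  have heps : lam / d ≤ 1 / 2000 := by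
    rw [div_le_iff₀ hdr]
    linarith
  obtain ⟨f, hfdef⟩ : ∃ f : ℝ, f = (2 * (T : ℝ) + 1) / Fintype.card V + 1 / 1999 := ⟨_, rfl⟩
  have hf0 : 0 ≤ f := by rw [hfdef]; positivity
  have hf400 : f ≤ 1 / 399 := by
    rw [hfdef]
    have h500 : 500 * (2 * (T : ℝ) + 1) ≤ Fintype.card V := by exact_mod_cast hT500
    have : (2 * (T : ℝ) + 1) / Fintype.card V ≤ 1 / 500 := by
      rw [div_le_iff₀ hNpos]
      linarith
    norm_num at this ⊢
    linarith
  have hf1 : f ≤ 1 := by linarith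
  have hθ : (398 / 399 : ℝ) ≤ 1 - f := by linarith
  obtain ⟨z, hzdef⟩ : ∃ z : ℝ,
      z = (1 - f) ^ (2 * T) * (1 / (2 * (Fintype.card V : ℝ) * 256 ^ T)) := ⟨_, rfl⟩
  have hz : 0 < z := by
    rw [hzdef]
    have : (0 : ℝ) < 1 - f := by linarith
    positivity
  have hmany : ∀ (τ : V → V) (u v : V), IsNPM G τ u v →
      ∃ P : Finset (List V), (∀ as ∈ P, IsAug G τ u v as ∧ as.length ≤ 2 * T) ∧
        z ≤ ∑ as ∈ P, (1 / d : ℝ) ^ (as.length + 1) := by
    intro τ u v hτ
    have hne : ∀ x, x ≠ u → x ≠ v → τ x ≠ x := fun x hxu hxv h =>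
      G.ne_of_adj (hτ.adj x hxu hxv) h.symm
    obtain ⟨I, huI, hvI, hI, hdegI, hdegO⟩ :=
      exists_orientation G d hd2000 hreg τ u v hτ.invol hτ.fix_u hτ.fix_v hne
    have hI' : ∀ a ∈ I, τ a ∉ I := by
      intro a ha
      have hau : a ≠ u := fun h => huI (h ▸ ha)
      have hav : a ≠ v := fun h => hvI (h ▸ ha)
      exact (hI a hau hav).mp ha
    refine ⟨gpaths G τ I v (2 * T) ∅ u, fun as has => gpaths_isAug hτ.invol hI' has, ?_⟩
    rw [← ssum_eq_sum_gpaths d hτ.invol I v (2 * T) ∅ u]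
    have hret : ∀ (F : Finset V) (x : V), x ∉ F →
        ∑ j ∈ range (2 * T + 1), pw G d τ I F (j + 1) x x ≤ f := by
      intro F x _
      calc ∑ j ∈ range (2 * T + 1), pw G d τ I F (j + 1) x x
          ≤ ∑ j ∈ range (2 * T + 1), (1 / (Fintype.card V : ℝ) + (lam / d) ^ (j + 1)) := by
            apply Finset.sum_le_sum
            intro j _
            exact (pw_le_altPow d τ I F (j + 1) x x).trans
              (altPow_diag_le G d lam hd hlam hreg hspec τ hτ.invol (j + 1) x)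
        _ = (2 * (T : ℝ) + 1) / Fintype.card V + ∑ j ∈ range (2 * T + 1), (lam / d) ^ (j + 1) := by
            rw [Finset.sum_add_distrib, Finset.sum_const, Finset.card_range, nsmul_eq_mul]
            push_cast
            ring
        _ ≤ f := by
            rw [hfdef]
            have h1 := geom_tail (lam / d) heps0 heps (2 * T + 1)
            have h2 : 0 ≤ (lam / d) ^ (2 * T + 1) := pow_nonneg heps0 _
            linarith
    have hLE := ssum_ge_wsum G d τ I v f (2 * T) hf0 hf1 hret (2 * T) le_rfl ∅ u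
      (Finset.notMem_empty u)
    have hbw := bet_le_wsum (G := G) d τ I v (2 * T) u
    have hbl := bet_lower G d lam hd hlam hreg hspec hgap τ u v hτ.invol hτ.fix_u hτ.fix_v
      I huI hvI hI hdegI hdegO T (by exact_mod_cast hTle)
    have hθpow : 0 ≤ (1 - f) ^ (2 * T) := pow_nonneg (by linarith) _
    calc z = (1 - f) ^ (2 * T) * (1 / (2 * (Fintype.card V : ℝ) * 256 ^ T)) := hzdef
      _ ≤ (1 - f) ^ (2 * T) * bet G d τ I v (2 * T) u :=
          mul_le_mul_of_nonneg_left hbl hθpow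
      _ ≤ (1 - f) ^ (2 * T) * wsum G d τ I v (2 * T) ∅ u :=
          mul_le_mul_of_nonneg_left hbw hθpow
      _ ≤ ssum G d τ I v (2 * T) ∅ u := hLE
  have hW := weighted_ratio (G := G) d (2 * T) hd (fun x => (hreg x).le) z hmany
  -- numerics
  have hkey : (2 * (T : ℝ) + 1) * 2 * 256 ^ T ≤ Fintype.card V * d * (1 - f) ^ (2 * T) := by
    have h1 := two_T_le T
    have h2 : (772 : ℝ) ^ T ≤ 772 * Fintype.card V := by
      obtain ⟨t, ht⟩ : ∃ t, T = t + 1 := ⟨T - 1, by omega⟩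
      rw [ht] at hTlt ⊢
      simp only [Nat.add_sub_cancel] at hTlt
      have h3 : (772 : ℝ) ^ t ≤ 4096 ^ t := pow_le_pow_left₀ (by norm_num) (by norm_num) t
      have h4 : ((4096 : ℕ) : ℝ) ^ t < Fintype.card V := by exact_mod_cast hTlt
      have h5 : (772 : ℝ) ^ t ≤ Fintype.card V := by push_cast at h4; linarith
      rw [pow_succ]
      linarith
    have h3 : (398 / 399 : ℝ) ^ (2 * T) ≤ (1 - f) ^ (2 * T) :=
      pow_le_pow_left₀ (by norm_num) hθ _
    have h4 : (0 : ℝ) ≤ (398 / 399 : ℝ) ^ (2 * T) := by positivity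
    calc (2 * (T : ℝ) + 1) * 2 * 256 ^ T = 2 * ((2 * (T : ℝ) + 1) * 256 ^ T) := by ring
      _ ≤ 2 * (772 ^ T * (398 / 399 : ℝ) ^ (2 * T)) := by linarith
      _ ≤ 2 * (772 * Fintype.card V * (398 / 399 : ℝ) ^ (2 * T)) := by
          have := mul_le_mul_of_nonneg_right h2 h4
          linarith
      _ ≤ Fintype.card V * d * (398 / 399 : ℝ) ^ (2 * T) := by
          have : 2 * (772 * (Fintype.card V : ℝ)) ≤ Fintype.card V * d := by nlinarith
          nlinarith
      _ ≤ Fintype.card V * d * (1 - f) ^ (2 * T) := by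
          apply mul_le_mul_of_nonneg_left h3
          positivity
  have hθpos : (0 : ℝ) < (1 - f) ^ (2 * T) := by
    have : (0 : ℝ) < 1 - f := by linarith
    positivity
  have h256 : (0 : ℝ) < 256 ^ T := by positivity
  have hfinal : (Nat.card {M : G.Subgraph // M.IsMatching ∧ M.vertsᶜ.ncard = 2} : ℝ)
      ≤ (Fintype.card V : ℝ) ^ 3 * Nat.card {M : G.Subgraph // M.IsPerfectMatching} := by
    obtain ⟨A, hA⟩ : ∃ A : ℝ,
        A = Nat.card {M : G.Subgraph // M.IsMatching ∧ M.vertsᶜ.ncard = 2} := ⟨_, rfl⟩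
    obtain ⟨B, hB⟩ : ∃ B : ℝ, B = Nat.card {M : G.Subgraph // M.IsPerfectMatching} := ⟨_, rfl⟩
    rw [← hA, ← hB]
    rw [← hA, ← hB] at hW
    have hB0 : 0 ≤ B := by rw [hB]; positivity
    have hA0 : 0 ≤ A := by rw [hA]; positivity
    push_cast at hW
    -- hW : A * z ≤ (2 T + 1) * N / d * B
    have e1 : A * (1 - f) ^ (2 * T) ≤
        ((2 * (T : ℝ) + 1) * 2 * 256 ^ T) * ((Fintype.card V : ℝ) ^ 2 / d * B) := by
      have hz' : z * (2 * (Fintype.card V : ℝ) * 256 ^ T) = (1 - f) ^ (2 * T) := by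
        rw [hzdef]
        field_simp
      calc A * (1 - f) ^ (2 * T) = (A * z) * (2 * (Fintype.card V : ℝ) * 256 ^ T) := by
            rw [← hz']; ring
        _ ≤ ((2 * (T : ℝ) + 1) * Fintype.card V / d * B) * (2 * (Fintype.card V : ℝ) * 256 ^ T) :=
            mul_le_mul_of_nonneg_right hW (by positivity)
        _ = _ := by ring
    have e2 : ((2 * (T : ℝ) + 1) * 2 * 256 ^ T) * ((Fintype.card V : ℝ) ^ 2 / d * B)
        ≤ (Fintype.card V * d * (1 - f) ^ (2 * T)) * ((Fintype.card V : ℝ) ^ 2 / d * B) :=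
      mul_le_mul_of_nonneg_right hkey (by positivity)
    have e3 : (Fintype.card V * d * (1 - f) ^ (2 * T)) * ((Fintype.card V : ℝ) ^ 2 / d * B)
        = ((Fintype.card V : ℝ) ^ 3 * B) * (1 - f) ^ (2 * T) := by
      field_simp
    have e4 : A * (1 - f) ^ (2 * T) ≤ ((Fintype.card V : ℝ) ^ 3 * B) * (1 - f) ^ (2 * T) := by
      linarith
    exact le_of_mul_le_mul_right e4 hθpos
  exact_mod_cast hfinal

end Vale.Agent.H83.Poly
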