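import Vale.Agent.H83.Poly.Defs
import Vale.Agent.H83.Poly.Mass_Spec

/-!
Half-walk vectors for the second mass bound (row MASS2).

One generic step `m2step S h z = if z ∈ S then (1/d) * ∑ y ∈ N(τ z), h y else 0`.
The forward vectors are the iterates of the step with `S = I.image τ` starting from the
indicator of `u`, the backward vectors are the iterates with `S = I` starting from the
indicator of `v`.  With `Y = S.image τ`:

* `m2_mass`: `∑ h ≤ 5 * ∑ step h` if every vertex has at least `d/5` neighbours in `Y`;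
* `m2_sq`: `∑ (step h)^2 ≤ (5/8) (∑ h)^2 / N + 5 (lam/d)^2 ∑ h^2` if `2 |Y| ≤ N`;
* `m2_iter`: the induction `∑ h_t^2 ≤ ((125 ε^2)^t + 20/N) (∑ h_t)^2`, `1 ≤ 5^t ∑ h_t`;
* `m2_bet_eq`, `m2_bet_pair`: the walk weight `bet` in terms of the two families of vectors.
-/

namespace Vale.Agent.H83.Poly

open Finset

section Mass2Walk

variable {V : Type*} [Fintype V] [DecidableEq V]
variable (G : SimpleGraph V) [DecidableRel G.Adj]

/-- one half-walk step: average over the neighbours of the partner, restricted to `S`. -/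
noncomputable def m2step (d : ℕ) (τ : V → V) (S : Finset V) (h : V → ℝ) (z : V) : ℝ :=
  if z ∈ S then (1 / (d : ℝ)) * ∑ y ∈ G.neighborFinset (τ z), h y else 0

theorem m2_step_nonneg (d : ℕ) (τ : V → V) (S : Finset V) (h : V → ℝ)
    (hh : ∀ x, 0 ≤ h x) (z : V) : 0 ≤ m2step G d τ S h z := by
  unfold m2step
  split_ifs
  · exact mul_nonneg (by positivity) (Finset.sum_nonneg (fun y _ => hh y))
  · exact le_refl 0

theorem m2_swap (S : Finset V) (h : V → ℝ) :
    ∑ x ∈ S, ∑ w ∈ G.neighborFinset x, h w =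
      ∑ w, h w * (((G.neighborFinset w).filter (fun y => y ∈ S)).card : ℝ) := by
  have h1 : ∀ x ∈ S, ∑ w ∈ G.neighborFinset x, h w = ∑ w, if G.Adj x w then h w else 0 := by
    intro x _
    rw [SimpleGraph.neighborFinset_eq_filter, Finset.sum_filter]
  rw [Finset.sum_congr rfl h1, Finset.sum_comm]
  refine Finset.sum_congr rfl (fun w _ => ?_)
  have hf : S.filter (fun x => G.Adj x w) = (G.neighborFinset w).filter (fun y => y ∈ S) := by
    ext x
    simp only [Finset.mem_filter, SimpleGraph.mem_neighborFinset]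
    constructor
    · rintro ⟨hx, hadj⟩
      exact ⟨hadj.symm, hx⟩
    · rintro ⟨hadj, hx⟩
      exact ⟨hx, hadj.symm⟩
  rw [← Finset.sum_filter, Finset.sum_const, nsmul_eq_mul, mul_comm, hf]

theorem m2_sum_ite (S : Finset V) (F : V → ℝ) :
    ∑ z, (if z ∈ S then F z else 0) = ∑ z ∈ S, F z := by
  rw [Finset.sum_ite_mem, Finset.univ_inter]

omit [Fintype V] in
theorem m2_sum_image (τ : V → V) (hinv : ∀ x, τ (τ x) = x) (S : Finset V) (F : V → ℝ) :
    ∑ x ∈ S.image τ, F x = ∑ z ∈ S, F (τ z) := by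
  have hinv' : Function.Involutive τ := hinv
  have hinj : Function.Injective τ := hinv'.injective
  exact Finset.sum_image (fun a _ b _ hab => hinj hab)

omit [DecidableEq V] in
theorem m2_sum_tau (τ : V → V) (hinv : ∀ x, τ (τ x) = x) (F : V → ℝ) :
    ∑ z, F (τ z) = ∑ y, F y := by
  have hinv' : Function.Involutive τ := hinv
  exact Equiv.sum_comp (Function.Involutive.toPerm τ hinv') F

theorem m2_sum_step (d : ℕ) (τ : V → V) (hinv : ∀ x, τ (τ x) = x) (S : Finset V)
    (h : V → ℝ) :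
    ∑ z, m2step G d τ S h z =
      (1 / (d : ℝ)) *
        ∑ w, h w * (((G.neighborFinset w).filter (fun y => y ∈ S.image τ)).card : ℝ) := by
  unfold m2step
  rw [m2_sum_ite S (fun z => (1 / (d : ℝ)) * ∑ y ∈ G.neighborFinset (τ z), h y),
    ← Finset.mul_sum, ← m2_swap G (S.image τ) h,
    m2_sum_image τ hinv S (fun x => ∑ w ∈ G.neighborFinset x, h w)]

theorem m2_mass (d : ℕ) (hd : 0 < d) (τ : V → V) (hinv : ∀ x, τ (τ x) = x) (S : Finset V)
    (hdeg : ∀ w, d ≤ 5 * ((G.neighborFinset w).filter (fun y => y ∈ S.image τ)).card)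
    (h : V → ℝ) (hh : ∀ x, 0 ≤ h x) :
    ∑ x, h x ≤ 5 * ∑ z, m2step G d τ S h z := by
  rw [m2_sum_step G d τ hinv S h, Finset.mul_sum, Finset.mul_sum]
  refine Finset.sum_le_sum (fun w _ => ?_)
  have hd' : (0 : ℝ) < (d : ℝ) := by exact_mod_cast hd
  have hc : (d : ℝ) ≤
      5 * (((G.neighborFinset w).filter (fun y => y ∈ S.image τ)).card : ℝ) := by
    exact_mod_cast hdeg w
  have h1 : h w * (d : ℝ) ≤
      h w * (5 * (((G.neighborFinset w).filter (fun y => y ∈ S.image τ)).card : ℝ)) :=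
    mul_le_mul_of_nonneg_left hc (hh w)
  have h2 : 5 * (1 / (d : ℝ) *
      (h w * (((G.neighborFinset w).filter (fun y => y ∈ S.image τ)).card : ℝ))) =
      (h w * (5 * (((G.neighborFinset w).filter (fun y => y ∈ S.image τ)).card : ℝ))) /
        (d : ℝ) := by
    ring
  rw [h2, le_div_iff₀ hd']
  exact h1

theorem m2_sq (d : ℕ) (lam : ℝ) (hd : 0 < d) (hreg : ∀ x, G.degree x = d)
    (hspec : ∀ f : V → ℝ, ∑ x, f x = 0 →
      ∑ x, (∑ y ∈ G.neighborFinset x, f y) ^ 2 ≤ lam ^ 2 * ∑ x, f x ^ 2)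
    (τ : V → V) (hinv : ∀ x, τ (τ x) = x) (S : Finset V)
    (hY : 2 * (S.image τ).card ≤ Fintype.card V) (h : V → ℝ) :
    ∑ z, (m2step G d τ S h z) ^ 2
      ≤ (5 / 8) * (∑ x, h x) ^ 2 / (Fintype.card V : ℝ) + 5 * (lam / d) ^ 2 * ∑ x, h x ^ 2 := by
  have hS1 := ms_mean_step G d lam hd hreg hspec h
  have e1 : ∀ z, (m2step G d τ S h z) ^ 2 =
      if z ∈ S then ((1 / (d : ℝ)) * ∑ y ∈ G.neighborFinset (τ z), h y) ^ 2 else 0 := by
    intro z
    unfold m2step
    split_ifs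
    · rfl
    · norm_num
  rw [Finset.sum_congr rfl (fun z _ => e1 z),
    m2_sum_ite S (fun z => ((1 / (d : ℝ)) * ∑ y ∈ G.neighborFinset (τ z), h y) ^ 2),
    ← m2_sum_image τ hinv S (fun x => ((1 / (d : ℝ)) * ∑ y ∈ G.neighborFinset x, h y) ^ 2)]
  have h1 : ∀ x ∈ S.image τ, ((1 / (d : ℝ)) * (∑ y ∈ G.neighborFinset x, h y)) ^ 2 ≤
      (5 / 4) * ((∑ y, h y) / (Fintype.card V : ℝ)) ^ 2 +
        5 * ((1 / (d : ℝ)) * (∑ y ∈ G.neighborFinset x, h y) -
          (∑ y, h y) / (Fintype.card V : ℝ)) ^ 2 := by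
    intro x _
    nlinarith [sq_nonneg (2 * ((1 / (d : ℝ)) * (∑ y ∈ G.neighborFinset x, h y)) -
      (5 / 2) * ((∑ y, h y) / (Fintype.card V : ℝ)))]
  have h2 : ∑ x ∈ S.image τ, ((1 / (d : ℝ)) * (∑ y ∈ G.neighborFinset x, h y) -
        (∑ y, h y) / (Fintype.card V : ℝ)) ^ 2 ≤
      ∑ x, ((1 / (d : ℝ)) * (∑ y ∈ G.neighborFinset x, h y) -
        (∑ y, h y) / (Fintype.card V : ℝ)) ^ 2 :=
    Finset.sum_le_sum_of_subset_of_nonneg (Finset.subset_univ _) (fun x _ _ => sq_nonneg _)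
  have h3 : (2 * ((S.image τ).card : ℝ)) * ((∑ y, h y) / (Fintype.card V : ℝ)) ^ 2 ≤
      (∑ y, h y) ^ 2 / (Fintype.card V : ℝ) := by
    rcases Nat.eq_zero_or_pos (Fintype.card V) with hN | hN
    · have hY0 : (S.image τ).card = 0 := by omega
      simp [hY0, hN]
    · have hN' : (0 : ℝ) < (Fintype.card V : ℝ) := by exact_mod_cast hN
      have hYr : (2 * ((S.image τ).card : ℝ)) ≤ (Fintype.card V : ℝ) := by exact_mod_cast hY
      calc (2 * ((S.image τ).card : ℝ)) * ((∑ y, h y) / (Fintype.card V : ℝ)) ^ 2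
          ≤ (Fintype.card V : ℝ) * ((∑ y, h y) / (Fintype.card V : ℝ)) ^ 2 :=
            mul_le_mul_of_nonneg_right hYr (sq_nonneg _)
        _ = (∑ y, h y) ^ 2 / (Fintype.card V : ℝ) := by
            field_simp
  calc ∑ x ∈ S.image τ, ((1 / (d : ℝ)) * (∑ y ∈ G.neighborFinset x, h y)) ^ 2
      ≤ ∑ x ∈ S.image τ, ((5 / 4) * ((∑ y, h y) / (Fintype.card V : ℝ)) ^ 2 +
          5 * ((1 / (d : ℝ)) * (∑ y ∈ G.neighborFinset x, h y) -
            (∑ y, h y) / (Fintype.card V : ℝ)) ^ 2) := Finset.sum_le_sum h1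
    _ = (5 / 8) * ((2 * ((S.image τ).card : ℝ)) *
            ((∑ y, h y) / (Fintype.card V : ℝ)) ^ 2) +
          5 * ∑ x ∈ S.image τ, ((1 / (d : ℝ)) * (∑ y ∈ G.neighborFinset x, h y) -
            (∑ y, h y) / (Fintype.card V : ℝ)) ^ 2 := by
        rw [Finset.sum_add_distrib, Finset.sum_const, nsmul_eq_mul, ← Finset.mul_sum]
        ring
    _ ≤ (5 / 8) * (∑ x, h x) ^ 2 / (Fintype.card V : ℝ) + 5 * (lam / d) ^ 2 * ∑ x, h x ^ 2 := by
        have e5 : (5 / 8) * (∑ x, h x) ^ 2 / (Fintype.card V : ℝ) =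
            (5 / 8) * ((∑ x, h x) ^ 2 / (Fintype.card V : ℝ)) := by ring
        have e6 : 5 * (lam / d) ^ 2 * ∑ x, h x ^ 2 = 5 * ((lam / d) ^ 2 * ∑ x, h x ^ 2) := by
          ring
        rw [e5, e6]
        linarith

omit [Fintype V] in
theorem m2_image_image (τ : V → V) (hinv : ∀ x, τ (τ x) = x) (S : Finset V) :
    (S.image τ).image τ = S := by
  ext x
  simp only [Finset.mem_image]
  constructor
  · rintro ⟨y, ⟨z, hz, rfl⟩, rfl⟩
    rw [hinv z]
    exact hz
  · intro hx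
    exact ⟨τ x, ⟨x, hx, rfl⟩, hinv x⟩

omit [Fintype V] in
theorem m2_mem_image (τ : V → V) (hinv : ∀ x, τ (τ x) = x) (S : Finset V) (x : V) :
    x ∈ S.image τ ↔ τ x ∈ S := by
  simp only [Finset.mem_image]
  constructor
  · rintro ⟨y, hy, rfl⟩
    rw [hinv y]
    exact hy
  · intro hx
    exact ⟨τ x, hx, hinv x⟩

theorem m2_card_I (τ : V → V) (hinv : ∀ x, τ (τ x) = x) (u v : V) (I : Finset V)
    (huI : u ∉ I) (hvI : v ∉ I) (hI : ∀ x, x ≠ u → x ≠ v → (x ∈ I ↔ τ x ∉ I)) :
    2 * I.card ≤ Fintype.card V := by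
  have hdis : Disjoint I (I.image τ) := by
    rw [Finset.disjoint_left]
    intro x hx hx'
    rw [m2_mem_image τ hinv I x] at hx'
    have hxu : x ≠ u := fun e => huI (e ▸ hx)
    have hxv : x ≠ v := fun e => hvI (e ▸ hx)
    exact ((hI x hxu hxv).mp hx) hx'
  have hinv' : Function.Involutive τ := hinv
  have hc : (I.image τ).card = I.card :=
    Finset.card_image_of_injective I hinv'.injective
  have h1 : (I ∪ I.image τ).card = I.card + (I.image τ).card :=
    Finset.card_union_of_disjoint hdis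
  have h2 : (I ∪ I.image τ).card ≤ Fintype.card V := Finset.card_le_univ _
  omega

theorem m2_filter_O (τ : V → V) (hinv : ∀ x, τ (τ x) = x) (u v : V) (hu : τ u = u)
    (hv : τ v = v) (I : Finset V) (huI : u ∉ I) (hvI : v ∉ I)
    (hI : ∀ x, x ≠ u → x ≠ v → (x ∈ I ↔ τ x ∉ I)) (w : V) :
    (G.neighborFinset w).filter (fun y => y ∈ I.image τ) =
      (G.neighborFinset w).filter (fun y => y ∉ I ∧ y ≠ u ∧ y ≠ v) := by
  ext y
  simp only [Finset.mem_filter]
  rw [m2_mem_image τ hinv I y]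
  constructor
  · rintro ⟨hy, hty⟩
    have hyu : y ≠ u := by
      intro e
      rw [e, hu] at hty
      exact huI hty
    have hyv : y ≠ v := by
      intro e
      rw [e, hv] at hty
      exact hvI hty
    refine ⟨hy, ?_, hyu, hyv⟩
    intro hyI
    exact ((hI y hyu hyv).mp hyI) hty
  · rintro ⟨hy, hyI, hyu, hyv⟩
    refine ⟨hy, ?_⟩
    by_contra hty
    exact hyI ((hI y hyu hyv).mpr hty)

/-- the induction for one family of half-walk vectors. -/
theorem m2_iter (d : ℕ) (lam : ℝ) (hd : 0 < d) (hlam : 0 ≤ lam)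
    (hreg : ∀ x, G.degree x = d)
    (hspec : ∀ f : V → ℝ, ∑ x, f x = 0 →
      ∑ x, (∑ y ∈ G.neighborFinset x, f y) ^ 2 ≤ lam ^ 2 * ∑ x, f x ^ 2)
    (hgap : 24 * lam ≤ d)
    (τ : V → V) (hinv : ∀ x, τ (τ x) = x) (S : Finset V)
    (hY : 2 * (S.image τ).card ≤ Fintype.card V)
    (hdeg : ∀ w, d ≤ 5 * ((G.neighborFinset w).filter (fun y => y ∈ S.image τ)).card)
    (h0 : V → ℝ) (h0nn : ∀ x, 0 ≤ h0 x) (hm0 : ∑ x, h0 x = 1) (hn0 : ∑ x, h0 x ^ 2 = 1)
    (hN : 0 < Fintype.card V) (t : ℕ) :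
    (∀ x, 0 ≤ (m2step G d τ S)^[t] h0 x) ∧
      1 ≤ (5 : ℝ) ^ t * ∑ x, (m2step G d τ S)^[t] h0 x ∧
      ∑ x, ((m2step G d τ S)^[t] h0 x) ^ 2 ≤
        ((125 * (lam / d) ^ 2) ^ t + 20 / (Fintype.card V : ℝ)) *
          (∑ x, (m2step G d τ S)^[t] h0 x) ^ 2 := by
  have hN' : (0 : ℝ) < (Fintype.card V : ℝ) := by exact_mod_cast hN
  have hd' : (0 : ℝ) < (d : ℝ) := by exact_mod_cast hd
  have he0 : 0 ≤ lam / d := div_nonneg hlam hd'.le
  have he1 : lam / d ≤ 1 / 24 := by
    rw [div_le_div_iff₀ hd' (by norm_num : (0 : ℝ) < 24)]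
    linarith
  have he2 : (lam / d) ^ 2 ≤ 1 / 576 := by
    have : (lam / d) ^ 2 ≤ (1 / 24 : ℝ) ^ 2 := pow_le_pow_left₀ he0 he1 2
    norm_num at this
    linarith
  have he2' : 0 ≤ (lam / d) ^ 2 := sq_nonneg _
  induction t with
  | zero =>
    refine ⟨fun x => ?_, ?_, ?_⟩
    · simpa using h0nn x
    · simp [hm0]
    · simp only [Function.iterate_zero, id_eq, pow_zero, hm0, hn0]
      have : 0 ≤ 20 / (Fintype.card V : ℝ) := by positivity
      nlinarith
  | succ t ih =>
    obtain ⟨ihnn, ihm, ihn⟩ := ih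
    have hstep : ∀ x, (m2step G d τ S)^[t + 1] h0 x =
        m2step G d τ S ((m2step G d τ S)^[t] h0) x := by
      intro x
      rw [Function.iterate_succ_apply']
    have hmass := m2_mass G d hd τ hinv S hdeg ((m2step G d τ S)^[t] h0) ihnn
    have hsq := m2_sq G d lam hd hreg hspec τ hinv S hY ((m2step G d τ S)^[t] h0)
    have hm_nn : 0 ≤ ∑ x, (m2step G d τ S)^[t] h0 x := Finset.sum_nonneg (fun x _ => ihnn x)
    simp only [hstep]
    set h := (m2step G d τ S)^[t] h0 with hh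
    set m := ∑ x, h x with hm
    set n := ∑ x, h x ^ 2 with hn
    set m' := ∑ z, m2step G d τ S h z with hm'
    set n' := ∑ z, (m2step G d τ S h z) ^ 2 with hn'
    set e2 := (lam / d) ^ 2 with he2def
    set q := (125 * e2) ^ t with hq
    set r := 1 / (Fintype.card V : ℝ) with hr
    have hr0 : 0 ≤ r := by positivity
    have hq0 : 0 ≤ q := by positivity
    have hr20 : 20 / (Fintype.card V : ℝ) = 20 * r := by rw [hr]; ring
    have hsq' : n' ≤ (5 / 8) * m ^ 2 * r + 5 * e2 * n := by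
      have : (5 / 8) * m ^ 2 / (Fintype.card V : ℝ) = (5 / 8) * m ^ 2 * r := by rw [hr]; ring
      linarith
    have ihn' : n ≤ (q + 20 * r) * m ^ 2 := by rw [← hr20]; exact ihn
    refine ⟨fun x => m2_step_nonneg G d τ S h ihnn x, ?_, ?_⟩
    · have h5 : (0 : ℝ) ≤ (5 : ℝ) ^ t := by positivity
      calc (1 : ℝ) ≤ (5 : ℝ) ^ t * m := ihm
        _ ≤ (5 : ℝ) ^ t * (5 * m') := mul_le_mul_of_nonneg_left hmass h5
        _ = (5 : ℝ) ^ (t + 1) * m' := by ring
    · rw [hr20, pow_succ]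
      have hm'0 : 0 ≤ m' := by linarith
      have hmm : m ^ 2 ≤ 25 * m' ^ 2 := by nlinarith
      have hc0 : 0 ≤ (5 / 8) * r + 5 * e2 * q + 100 * e2 * r := by positivity
      have s1 : n' ≤ ((5 / 8) * r + 5 * e2 * q + 100 * e2 * r) * m ^ 2 := by
        have : 5 * e2 * n ≤ 5 * e2 * ((q + 20 * r) * m ^ 2) :=
          mul_le_mul_of_nonneg_left ihn' (by positivity)
        nlinarith
      have s2 : ((5 / 8) * r + 5 * e2 * q + 100 * e2 * r) * m ^ 2 ≤
          ((5 / 8) * r + 5 * e2 * q + 100 * e2 * r) * (25 * m' ^ 2) :=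
        mul_le_mul_of_nonneg_left hmm hc0
      have s3 : ((5 / 8) * r + 5 * e2 * q + 100 * e2 * r) * 25 ≤ q * (125 * e2) + 20 * r := by
        have : e2 * r ≤ (1 / 576) * r := mul_le_mul_of_nonneg_right he2 hr0
        nlinarith
      have s4 : ((5 / 8) * r + 5 * e2 * q + 100 * e2 * r) * (25 * m' ^ 2) ≤
          (q * (125 * e2) + 20 * r) * m' ^ 2 := by
        have := mul_le_mul_of_nonneg_right s3 (sq_nonneg m')
        linarith
      linarith

theorem m2_bet_eq (d : ℕ) (τ : V → V) (hinv : ∀ x, τ (τ x) = x) (I : Finset V) (v : V) :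
    ∀ (t : ℕ) (x : V), bet G d τ I v t x =
      (1 / (d : ℝ)) *
        ∑ y ∈ G.neighborFinset x, (m2step G d τ I)^[t] (fun z => if z = v then 1 else 0) y := by
  intro t
  induction t with
  | zero =>
    intro x
    simp only [Function.iterate_zero, id_eq]
    rw [Finset.sum_ite_eq']
    show bv G d v x = _
    unfold bv
    simp only [SimpleGraph.mem_neighborFinset]
    split_ifs <;> simp
  | succ t ih =>
    intro x
    show ∑ z, qk G d τ I x z * bet G d τ I v t z = _
    have hR : ∀ y ∈ G.neighborFinset x,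
        (m2step G d τ I)^[t + 1] (fun z => if z = v then 1 else 0) y =
        if y ∈ I then (1 / (d : ℝ)) * ∑ w ∈ G.neighborFinset (τ y),
          (m2step G d τ I)^[t] (fun z => if z = v then 1 else 0) w else 0 := by
      intro y _
      rw [Function.iterate_succ_apply']
      rfl
    rw [Finset.sum_congr rfl hR, SimpleGraph.neighborFinset_eq_filter, Finset.sum_filter]
    rw [← m2_sum_tau τ hinv
      (fun y => if G.Adj x y then (if y ∈ I then (1 / (d : ℝ)) * ∑ w ∈ G.neighborFinset (τ y),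
          (m2step G d τ I)^[t] (fun z => if z = v then 1 else 0) w else 0) else 0)]
    rw [Finset.mul_sum]
    refine Finset.sum_congr rfl (fun z _ => ?_)
    rw [ih z]
    have key : ∑ w ∈ G.neighborFinset (τ (τ z)),
        (m2step G d τ I)^[t] (fun z => if z = v then 1 else 0) w =
        ∑ w ∈ G.neighborFinset z, (m2step G d τ I)^[t] (fun z => if z = v then 1 else 0) w := by
      rw [hinv z]
    rw [key]
    unfold qk
    by_cases h1 : G.Adj x (τ z)
    · by_cases h2 : τ z ∈ I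
      · simp [h1, h2]
      · simp [h1, h2]
    · simp [h1]

theorem m2_a_succ (d : ℕ) (τ : V → V) (hinv : ∀ x, τ (τ x) = x) (I : Finset V)
    (h : V → ℝ) (x' : V) :
    m2step G d τ (I.image τ) h x' = ∑ x, h x * qk G d τ I x x' := by
  unfold m2step qk
  by_cases h2 : τ x' ∈ I
  · have h3 : x' ∈ I.image τ := (m2_mem_image τ hinv I x').mpr h2
    rw [if_pos h3, SimpleGraph.neighborFinset_eq_filter, Finset.sum_filter, Finset.mul_sum]
    refine Finset.sum_congr rfl (fun x _ => ?_)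
    by_cases h1 : G.Adj (τ x') x
    · have h1' : G.Adj x (τ x') := h1.symm
      simp [h1, h1', h2]
      ring
    · have h1' : ¬ G.Adj x (τ x') := fun e => h1 e.symm
      simp [h1, h1']
  · have h3 : x' ∉ I.image τ := fun e => h2 ((m2_mem_image τ hinv I x').mp e)
    rw [if_neg h3]
    symm
    apply Finset.sum_eq_zero
    intro x _
    simp [h2]

theorem m2_pair (d : ℕ) (τ : V → V) (hinv : ∀ x, τ (τ x) = x) (I : Finset V) (v : V)
    (h : V → ℝ) (s : ℕ) :
    ∑ x, m2step G d τ (I.image τ) h x * bet G d τ I v s x =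
      ∑ x, h x * bet G d τ I v (s + 1) x := by
  have h1 : ∀ x' ∈ (univ : Finset V), m2step G d τ (I.image τ) h x' * bet G d τ I v s x' =
      ∑ x, h x * (qk G d τ I x x' * bet G d τ I v s x') := by
    intro x' _
    rw [m2_a_succ G d τ hinv I h x', Finset.sum_mul]
    refine Finset.sum_congr rfl (fun x _ => ?_)
    ring
  rw [Finset.sum_congr rfl h1, Finset.sum_comm]
  refine Finset.sum_congr rfl (fun x _ => ?_)
  rw [← Finset.mul_sum]
  rfl

theorem m2_bet_pair (d : ℕ) (τ : V → V) (hinv : ∀ x, τ (τ x) = x) (I : Finset V) (u v : V) :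
    ∀ (t s : ℕ),
      ∑ x, (m2step G d τ (I.image τ))^[t] (fun z => if z = u then 1 else 0) x *
          bet G d τ I v s x = bet G d τ I v (t + s) u := by
  intro t
  induction t with
  | zero =>
    intro s
    simp only [Function.iterate_zero, id_eq, ite_mul, one_mul, zero_mul, zero_add]
    rw [Finset.sum_ite_eq']
    simp
  | succ t ih =>
    intro s
    have h1 : ∀ x ∈ (univ : Finset V),
        (m2step G d τ (I.image τ))^[t + 1] (fun z => if z = u then 1 else 0) x *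
          bet G d τ I v s x =
        m2step G d τ (I.image τ)
          ((m2step G d τ (I.image τ))^[t] (fun z => if z = u then 1 else 0)) x *
          bet G d τ I v s x := by
      intro x _
      rw [Function.iterate_succ_apply']
    rw [Finset.sum_congr rfl h1, m2_pair G d τ hinv I v _ s, ih (s + 1)]
    congr 1
    omega

end Mass2Walk

end Vale.Agent.H83.Poly
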