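import Vale.Agent.H83.Poly.Defs
import Vale.Agent.H83.Poly.Mass2_Walk

/-!
Lower bound for the weight of the restricted alternating walks of length `2 T` from `u` to `v`,
second version: `24 * lam ≤ d` and every vertex has at least `d/5` neighbours on each side.

Proof sketch: exactly as `bet_lower` in `Mass.lean` (see the sketch there), with these constants.
Mass: `m (step h) ≥ m h / 5`, so `(m h)^2 ≤ 25 * (m (step h))^2`.
Squares: with `(p + q)^2 ≤ (5/4) p^2 + 5 q^2`: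
  `n (step h) ≤ (5/4) * card Y * (m h / N)^2 + 5 * ∑ e^2 ≤ (5/8) * (m h)^2 / N + 5 * ε^2 * n h`
  (`2 * card Y ≤ N`, `ε = lam / d ≤ 1/24`).
Induction: with `η = 125 * ε^2 ≤ 125/576 ≤ 1/4`:  `n (a t) ≤ (η^t + 20/N) * (m (a t))^2`
  (the step needs `15.625 + 2500 * ε^2 ≤ 20`, true as `ε^2 ≤ 1/576`); the same for `g`.
  As `N ≤ 4^T`: `n (a T) ≤ (21/N) * (m (a T))^2`, the same for `g T`.
Mixing: `∑ x, a T x * A (g T) x ≥ (m (a T) * m (g T) / N) * (d - 21 * lam) ≥ (d/(8N)) * m (a T) * m (g T)`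
  and `m (a T) ≥ 1/5^T`, `m (g T) ≥ 1/5^T`, so `bet (2T) u ≥ 1/(8 N 25^T)`.
-/

namespace Vale.Agent.H83.Poly

open Finset

theorem bet_lower2 {V : Type*} [Fintype V] [DecidableEq V] (G : SimpleGraph V)
    [DecidableRel G.Adj] (d : ℕ) (lam : ℝ) (hd : 0 < d) (hlam : 0 ≤ lam)
    (hreg : ∀ x, G.degree x = d)
    (hspec : ∀ f : V → ℝ, ∑ x, f x = 0 →
      ∑ x, (∑ y ∈ G.neighborFinset x, f y) ^ 2 ≤ lam ^ 2 * ∑ x, f x ^ 2)
    (hgap : 24 * lam ≤ d)
    (τ : V → V) (u v : V) (hinv : ∀ x, τ (τ x) = x) (hu : τ u = u) (hv : τ v = v)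
    (I : Finset V) (huI : u ∉ I) (hvI : v ∉ I)
    (hI : ∀ x, x ≠ u → x ≠ v → (x ∈ I ↔ τ x ∉ I))
    (hdegI : ∀ x, d ≤ 5 * ((G.neighborFinset x).filter (fun y => y ∈ I)).card)
    (hdegO : ∀ x, d ≤ 5 * ((G.neighborFinset x).filter (fun y => y ∉ I ∧ y ≠ u ∧ y ≠ v)).card)
    (T : ℕ) (hT : (Fintype.card V : ℝ) ≤ 4 ^ T) :
    1 / (8 * (Fintype.card V : ℝ) * 25 ^ T) ≤ bet G d τ I v (2 * T) u := by
  have hN : 0 < Fintype.card V := Fintype.card_pos_iff.mpr ⟨u⟩
  have hN' : (0 : ℝ) < (Fintype.card V : ℝ) := by exact_mod_cast hN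
  have hd' : (0 : ℝ) < (d : ℝ) := by exact_mod_cast hd
  have hinv' : Function.Involutive τ := hinv
  have hcardI : 2 * I.card ≤ Fintype.card V := m2_card_I τ hinv u v I huI hvI hI
  have hYa : 2 * ((I.image τ).image τ).card ≤ Fintype.card V := by
    rw [m2_image_image τ hinv I]
    exact hcardI
  have hYg : 2 * (I.image τ).card ≤ Fintype.card V := by
    rw [Finset.card_image_of_injective I hinv'.injective]
    exact hcardI
  have hdega : ∀ w, d ≤
      5 * ((G.neighborFinset w).filter (fun y => y ∈ (I.image τ).image τ)).card := by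
    intro w
    rw [m2_image_image τ hinv I]
    exact hdegI w
  have hdegg : ∀ w, d ≤ 5 * ((G.neighborFinset w).filter (fun y => y ∈ I.image τ)).card := by
    intro w
    rw [m2_filter_O G τ hinv u v hu hv I huI hvI hI w]
    exact hdegO w
  have hind : ∀ c : V, (∀ x : V, (0 : ℝ) ≤ (if x = c then (1 : ℝ) else 0)) ∧
      ∑ x : V, (if x = c then (1 : ℝ) else 0) = 1 ∧
      ∑ x : V, (if x = c then (1 : ℝ) else 0) ^ 2 = 1 := by
    intro c
    refine ⟨fun x => ?_, ?_, ?_⟩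
    · split_ifs <;> norm_num
    · simp
    · simp
  obtain ⟨ha0, ham, han⟩ := m2_iter G d lam hd hlam hreg hspec hgap τ hinv (I.image τ) hYa hdega
    (fun z => if z = u then 1 else 0) (hind u).1 (hind u).2.1 (hind u).2.2 hN T
  obtain ⟨hg0, hgm, hgn⟩ := m2_iter G d lam hd hlam hreg hspec hgap τ hinv I hYg hdegg
    (fun z => if z = v then 1 else 0) (hind v).1 (hind v).2.1 (hind v).2.2 hN T
  have hbet : bet G d τ I v (2 * T) u = (1 / (d : ℝ)) *
      ∑ x, (m2step G d τ (I.image τ))^[T] (fun z => if z = u then 1 else 0) x *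
        ∑ y ∈ G.neighborFinset x, (m2step G d τ I)^[T] (fun z => if z = v then 1 else 0) y := by
    rw [two_mul, ← m2_bet_pair G d τ hinv I u v T T, Finset.mul_sum]
    refine Finset.sum_congr rfl (fun x _ => ?_)
    rw [m2_bet_eq G d τ hinv I v T x]
    ring
  have he0 : 0 ≤ lam / d := div_nonneg hlam hd'.le
  have he1 : lam / d ≤ 1 / 24 := by
    rw [div_le_div_iff₀ hd' (by norm_num : (0 : ℝ) < 24)]
    linarith
  have he2 : (lam / d) ^ 2 ≤ 1 / 576 := by
    have : (lam / d) ^ 2 ≤ (1 / 24 : ℝ) ^ 2 := pow_le_pow_left₀ he0 he1 2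
    norm_num at this
    linarith
  have heta : (125 * (lam / d) ^ 2) ^ T ≤ 1 / (Fintype.card V : ℝ) := by
    have h1 : 125 * (lam / d) ^ 2 ≤ 1 / 4 := by linarith
    have h2 : (125 * (lam / d) ^ 2) ^ T ≤ (1 / 4 : ℝ) ^ T :=
      pow_le_pow_left₀ (by positivity) h1 T
    have h3 : (1 / 4 : ℝ) ^ T = 1 / 4 ^ T := by rw [one_div_pow]
    have h4 : (1 : ℝ) / 4 ^ T ≤ 1 / (Fintype.card V : ℝ) := one_div_le_one_div_of_le hN' hT
    linarith
  have hcc : (125 * (lam / d) ^ 2) ^ T + 20 / (Fintype.card V : ℝ) ≤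
      21 / (Fintype.card V : ℝ) := by
    have : (21 : ℝ) / (Fintype.card V : ℝ) =
        1 / (Fintype.card V : ℝ) + 20 / (Fintype.card V : ℝ) := by ring
    linarith
  have hma0 : 0 ≤ ∑ x, (m2step G d τ (I.image τ))^[T] (fun z => if z = u then 1 else 0) x :=
    Finset.sum_nonneg (fun x _ => ha0 x)
  have hmg0 : 0 ≤ ∑ x, (m2step G d τ I)^[T] (fun z => if z = v then 1 else 0) x :=
    Finset.sum_nonneg (fun x _ => hg0 x)
  have hspa := han.trans (mul_le_mul_of_nonneg_right hcc (sq_nonneg _))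
  have hspg := hgn.trans (mul_le_mul_of_nonneg_right hcc (sq_nonneg _))
  have hmix := ms_mixing_of_spread G d lam hlam hreg hspec
    ((m2step G d τ (I.image τ))^[T] (fun z => if z = u then 1 else 0))
    ((m2step G d τ I)^[T] (fun z => if z = v then 1 else 0))
    (21 / (Fintype.card V : ℝ)) (by positivity) hma0 hmg0 hspa hspg
  have hcoef : (d : ℝ) / (8 * (Fintype.card V : ℝ)) ≤
      (d : ℝ) / (Fintype.card V : ℝ) - lam * (21 / (Fintype.card V : ℝ)) := by
    have e1 : (d : ℝ) / (Fintype.card V : ℝ) - lam * (21 / (Fintype.card V : ℝ)) =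
        ((d : ℝ) - 21 * lam) / (Fintype.card V : ℝ) := by ring
    have e2 : (d : ℝ) / (8 * (Fintype.card V : ℝ)) = ((d : ℝ) / 8) / (Fintype.card V : ℝ) := by
      rw [div_div]
    rw [e1, e2]
    exact div_le_div_of_nonneg_right (by linarith) hN'.le
  have h5 : (0 : ℝ) < (5 : ℝ) ^ T := by positivity
  have hma1 : 1 / (5 : ℝ) ^ T ≤
      ∑ x, (m2step G d τ (I.image τ))^[T] (fun z => if z = u then 1 else 0) x := by
    rw [div_le_iff₀ h5]
    linarith
  have hmg1 : 1 / (5 : ℝ) ^ T ≤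
      ∑ x, (m2step G d τ I)^[T] (fun z => if z = v then 1 else 0) x := by
    rw [div_le_iff₀ h5]
    linarith
  have hprod : (1 / (5 : ℝ) ^ T) * (1 / (5 : ℝ) ^ T) ≤
      (∑ x, (m2step G d τ (I.image τ))^[T] (fun z => if z = u then 1 else 0) x) *
        (∑ x, (m2step G d τ I)^[T] (fun z => if z = v then 1 else 0) x) :=
    mul_le_mul hma1 hmg1 (by positivity) hma0
  have h25 : (25 : ℝ) ^ T = (5 : ℝ) ^ T * (5 : ℝ) ^ T := by
    rw [← mul_pow]
    norm_num
  have hc0 : (0 : ℝ) ≤ (d : ℝ) / (8 * (Fintype.card V : ℝ)) := by positivity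
  calc 1 / (8 * (Fintype.card V : ℝ) * 25 ^ T)
      = (1 / (d : ℝ)) * (((d : ℝ) / (8 * (Fintype.card V : ℝ))) *
          ((1 / (5 : ℝ) ^ T) * (1 / (5 : ℝ) ^ T))) := by
        rw [h25]
        field_simp
    _ ≤ (1 / (d : ℝ)) * (((d : ℝ) / (Fintype.card V : ℝ) - lam * (21 / (Fintype.card V : ℝ))) *
          ((∑ x, (m2step G d τ (I.image τ))^[T] (fun z => if z = u then 1 else 0) x) *
            (∑ x, (m2step G d τ I)^[T] (fun z => if z = v then 1 else 0) x))) :=
        mul_le_mul_of_nonneg_left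
          (mul_le_mul hcoef hprod (by positivity) (hc0.trans hcoef)) (by positivity)
    _ ≤ (1 / (d : ℝ)) *
          ∑ x, (m2step G d τ (I.image τ))^[T] (fun z => if z = u then 1 else 0) x *
            ∑ y ∈ G.neighborFinset x,
              (m2step G d τ I)^[T] (fun z => if z = v then 1 else 0) y :=
        mul_le_mul_of_nonneg_left hmix (by positivity)
    _ = bet G d τ I v (2 * T) u := hbet.symm

end Vale.Agent.H83.Poly
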