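import Vale.Agent.H83.Poly.Tail

/-!
A second binomial tail bound in counting form (threshold one quarter, with a deterministic
contribution B).

Proof sketch (same method as tail_count in Tail.lean).  With m = S.card and agree w the number
of r in S with w r = fav r: if 4 * (B + agree w) is at most 2 * B + m, then
1 is at most (3/4)^(2*B) * (4/3)^m * ((3/4)^4)^(agree w).  Moreover the sum over w of
((3/4)^4)^(agree w) equals (1 + (3/4)^4)^m * 2^(card P - m)  [tail_weight_sum].  Since
(4/3) * (1 + (3/4)^4) / 2 = 337/384 and (3/4)^2 = 9/16 is at most (337/384)^2, the claim follows.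
-/

namespace Vale.Agent.H83.Poly

open Finset

theorem tail_count2 {P : Type*} [Fintype P] [DecidableEq P] (S : Finset P) (fav : P → Bool)
    (B : ℕ) :
    ((univ.filter (fun ω : P → Bool =>
        4 * (B + (S.filter (fun r => ω r = fav r)).card) ≤ 2 * B + S.card)).card : ℝ)
      ≤ (337 / 384 : ℝ) ^ (2 * B + S.card) * Fintype.card (P → Bool) := by
  have hm : S.card ≤ Fintype.card P := Finset.card_le_univ S
  have hcard : (Fintype.card (P → Bool) : ℝ) = 2 ^ Fintype.card P := by
    rw [Fintype.card_fun, Fintype.card_bool]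
    push_cast
    rfl
  have hpt : ∀ ω : P → Bool,
      4 * (B + (S.filter (fun r => ω r = fav r)).card) ≤ 2 * B + S.card →
      (1 : ℝ) ≤ (3 / 4 : ℝ) ^ (2 * B) * ((4 / 3) ^ S.card *
        ((3 / 4 : ℝ) ^ 4) ^ (S.filter (fun r => ω r = fav r)).card) := by
    intro ω h
    rw [← pow_mul]
    have h1 : ((3 / 4 : ℝ)) ^ S.card ≤
        (3 / 4 : ℝ) ^ (2 * B + 4 * (S.filter (fun r => ω r = fav r)).card) :=
      pow_le_pow_of_le_one (by norm_num) (by norm_num) (by omega)
    have h2 : (4 / 3 : ℝ) ^ S.card * (3 / 4 : ℝ) ^ S.card = 1 := by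
      rw [← mul_pow]
      norm_num
    calc (1 : ℝ) = (4 / 3 : ℝ) ^ S.card * (3 / 4 : ℝ) ^ S.card := h2.symm
      _ ≤ (4 / 3) ^ S.card *
            (3 / 4 : ℝ) ^ (2 * B + 4 * (S.filter (fun r => ω r = fav r)).card) := by
          apply mul_le_mul_of_nonneg_left h1
          positivity
      _ = (3 / 4 : ℝ) ^ (2 * B) * ((4 / 3) ^ S.card *
            (3 / 4 : ℝ) ^ (4 * (S.filter (fun r => ω r = fav r)).card)) := by
          rw [pow_add]
          ring
  have hB : (3 / 4 : ℝ) ^ (2 * B) ≤ (337 / 384 : ℝ) ^ (2 * B) :=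
    pow_le_pow_left₀ (by norm_num) (by norm_num) _
  have hmm : (4 / 3 : ℝ) ^ S.card * (1 + (3 / 4 : ℝ) ^ 4) ^ S.card =
      (337 / 384 : ℝ) ^ S.card * 2 ^ S.card := by
    rw [← mul_pow, ← mul_pow]
    norm_num
  have e : (2 : ℝ) ^ Fintype.card P = 2 ^ S.card * 2 ^ (Fintype.card P - S.card) := by
    rw [← pow_add]
    congr 1
    omega
  calc ((univ.filter (fun ω : P → Bool =>
        4 * (B + (S.filter (fun r => ω r = fav r)).card) ≤ 2 * B + S.card)).card : ℝ)
      = ∑ ω ∈ univ.filter (fun ω : P → Bool =>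
          4 * (B + (S.filter (fun r => ω r = fav r)).card) ≤ 2 * B + S.card), (1 : ℝ) := by
        simp
    _ ≤ ∑ ω ∈ univ.filter (fun ω : P → Bool =>
          4 * (B + (S.filter (fun r => ω r = fav r)).card) ≤ 2 * B + S.card),
          (3 / 4 : ℝ) ^ (2 * B) * ((4 / 3) ^ S.card *
            ((3 / 4 : ℝ) ^ 4) ^ (S.filter (fun r => ω r = fav r)).card) := by
        apply Finset.sum_le_sum
        intro ω hω
        exact hpt ω (Finset.mem_filter.mp hω).2
    _ ≤ ∑ ω : P → Bool,
          (3 / 4 : ℝ) ^ (2 * B) * ((4 / 3) ^ S.card *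
            ((3 / 4 : ℝ) ^ 4) ^ (S.filter (fun r => ω r = fav r)).card) := by
        apply Finset.sum_le_sum_of_subset_of_nonneg (Finset.filter_subset _ _)
        intro ω _ _
        positivity
    _ = (3 / 4 : ℝ) ^ (2 * B) * ((4 / 3 : ℝ) ^ S.card *
          ((1 + (3 / 4 : ℝ) ^ 4) ^ S.card * 2 ^ (Fintype.card P - S.card))) := by
        rw [← Finset.mul_sum, ← Finset.mul_sum, tail_weight_sum]
    _ = (3 / 4 : ℝ) ^ (2 * B) * ((337 / 384 : ℝ) ^ S.card * (2 : ℝ) ^ Fintype.card P) := by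
        rw [← mul_assoc ((4 / 3 : ℝ) ^ S.card), hmm, e]
        ring
    _ ≤ (337 / 384 : ℝ) ^ (2 * B) * ((337 / 384 : ℝ) ^ S.card * (2 : ℝ) ^ Fintype.card P) := by
        apply mul_le_mul_of_nonneg_right hB
        positivity
    _ = (337 / 384 : ℝ) ^ (2 * B + S.card) * Fintype.card (P → Bool) := by
        rw [hcard, pow_add]
        ring

end Vale.Agent.H83.Poly
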