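import Vale.Agent.H83.Poly.LLL
import Vale.Agent.H83.Poly.Indep
import Vale.Agent.H83.Poly.Tail2

/-!
Existence of a balanced orientation of a near-perfect matching, second version: degree at least
`128`, every vertex gets at least `d/5` neighbours on each side.

Proof sketch (same method as `exists_orientation` in `Orient.lean`, with a finer count).
Fix `I₀` with one endpoint of each matching edge, `rep x = if x ∈ I₀ then x else τ x`, and for
`ω : V → Bool` put `I ω = {x | x ≠ u ∧ x ≠ v ∧ (ω (rep x) = decide (x ∈ I₀))}`.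
For a vertex `x` let `N' = neighbours of x other than u, v` (`card N' ≥ d - 2`),
`S2 x = {r | r ∈ N' ∧ τ r ∈ N' ∧ rep r = r}` (pairs with both endpoints in `N'`) and
`S1 x = {rep y | y ∈ N', τ y ∉ N'}` (pairs with exactly one endpoint in `N'`), so that
`card N' = 2 * card (S2 x) + card (S1 x)`.  A pair of `S2 x` contributes exactly one neighbour
to `I ω` and one to the other side, for every `ω`.  For `r ∈ S1 x` there is a bit value
`favI x r` (resp. `favO x r`) such that the endpoint in `N'` lies in `I ω` (resp. on the other side)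
iff `ω r = favI x r` (resp. `favO x r`).  Hence the number of neighbours of `x` in `I ω` is
`card (S2 x) + agree`, and if `4 * (card (S2 x) + agree) > 2 * card (S2 x) + card (S1 x) ≥ d - 2`
then `4 * deg ≥ d - 1`, so `5 * deg ≥ d` (as `d ≥ 5`).
Bad event `B x` = union of the two tail events of `tail_count2` (for `S1 x`, `favI x` / `favO x`,
`B = card (S2 x)`): `(B x).card ≤ 2 * (337/384)^(d-2) * 2^(card V)`.  `B x` is determined by the
coordinates in `S1 x`; `Γ x = {x' | ¬ Disjoint (S1 x) (S1 x')}` has at most `2 * d^2` elements.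
Independence from `card_inter_of_determined`.  Numerics: `16 * d^2 * (337/384)^(d-2) ≤ 1` for
`d ≥ 128` (check `d = 128`, then induction: `(1 + 1/d)^2 * (337/384) ≤ 1`).
-/

namespace Vale.Agent.H83.Poly

open Finset

set_option linter.unusedSectionVars false
set_option linter.unusedVariables false

section orient2

variable {V : Type*} [Fintype V] [DecidableEq V]

/-- the representative of the matching pair of `x` -/
def o2rep (τ : V → V) (I₀ : Finset V) (x : V) : V := if x ∈ I₀ then x else τ x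

/-- a bit, kept (`c = true`) or flipped (`c = false`) -/
def o2tw (c b : Bool) : Bool := if c then b else !b

/-- the neighbours of `x` other than `u`, `v` -/
def o2N (G : SimpleGraph V) [DecidableRel G.Adj] (u v x : V) : Finset V :=
  (G.neighborFinset x).filter (fun y => y ≠ u ∧ y ≠ v)

/-- the neighbours of `x` on side `c` of the orientation given by `ω` -/
def o2side (G : SimpleGraph V) [DecidableRel G.Adj] (τ : V → V) (u v : V) (I₀ : Finset V)
    (c : Bool) (ω : V → Bool) (x : V) : Finset V :=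
  (G.neighborFinset x).filter
    (fun y => y ≠ u ∧ y ≠ v ∧ ω (o2rep τ I₀ y) = o2tw c (decide (y ∈ I₀)))

/-- representatives of the pairs with both endpoints among the neighbours of `x` -/
def o2S2 (G : SimpleGraph V) [DecidableRel G.Adj] (τ : V → V) (u v : V) (I₀ : Finset V)
    (x : V) : Finset V :=
  (o2N G u v x).filter (fun r => τ r ∈ o2N G u v x ∧ r ∈ I₀)

/-- representatives of the pairs with exactly one endpoint among the neighbours of `x` -/
def o2S1 (G : SimpleGraph V) [DecidableRel G.Adj] (τ : V → V) (u v : V) (I₀ : Finset V)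
    (x : V) : Finset V :=
  ((o2N G u v x).filter (fun y => τ y ∉ o2N G u v x)).image (o2rep τ I₀)

/-- the favourable bit of the pair `r` for the vertex `x` and the side `c` -/
def o2fav (G : SimpleGraph V) [DecidableRel G.Adj] (u v : V) (c : Bool) (x r : V) : Bool :=
  o2tw c (decide (r ∈ o2N G u v x))

/-- the bad event of the vertex `x` for the side `c` -/
def o2bad (G : SimpleGraph V) [DecidableRel G.Adj] (τ : V → V) (u v : V) (I₀ : Finset V)
    (c : Bool) (x : V) : Finset (V → Bool) :=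
  univ.filter (fun ω : V → Bool =>
    4 * ((o2S2 G τ u v I₀ x).card +
        ((o2S1 G τ u v I₀ x).filter (fun r => ω r = o2fav G u v c x r)).card) ≤
      2 * (o2S2 G τ u v I₀ x).card + (o2S1 G τ u v I₀ x).card)

theorem o2tw_ne {c a : Bool} (h : a ≠ o2tw c true) : a = o2tw c false := by
  revert h
  cases c <;> cases a <;> simp [o2tw]

theorem o2tw_not {b : Bool} (h : o2tw true b = o2tw false b) : False := by
  revert h
  cases b <;> simp [o2tw]

theorem o2rep_of_mem {τ : V → V} {I₀ : Finset V} {x : V} (h : x ∈ I₀) : o2rep τ I₀ x = x := by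
  unfold o2rep
  rw [if_pos h]

theorem o2rep_of_not_mem {τ : V → V} {I₀ : Finset V} {x : V} (h : x ∉ I₀) :
    o2rep τ I₀ x = τ x := by
  unfold o2rep
  rw [if_neg h]

theorem o2rep_tau {τ : V → V} {u v : V} {I₀ : Finset V} (hinv : ∀ x, τ (τ x) = x)
    (hI : ∀ x, x ≠ u → x ≠ v → (x ∈ I₀ ↔ τ x ∉ I₀)) (hIuv : ∀ x ∈ I₀, x ≠ u ∧ x ≠ v)
    {r : V} (h : r ∈ I₀) : o2rep τ I₀ (τ r) = r := by
  have h1 := hIuv r h
  have h2 : τ r ∉ I₀ := (hI r h1.1 h1.2).1 h
  rw [o2rep_of_not_mem h2, hinv]

theorem o2_tau_mem {τ : V → V} {u v : V} {I₀ : Finset V}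
    (hI : ∀ x, x ≠ u → x ≠ v → (x ∈ I₀ ↔ τ x ∉ I₀))
    {y : V} (hyu : y ≠ u) (hyv : y ≠ v) (h : y ∉ I₀) : τ y ∈ I₀ := by
  by_contra h'
  exact h ((hI y hyu hyv).2 h')

/-- every side gets at least `card S2 + agree` neighbours -/
theorem o2_count (G : SimpleGraph V) [DecidableRel G.Adj] {τ : V → V} {u v : V}
    {I₀ : Finset V} (hinv : ∀ x, τ (τ x) = x)
    (hI : ∀ x, x ≠ u → x ≠ v → (x ∈ I₀ ↔ τ x ∉ I₀)) (hIuv : ∀ x ∈ I₀, x ≠ u ∧ x ≠ v)
    (c : Bool) (ω : V → Bool) (x : V) :
    (o2S2 G τ u v I₀ x).card +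
        ((o2S1 G τ u v I₀ x).filter (fun r => ω r = o2fav G u v c x r)).card ≤
      (o2side G τ u v I₀ c ω x).card := by
  have hdisj : Disjoint (o2S2 G τ u v I₀ x)
      ((o2S1 G τ u v I₀ x).filter (fun r => ω r = o2fav G u v c x r)) := by
    rw [Finset.disjoint_left]
    intro r hr2 hr1
    have h2 := Finset.mem_filter.mp hr2
    have h1 := (Finset.mem_filter.mp hr1).1
    obtain ⟨y, hy, rfl⟩ := Finset.mem_image.mp h1
    have hy' := Finset.mem_filter.mp hy
    by_cases hyI : y ∈ I₀
    · rw [o2rep_of_mem hyI] at h2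
      exact hy'.2 h2.2.1
    · rw [o2rep_of_not_mem hyI] at h2
      exact hy'.2 h2.1
  have hsub : o2S2 G τ u v I₀ x ∪
      ((o2S1 G τ u v I₀ x).filter (fun r => ω r = o2fav G u v c x r)) ⊆
      (o2side G τ u v I₀ c ω x).image (o2rep τ I₀) := by
    intro r hr
    rcases Finset.mem_union.mp hr with hr2 | hr1
    · have h2 := Finset.mem_filter.mp hr2
      have hrN := Finset.mem_filter.mp h2.1
      have htN := Finset.mem_filter.mp h2.2.1
      have hrI : r ∈ I₀ := h2.2.2
      have htI : τ r ∉ I₀ := (hI r hrN.2.1 hrN.2.2).1 hrI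
      by_cases hω : ω r = o2tw c true
      · refine Finset.mem_image.mpr ⟨r, ?_, o2rep_of_mem hrI⟩
        refine Finset.mem_filter.mpr ⟨hrN.1, hrN.2.1, hrN.2.2, ?_⟩
        rw [o2rep_of_mem hrI, hω]
        simp [hrI]
      · refine Finset.mem_image.mpr ⟨τ r, ?_, o2rep_tau hinv hI hIuv hrI⟩
        refine Finset.mem_filter.mpr ⟨htN.1, htN.2.1, htN.2.2, ?_⟩
        rw [o2rep_tau hinv hI hIuv hrI, o2tw_ne hω]
        simp [htI]
    · have h1 := Finset.mem_filter.mp hr1
      obtain ⟨y, hy, hyr⟩ := Finset.mem_image.mp h1.1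
      have hy' := Finset.mem_filter.mp hy
      have hyN := Finset.mem_filter.mp hy'.1
      refine Finset.mem_image.mpr ⟨y, ?_, hyr⟩
      refine Finset.mem_filter.mpr ⟨hyN.1, hyN.2.1, hyN.2.2, ?_⟩
      rw [hyr, h1.2]
      unfold o2fav
      congr 1
      by_cases hyI : y ∈ I₀
      · have e : r = y := by rw [← hyr, o2rep_of_mem hyI]
        rw [e]
        simp [hyI, hy'.1]
      · have e : r = τ y := by rw [← hyr, o2rep_of_not_mem hyI]
        rw [e]
        simp [hyI, hy'.2]
  calc (o2S2 G τ u v I₀ x).card +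
        ((o2S1 G τ u v I₀ x).filter (fun r => ω r = o2fav G u v c x r)).card
      = (o2S2 G τ u v I₀ x ∪
          ((o2S1 G τ u v I₀ x).filter (fun r => ω r = o2fav G u v c x r))).card :=
        (Finset.card_union_of_disjoint hdisj).symm
    _ ≤ ((o2side G τ u v I₀ c ω x).image (o2rep τ I₀)).card := Finset.card_le_card hsub
    _ ≤ (o2side G τ u v I₀ c ω x).card := Finset.card_image_le

/-- the neighbours of `x` other than `u`, `v` are covered by the two kinds of pairs -/
theorem o2_N_le (G : SimpleGraph V) [DecidableRel G.Adj] {τ : V → V} {u v : V}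
    {I₀ : Finset V} (hinv : ∀ x, τ (τ x) = x)
    (hI : ∀ x, x ≠ u → x ≠ v → (x ∈ I₀ ↔ τ x ∉ I₀)) (x : V) :
    (o2N G u v x).card ≤ 2 * (o2S2 G τ u v I₀ x).card + (o2S1 G τ u v I₀ x).card := by
  have hsplit := Finset.card_filter_add_card_filter_not (s := o2N G u v x)
    (fun y => τ y ∈ o2N G u v x)
  have h1 : ((o2N G u v x).filter (fun y => ¬ τ y ∈ o2N G u v x)).card =
      (o2S1 G τ u v I₀ x).card := by
    unfold o2S1
    rw [Finset.card_image_of_injOn]
    intro y hy y' hy' hyy
    have hy1 := Finset.mem_filter.mp (Finset.mem_coe.mp hy)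
    have hy1' := Finset.mem_filter.mp (Finset.mem_coe.mp hy')
    by_cases hyI : y ∈ I₀
    · by_cases hyI' : y' ∈ I₀
      · rw [o2rep_of_mem hyI, o2rep_of_mem hyI'] at hyy
        exact hyy
      · rw [o2rep_of_mem hyI, o2rep_of_not_mem hyI'] at hyy
        exact absurd (hyy ▸ hy1.1) hy1'.2
    · by_cases hyI' : y' ∈ I₀
      · rw [o2rep_of_not_mem hyI, o2rep_of_mem hyI'] at hyy
        exact absurd (hyy.symm ▸ hy1'.1) hy1.2
      · rw [o2rep_of_not_mem hyI, o2rep_of_not_mem hyI'] at hyy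
        have := congrArg τ hyy
        rw [hinv, hinv] at this
        exact this
  have h2 : ((o2N G u v x).filter (fun y => τ y ∈ o2N G u v x)).card ≤
      2 * (o2S2 G τ u v I₀ x).card := by
    have hsub : (o2N G u v x).filter (fun y => τ y ∈ o2N G u v x) ⊆
        o2S2 G τ u v I₀ x ∪ (o2S2 G τ u v I₀ x).image τ := by
      intro y hy
      have hy1 := Finset.mem_filter.mp hy
      have hyN := Finset.mem_filter.mp hy1.1
      by_cases hyI : y ∈ I₀
      · exact Finset.mem_union_left _ (Finset.mem_filter.mpr ⟨hy1.1, hy1.2, hyI⟩)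
      · refine Finset.mem_union_right _ (Finset.mem_image.mpr ⟨τ y, ?_, hinv y⟩)
        refine Finset.mem_filter.mpr ⟨hy1.2, ?_, o2_tau_mem hI hyN.2.1 hyN.2.2 hyI⟩
        rw [hinv]
        exact hy1.1
    calc ((o2N G u v x).filter (fun y => τ y ∈ o2N G u v x)).card
        ≤ (o2S2 G τ u v I₀ x ∪ (o2S2 G τ u v I₀ x).image τ).card := Finset.card_le_card hsub
      _ ≤ (o2S2 G τ u v I₀ x).card + ((o2S2 G τ u v I₀ x).image τ).card :=
          Finset.card_union_le _ _
      _ ≤ (o2S2 G τ u v I₀ x).card + (o2S2 G τ u v I₀ x).card :=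
          Nat.add_le_add_left Finset.card_image_le _
      _ = 2 * (o2S2 G τ u v I₀ x).card := by ring
  omega

theorem o2_N_ge (G : SimpleGraph V) [DecidableRel G.Adj] (u v x : V) :
    G.degree x - 2 ≤ (o2N G u v x).card := by
  have hsub : G.neighborFinset x \ {u, v} ⊆ o2N G u v x := by
    intro y hy
    have hy' := Finset.mem_sdiff.mp hy
    refine Finset.mem_filter.mpr ⟨hy'.1, ?_, ?_⟩
    · intro h
      exact hy'.2 (by rw [h]; exact Finset.mem_insert_self _ _)
    · intro h
      exact hy'.2 (by rw [h]; exact Finset.mem_insert_of_mem (Finset.mem_singleton_self _))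
  have h1 := Finset.le_card_sdiff ({u, v} : Finset V) (G.neighborFinset x)
  have h2 : ({u, v} : Finset V).card ≤ 2 := Finset.card_le_two
  have h3 := Finset.card_le_card hsub
  rw [G.card_neighborFinset_eq_degree] at h1
  omega

theorem o2_S1_le (G : SimpleGraph V) [DecidableRel G.Adj] (τ : V → V) (u v : V)
    (I₀ : Finset V) (x : V) : (o2S1 G τ u v I₀ x).card ≤ G.degree x := by
  unfold o2S1
  calc (((o2N G u v x).filter (fun y => τ y ∉ o2N G u v x)).image (o2rep τ I₀)).card
      ≤ ((o2N G u v x).filter (fun y => τ y ∉ o2N G u v x)).card := Finset.card_image_le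
    _ ≤ (o2N G u v x).card := Finset.card_filter_le _ _
    _ ≤ (G.neighborFinset x).card := Finset.card_filter_le _ _
    _ = G.degree x := G.card_neighborFinset_eq_degree x

/-- the bad events of `x` are determined by the coordinates in `S1 x` -/
theorem o2_bad_determined (G : SimpleGraph V) [DecidableRel G.Adj] (τ : V → V) (u v : V)
    (I₀ : Finset V) (c : Bool) (x : V) (ω ω' : V → Bool)
    (h : ∀ r ∈ o2S1 G τ u v I₀ x, ω r = ω' r) :
    ω ∈ o2bad G τ u v I₀ c x ↔ ω' ∈ o2bad G τ u v I₀ c x := by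
  unfold o2bad
  rw [Finset.mem_filter, Finset.mem_filter]
  have e : (o2S1 G τ u v I₀ x).filter (fun r => ω r = o2fav G u v c x r) =
      (o2S1 G τ u v I₀ x).filter (fun r => ω' r = o2fav G u v c x r) := by
    apply Finset.filter_congr
    intro r hr
    rw [h r hr]
  rw [e]
  simp

/-- the dependency neighbourhood of `x` -/
def o2Gam (G : SimpleGraph V) [DecidableRel G.Adj] (τ : V → V) (u v : V) (I₀ : Finset V)
    (x : V) : Finset V :=
  univ.filter (fun x' => ¬ Disjoint (o2S1 G τ u v I₀ x) (o2S1 G τ u v I₀ x'))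

theorem o2_Gam_card (G : SimpleGraph V) [DecidableRel G.Adj] (d : ℕ)
    (hreg : ∀ x, G.degree x = d) {τ : V → V} {u v : V} {I₀ : Finset V}
    (hinv : ∀ x, τ (τ x) = x) (x : V) :
    (o2Gam G τ u v I₀ x).card ≤ 2 * d ^ 2 := by
  have hsub : o2Gam G τ u v I₀ x ⊆
      (o2S1 G τ u v I₀ x).biUnion (fun r => G.neighborFinset r ∪ G.neighborFinset (τ r)) := by
    intro x' hx'
    have h := (Finset.mem_filter.mp hx').2
    rw [Finset.not_disjoint_iff] at h
    obtain ⟨r, hr, hr'⟩ := h
    refine Finset.mem_biUnion.mpr ⟨r, hr, ?_⟩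
    obtain ⟨y, hy, hyr⟩ := Finset.mem_image.mp hr'
    have hyN := Finset.mem_filter.mp (Finset.mem_filter.mp hy).1
    have hadj : G.Adj x' y := (G.mem_neighborFinset x' y).mp hyN.1
    by_cases hyI : y ∈ I₀
    · rw [o2rep_of_mem hyI] at hyr
      rw [← hyr]
      exact Finset.mem_union_left _ ((G.mem_neighborFinset y x').mpr hadj.symm)
    · rw [o2rep_of_not_mem hyI] at hyr
      rw [← hyr, hinv]
      exact Finset.mem_union_right _ ((G.mem_neighborFinset y x').mpr hadj.symm)
  calc (o2Gam G τ u v I₀ x).card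
      ≤ ((o2S1 G τ u v I₀ x).biUnion
          (fun r => G.neighborFinset r ∪ G.neighborFinset (τ r))).card :=
        Finset.card_le_card hsub
    _ ≤ ∑ r ∈ o2S1 G τ u v I₀ x, (G.neighborFinset r ∪ G.neighborFinset (τ r)).card :=
        Finset.card_biUnion_le
    _ ≤ ∑ r ∈ o2S1 G τ u v I₀ x, (d + d) := by
        apply Finset.sum_le_sum
        intro r _
        calc (G.neighborFinset r ∪ G.neighborFinset (τ r)).card
            ≤ (G.neighborFinset r).card + (G.neighborFinset (τ r)).card :=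
              Finset.card_union_le _ _
          _ = d + d := by
              rw [G.card_neighborFinset_eq_degree, G.card_neighborFinset_eq_degree, hreg, hreg]
    _ = (o2S1 G τ u v I₀ x).card * (d + d) := by rw [Finset.sum_const, smul_eq_mul]
    _ ≤ d * (d + d) := Nat.mul_le_mul_right _ (by rw [← hreg x]; exact o2_S1_le G τ u v I₀ x)
    _ = 2 * d ^ 2 := by ring

theorem o2_step (t : ℝ) (h : 126 ≤ t) :
    (337 / 384 : ℝ) * (t + 1 + 2) ^ 2 ≤ (t + 2) ^ 2 := by
  nlinarith [sq_nonneg (t - 126)]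

/-- numerics of the local lemma -/
theorem o2_numerics (d : ℕ) (hd : 128 ≤ d) :
    4 * (2 * (337 / 384 : ℝ) ^ (d - 2)) * ((2 * d ^ 2 : ℕ) : ℝ) ≤ 1 := by
  obtain ⟨m, rfl⟩ : ∃ m, d = m + 2 := ⟨d - 2, by omega⟩
  have hm : 126 ≤ m := by omega
  rw [Nat.add_sub_cancel]
  have key : ∀ k : ℕ, 126 ≤ k → 16 * ((k : ℝ) + 2) ^ 2 * (337 / 384 : ℝ) ^ k ≤ 1 := by
    intro k hk
    induction k, hk using Nat.le_induction with
    | base =>
      have h6 : (337 / 384 : ℝ) ^ 6 ≤ 1 / 2 := by norm_num
      have h126 : (337 / 384 : ℝ) ^ 126 ≤ (1 / 2) ^ 21 := by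
        have : (337 / 384 : ℝ) ^ 126 = ((337 / 384 : ℝ) ^ 6) ^ 21 := by rw [← pow_mul]
        rw [this]
        exact pow_le_pow_left₀ (by positivity) h6 21
      have : (16 : ℝ) * (((126 : ℕ) : ℝ) + 2) ^ 2 * (1 / 2) ^ 21 ≤ 1 := by norm_num
      calc 16 * (((126 : ℕ) : ℝ) + 2) ^ 2 * (337 / 384 : ℝ) ^ 126
          ≤ 16 * (((126 : ℕ) : ℝ) + 2) ^ 2 * (1 / 2) ^ 21 := by
            apply mul_le_mul_of_nonneg_left h126
            positivity
        _ ≤ 1 := this
    | succ k hk ih =>
      have hk' : (126 : ℝ) ≤ (k : ℝ) := by exact_mod_cast hk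
      have hq : (0 : ℝ) ≤ (337 / 384 : ℝ) ^ k := by positivity
      have hstep : (337 / 384 : ℝ) * (((k + 1 : ℕ) : ℝ) + 2) ^ 2 ≤ ((k : ℝ) + 2) ^ 2 := by
        push_cast
        exact o2_step (k : ℝ) hk'
      calc 16 * (((k + 1 : ℕ) : ℝ) + 2) ^ 2 * (337 / 384 : ℝ) ^ (k + 1)
          = 16 * ((337 / 384 : ℝ) * (((k + 1 : ℕ) : ℝ) + 2) ^ 2) * (337 / 384 : ℝ) ^ k := by
            rw [pow_succ]
            ring
        _ ≤ 16 * (((k : ℝ) + 2) ^ 2) * (337 / 384 : ℝ) ^ k := by
            apply mul_le_mul_of_nonneg_right _ hq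
            exact mul_le_mul_of_nonneg_left hstep (by norm_num)
        _ ≤ 1 := ih
  calc 4 * (2 * (337 / 384 : ℝ) ^ m) * ((2 * (m + 2) ^ 2 : ℕ) : ℝ)
      = 16 * ((m : ℝ) + 2) ^ 2 * (337 / 384 : ℝ) ^ m := by
        push_cast
        ring
    _ ≤ 1 := key m hm

end orient2

theorem exists_orientation2 {V : Type*} [Fintype V] [DecidableEq V] (G : SimpleGraph V)
    [DecidableRel G.Adj] (d : ℕ) (hd : 128 ≤ d) (hreg : ∀ x, G.degree x = d)
    (τ : V → V) (u v : V) (hinv : ∀ x, τ (τ x) = x) (hu : τ u = u) (hv : τ v = v)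
    (hne : ∀ x, x ≠ u → x ≠ v → τ x ≠ x) :
    ∃ I : Finset V, u ∉ I ∧ v ∉ I ∧ (∀ x, x ≠ u → x ≠ v → (x ∈ I ↔ τ x ∉ I)) ∧
      (∀ x, d ≤ 5 * ((G.neighborFinset x).filter (fun y => y ∈ I)).card) ∧
      (∀ x, d ≤ 5 * ((G.neighborFinset x).filter (fun y => y ∉ I ∧ y ≠ u ∧ y ≠ v)).card) := by
  -- a linear order on the vertices
  let e : V → ℕ := fun x => ((Fintype.equivFin V x : Fin (Fintype.card V)) : ℕ)
  have he : Function.Injective e := fun a b h => (Fintype.equivFin V).injective (Fin.ext h)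
  have htau : ∀ x, x ≠ u → x ≠ v → τ x ≠ u ∧ τ x ≠ v := by
    intro x hxu hxv
    constructor
    · intro h
      apply hxu
      rw [← hinv x, h, hu]
    · intro h
      apply hxv
      rw [← hinv x, h, hv]
  -- one endpoint of every matching edge
  let I₀ : Finset V := univ.filter (fun x => x ≠ u ∧ x ≠ v ∧ e x < e (τ x))
  have hIuv : ∀ x ∈ I₀, x ≠ u ∧ x ≠ v := fun x hx =>
    ⟨(Finset.mem_filter.mp hx).2.1, (Finset.mem_filter.mp hx).2.2.1⟩
  have hI : ∀ x, x ≠ u → x ≠ v → (x ∈ I₀ ↔ τ x ∉ I₀) := by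
    intro x hxu hxv
    have h1 := htau x hxu hxv
    have hne' : e x ≠ e (τ x) := fun h => hne x hxu hxv (he h).symm
    constructor
    · intro hx hx'
      have a := (Finset.mem_filter.mp hx).2.2.2
      have b := (Finset.mem_filter.mp hx').2.2.2
      rw [hinv] at b
      omega
    · intro hx
      refine Finset.mem_filter.mpr ⟨Finset.mem_univ _, hxu, hxv, ?_⟩
      by_contra hlt
      apply hx
      refine Finset.mem_filter.mpr ⟨Finset.mem_univ _, h1.1, h1.2, ?_⟩
      rw [hinv]
      omega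
  -- the bad events
  let B : V → Finset (V → Bool) := fun x =>
    o2bad G τ u v I₀ true x ∪ o2bad G τ u v I₀ false x
  have hdet : ∀ (x : V) (ω ω' : V → Bool), (∀ r ∈ o2S1 G τ u v I₀ x, ω r = ω' r) →
      (ω ∈ B x ↔ ω' ∈ B x) := by
    intro x ω ω' h
    simp only [B, Finset.mem_union]
    rw [o2_bad_determined G τ u v I₀ true x ω ω' h,
      o2_bad_determined G τ u v I₀ false x ω ω' h]
  have hNd : ∀ x, d - 2 ≤ 2 * (o2S2 G τ u v I₀ x).card + (o2S1 G τ u v I₀ x).card := by
    intro x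
    have h1 := o2_N_ge G u v x
    rw [hreg] at h1
    exact le_trans h1 (o2_N_le G hinv hI x)
  have hq0 : (0 : ℝ) ≤ 337 / 384 := by norm_num
  have hq1 : (337 / 384 : ℝ) ≤ 1 := by norm_num
  have hbad : ∀ (c : Bool) (x : V), ((o2bad G τ u v I₀ c x).card : ℝ) ≤
      (337 / 384 : ℝ) ^ (d - 2) * Fintype.card (V → Bool) := by
    intro c x
    have h1 := tail_count2 (o2S1 G τ u v I₀ x) (o2fav G u v c x) (o2S2 G τ u v I₀ x).card
    refine le_trans h1 ?_
    apply mul_le_mul_of_nonneg_right _ (Nat.cast_nonneg _)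
    exact pow_le_pow_of_le_one hq0 hq1 (hNd x)
  have hD : 1 ≤ 2 * d ^ 2 := by
    have : 1 ≤ d := by omega
    nlinarith
  obtain ⟨ω, hω⟩ := lll_counting B (o2Gam G τ u v I₀) (2 * (337 / 384 : ℝ) ^ (d - 2))
    (2 * d ^ 2) ⟨fun _ => true⟩ hD
    (by
      intro x
      have h1 : ((B x).card : ℝ) ≤
          ((o2bad G τ u v I₀ true x).card : ℝ) + ((o2bad G τ u v I₀ false x).card : ℝ) := by
        exact_mod_cast Finset.card_union_le _ _
      have h2 := hbad true x
      have h3 := hbad false x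
      linarith)
    (fun x => o2_Gam_card G d hreg hinv x)
    (o2_numerics d hd)
    (by
      intro x J hJ
      have hST : Disjoint (o2S1 G τ u v I₀ x) (J.biUnion (fun j => o2S1 G τ u v I₀ j)) := by
        rw [Finset.disjoint_biUnion_right]
        intro j hj
        by_contra hnd
        exact (Finset.disjoint_left.mp hJ hj)
          (Finset.mem_filter.mpr ⟨Finset.mem_univ _, hnd⟩)
      have key := card_inter_of_determined (o2S1 G τ u v I₀ x)
        (J.biUnion (fun j => o2S1 G τ u v I₀ j)) hST (B x)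
        (univ.filter (fun ω => ∀ j ∈ J, ω ∉ B j)) (hdet x)
        (by
          intro ω ω' h
          simp only [Finset.mem_filter, Finset.mem_univ, true_and]
          constructor
          · intro hall j hj
            rw [← hdet j ω ω' (fun r hr => h r (Finset.mem_biUnion.mpr ⟨j, hj, hr⟩))]
            exact hall j hj
          · intro hall j hj
            rw [hdet j ω ω' (fun r hr => h r (Finset.mem_biUnion.mpr ⟨j, hj, hr⟩))]
            exact hall j hj)
      exact_mod_cast key)
  -- the orientation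
  let I : Finset V := univ.filter
    (fun y => y ≠ u ∧ y ≠ v ∧ ω (o2rep τ I₀ y) = o2tw true (decide (y ∈ I₀)))
  have hmemI : ∀ y, y ∈ I ↔ (y ≠ u ∧ y ≠ v ∧ ω (o2rep τ I₀ y) = o2tw true (decide (y ∈ I₀))) := by
    intro y
    simp only [I, Finset.mem_filter, Finset.mem_univ, true_and]
  have hmain : ∀ (c : Bool) (x : V), d ≤ 5 * (o2side G τ u v I₀ c ω x).card := by
    intro c x
    have hb : ¬ (4 * ((o2S2 G τ u v I₀ x).card +
        ((o2S1 G τ u v I₀ x).filter (fun r => ω r = o2fav G u v c x r)).card) ≤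
        2 * (o2S2 G τ u v I₀ x).card + (o2S1 G τ u v I₀ x).card) := by
      intro h
      apply hω x
      have hmem : ω ∈ o2bad G τ u v I₀ c x := Finset.mem_filter.mpr ⟨Finset.mem_univ _, h⟩
      cases c
      · exact Finset.mem_union_right _ hmem
      · exact Finset.mem_union_left _ hmem
    have hc := o2_count G hinv hI hIuv c ω x
    have hN := hNd x
    omega
  refine ⟨I, ?_, ?_, ?_, ?_, ?_⟩
  · intro h
    exact ((hmemI u).mp h).1 rfl
  · intro h
    exact ((hmemI v).mp h).2.1 rfl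
  · intro x hxu hxv
    have h1 := htau x hxu hxv
    rw [hmemI, hmemI]
    by_cases hxI : x ∈ I₀
    · have htI : τ x ∉ I₀ := (hI x hxu hxv).1 hxI
      rw [o2rep_tau hinv hI hIuv hxI, o2rep_of_mem hxI]
      simp [hxu, hxv, h1.1, h1.2, hxI, htI, o2tw]
    · have htI : τ x ∈ I₀ := o2_tau_mem hI hxu hxv hxI
      rw [o2rep_of_mem htI, o2rep_of_not_mem hxI]
      simp [hxu, hxv, h1.1, h1.2, hxI, htI, o2tw]
  · intro x
    have hsub : o2side G τ u v I₀ true ω x ⊆ (G.neighborFinset x).filter (fun y => y ∈ I) := by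
      intro y hy
      have hy' := Finset.mem_filter.mp hy
      exact Finset.mem_filter.mpr ⟨hy'.1, (hmemI y).mpr hy'.2⟩
    have h1 := hmain true x
    have h2 := Finset.card_le_card hsub
    omega
  · intro x
    have hsub : o2side G τ u v I₀ false ω x ⊆
        (G.neighborFinset x).filter (fun y => y ∉ I ∧ y ≠ u ∧ y ≠ v) := by
      intro y hy
      have hy' := Finset.mem_filter.mp hy
      refine Finset.mem_filter.mpr ⟨hy'.1, ?_, hy'.2.1, hy'.2.2.1⟩
      intro hyI
      have h1 := ((hmemI y).mp hyI).2.2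
      have h2 := hy'.2.2.2
      exact o2tw_not (h1.symm.trans h2)
    have h1 := hmain false x
    have h2 := Finset.card_le_card hsub
    omega

end Vale.Agent.H83.Poly
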