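import Vale.Agent.H83.Poly.Main
import Vale.Agent.H83.Poly.Orient2
import Vale.Agent.H83.Poly.Mass2
import Vale.Agent.H83.Poly.Dense

/-!
Assembly, second version: in a `d`-regular graph on `N` vertices whose adjacency operator has
norm at most `lam` on the functions of sum zero, with `24 * lam ≤ d`, the number of near-perfect
matchings is at most `N ^ 6` times the number of perfect matchings.
-/

namespace Vale.Agent.H83.Poly

open Finset SimpleGraph Vale.Agent.H83.Matchings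

variable {V : Type*} [Fintype V] [DecidableEq V] {G : SimpleGraph V} [DecidableRel G.Adj]

lemma geom_tail24 (e : ℝ) (he0 : 0 ≤ e) (he : e ≤ 1 / 24) (n : ℕ) :
    ∑ j ∈ range n, e ^ (j + 1) ≤ (1 - e ^ n) / 23 := by
  induction n with
  | zero => simp
  | succ n ih =>
    rw [Finset.sum_range_succ]
    have h1 : 0 ≤ e ^ n := pow_nonneg he0 n
    have h2 : e ^ (n + 1) = e * e ^ n := by ring
    nlinarith [mul_le_mul_of_nonneg_right he h1]

lemma two_T_le2_aux (T : ℕ) : (2 * ((T + 3 : ℕ) : ℝ) + 1) * 25 ^ (T + 3) ≤ 49 ^ (T + 3) := by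
  induction T with
  | zero => norm_num
  | succ T ih =>
    have hT : (0 : ℝ) ≤ T := Nat.cast_nonneg T
    have hp : (0 : ℝ) < 25 ^ (T + 3) := by positivity
    have e1 : (2 * ((T + 1 + 3 : ℕ) : ℝ) + 1) * 25 ^ (T + 1 + 3)
        = 25 * (2 * (T : ℝ) + 9) * 25 ^ (T + 3) := by push_cast; ring
    have e2 : (49 : ℝ) ^ (T + 1 + 3) = 49 * 49 ^ (T + 3) := by ring
    rw [e1, e2]
    have e3 : 25 * (2 * (T : ℝ) + 9) ≤ 49 * (2 * ((T + 3 : ℕ) : ℝ) + 1) := by
      push_cast; linarith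
    calc 25 * (2 * (T : ℝ) + 9) * 25 ^ (T + 3)
        ≤ 49 * (2 * ((T + 3 : ℕ) : ℝ) + 1) * 25 ^ (T + 3) :=
          mul_le_mul_of_nonneg_right e3 hp.le
      _ = 49 * ((2 * ((T + 3 : ℕ) : ℝ) + 1) * 25 ^ (T + 3)) := by ring
      _ ≤ 49 * 49 ^ (T + 3) := mul_le_mul_of_nonneg_left ih (by norm_num)

lemma two_T_le2 (T : ℕ) (hT : 3 ≤ T) :
    (2 * (T : ℝ) + 1) * 25 ^ T ≤ 64 ^ T * (7 / 8 : ℝ) ^ (2 * T) := by
  obtain ⟨t, rfl⟩ : ∃ t, T = t + 3 := ⟨T - 3, by omega⟩
  have h := two_T_le2_aux t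
  have e : (64 : ℝ) ^ (t + 3) * (7 / 8 : ℝ) ^ (2 * (t + 3)) = 49 ^ (t + 3) := by
    rw [pow_mul, ← mul_pow]
    norm_num
  rw [e]
  exact h

lemma clog4_numeric (N : ℕ) (hN : 129 ≤ N) :
    4 ≤ Nat.clog 4 N ∧ 184 * (2 * Nat.clog 4 N + 1) ≤ 15 * N ∧
      4 ^ (Nat.clog 4 N - 1) < N ∧ N ≤ 4 ^ Nat.clog 4 N := by
  have h4 : N ≤ 4 ^ Nat.clog 4 N := Nat.le_pow_clog (by norm_num) N
  have h3 : 4 ^ (Nat.clog 4 N - 1) < N := by
    have := Nat.pow_pred_clog_lt_self (b := 4) (by norm_num) (x := N) (by omega)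
    simpa [Nat.pred_eq_sub_one] using this
  have h1 : 4 ≤ Nat.clog 4 N := by
    by_contra hcon
    push Not at hcon
    have : 4 ^ Nat.clog 4 N ≤ 4 ^ 3 := Nat.pow_le_pow_right (by norm_num) (by omega)
    omega
  refine ⟨h1, ?_, h3, h4⟩
  obtain ⟨t, ht⟩ : ∃ t, Nat.clog 4 N = t + 4 := ⟨Nat.clog 4 N - 4, by omega⟩
  rw [ht] at h3 ⊢
  have e : t + 4 - 1 = t + 3 := by omega
  rw [e] at h3
  have key : ∀ s : ℕ, 184 * (2 * (s + 5) + 1) ≤ 15 * 4 ^ (s + 4) := by
    intro s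
    induction s with
    | zero => norm_num
    | succ s ih =>
      have : 4 ^ (s + 1 + 4) = 4 * 4 ^ (s + 4) := by ring
      omega
  rcases t with _ | s
  · omega
  · have := key s
    have e2 : s + 1 + 3 = s + 4 := by omega
    rw [e2] at h3
    omega

theorem poly_ratio2 (d : ℕ) (lam : ℝ) (hd : 0 < d) (hlam : 0 ≤ lam)
    (hreg : ∀ x, G.degree x = d)
    (hspec : ∀ f : V → ℝ, ∑ x, f x = 0 →
      ∑ x, (∑ y ∈ G.neighborFinset x, f y) ^ 2 ≤ lam ^ 2 * ∑ x, f x ^ 2)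
    (hgap : 24 * lam ≤ d) :
    Nat.card {M : G.Subgraph // M.IsMatching ∧ M.vertsᶜ.ncard = 2}
      ≤ Fintype.card V ^ 6 * Nat.card {M : G.Subgraph // M.IsPerfectMatching} := by
  classical
  rcases isEmpty_or_nonempty V with hV | hV
  · have : IsEmpty {M : G.Subgraph // M.IsMatching ∧ M.vertsᶜ.ncard = 2} := by
      constructor
      rintro ⟨M, _, hM⟩
      have : M.vertsᶜ = ∅ := Set.eq_empty_of_isEmpty _
      rw [this] at hM
      simp at hM
    simp
  obtain ⟨x0⟩ := hV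
  have hcard0 : (G.neighborFinset x0).card = d := hreg x0
  have hNd : d + 1 ≤ Fintype.card V := by
    have h1 : (G.neighborFinset x0).card < Fintype.card V := by
      apply Finset.card_lt_univ_of_notMem (x := x0)
      simp
    omega
  rcases Nat.lt_or_ge d 128 with hsmall | hbig
  · -- dense case
    have hN2 : Fintype.card V ≤ 2 * d :=
      dense_card_le d lam hd hlam hreg hspec hgap (by omega) x0
    have h1 := ratio_bound2 (G := G) d 1 hd (fun x => (hreg x).le)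
      (fun τ u v hτ => dense_aug d hreg hN2 hτ)
    refine h1.trans ?_
    apply Nat.mul_le_mul_right
    calc Fintype.card V * (d + 1) ^ 1 ≤ Fintype.card V * Fintype.card V := by
          rw [pow_one]; exact Nat.mul_le_mul_left _ hNd
      _ = Fintype.card V ^ 2 := by ring
      _ ≤ Fintype.card V ^ 6 := Nat.pow_le_pow_right (by omega) (by norm_num)
  -- sparse case: `128 ≤ d`, `129 ≤ N`
  have hN : 129 ≤ Fintype.card V := by omega
  obtain ⟨T, hTdef⟩ : ∃ T : ℕ, T = Nat.clog 4 (Fintype.card V) := ⟨_, rfl⟩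
  obtain ⟨hT4, hT184, hTlt, hTle⟩ := clog4_numeric (Fintype.card V) hN
  rw [← hTdef] at hT4 hT184 hTlt hTle
  have hNr : (129 : ℝ) ≤ Fintype.card V := by exact_mod_cast hN
  have hNpos : (0 : ℝ) < Fintype.card V := by linarith
  have hdr : (0 : ℝ) < d := by exact_mod_cast hd
  have hd128 : (128 : ℝ) ≤ d := by exact_mod_cast hbig
  have heps0 : 0 ≤ lam / d := by positivity
  have heps : lam / d ≤ 1 / 24 := by
    rw [div_le_iff₀ hdr]
    linarith
  obtain ⟨f, hfdef⟩ : ∃ f : ℝ, f = (2 * (T : ℝ) + 1) / Fintype.card V + 1 / 23 := ⟨_, rfl⟩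
  have hf0 : 0 ≤ f := by rw [hfdef]; positivity
  have hf8 : f ≤ 1 / 8 := by
    rw [hfdef]
    have h184 : 184 * (2 * (T : ℝ) + 1) ≤ 15 * Fintype.card V := by exact_mod_cast hT184
    have : (2 * (T : ℝ) + 1) / Fintype.card V ≤ 15 / 184 := by
      rw [div_le_iff₀ hNpos]
      linarith
    norm_num at this ⊢
    linarith
  have hf1 : f ≤ 1 := by linarith
  have hθ : (7 / 8 : ℝ) ≤ 1 - f := by linarith
  obtain ⟨z, hzdef⟩ : ∃ z : ℝ,
      z = (1 - f) ^ (2 * T) * (1 / (8 * (Fintype.card V : ℝ) * 25 ^ T)) := ⟨_, rfl⟩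
  have hmany : ∀ (τ : V → V) (u v : V), IsNPM G τ u v →
      ∃ P : Finset (List V), (∀ as ∈ P, IsAug G τ u v as ∧ as.length ≤ 2 * T) ∧
        z ≤ ∑ as ∈ P, (1 / d : ℝ) ^ (as.length + 1) := by
    intro τ u v hτ
    have hne : ∀ x, x ≠ u → x ≠ v → τ x ≠ x := fun x hxu hxv h =>
      G.ne_of_adj (hτ.adj x hxu hxv) h.symm
    obtain ⟨I, huI, hvI, hI, hdegI, hdegO⟩ :=
      exists_orientation2 G d hbig hreg τ u v hτ.invol hτ.fix_u hτ.fix_v hne
    have hI' : ∀ a ∈ I, τ a ∉ I := by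
      intro a ha
      have hau : a ≠ u := fun h => huI (h ▸ ha)
      have hav : a ≠ v := fun h => hvI (h ▸ ha)
      exact (hI a hau hav).mp ha
    refine ⟨gpaths G τ I v (2 * T) ∅ u, fun as has => gpaths_isAug hτ.invol hI' has, ?_⟩
    rw [← ssum_eq_sum_gpaths d hτ.invol I v (2 * T) ∅ u]
    have hret : ∀ (F : Finset V) (x : V), x ∉ F →
        ∑ j ∈ range (2 * T + 1), pw G d τ I F (j + 1) x x ≤ f := by
      intro F x _
      calc ∑ j ∈ range (2 * T + 1), pw G d τ I F (j + 1) x x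
          ≤ ∑ j ∈ range (2 * T + 1), (1 / (Fintype.card V : ℝ) + (lam / d) ^ (j + 1)) := by
            apply Finset.sum_le_sum
            intro j _
            exact (pw_le_altPow d τ I F (j + 1) x x).trans
              (altPow_diag_le G d lam hd hlam hreg hspec τ hτ.invol (j + 1) x)
        _ = (2 * (T : ℝ) + 1) / Fintype.card V + ∑ j ∈ range (2 * T + 1), (lam / d) ^ (j + 1) := by
            rw [Finset.sum_add_distrib, Finset.sum_const, Finset.card_range, nsmul_eq_mul]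
            push_cast
            ring
        _ ≤ f := by
            rw [hfdef]
            have h1 := geom_tail24 (lam / d) heps0 heps (2 * T + 1)
            have h2 : 0 ≤ (lam / d) ^ (2 * T + 1) := pow_nonneg heps0 _
            linarith
    have hLE := ssum_ge_wsum G d τ I v f (2 * T) hf0 hf1 hret (2 * T) le_rfl ∅ u
      (Finset.notMem_empty u)
    have hbw := bet_le_wsum (G := G) d τ I v (2 * T) u
    have hbl := bet_lower2 G d lam hd hlam hreg hspec hgap τ u v hτ.invol hτ.fix_u hτ.fix_v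
      I huI hvI hI hdegI hdegO T (by exact_mod_cast hTle)
    have hθpow : 0 ≤ (1 - f) ^ (2 * T) := pow_nonneg (by linarith) _
    calc z = (1 - f) ^ (2 * T) * (1 / (8 * (Fintype.card V : ℝ) * 25 ^ T)) := hzdef
      _ ≤ (1 - f) ^ (2 * T) * bet G d τ I v (2 * T) u :=
          mul_le_mul_of_nonneg_left hbl hθpow
      _ ≤ (1 - f) ^ (2 * T) * wsum G d τ I v (2 * T) ∅ u :=
          mul_le_mul_of_nonneg_left hbw hθpow
      _ ≤ ssum G d τ I v (2 * T) ∅ u := hLE
  have hW := weighted_ratio (G := G) d (2 * T) hd (fun x => (hreg x).le) z hmany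
  have hθpos : (0 : ℝ) < (1 - f) ^ (2 * T) := by
    have : (0 : ℝ) < 1 - f := by linarith
    positivity
  have hkey : (2 * (T : ℝ) + 1) * 8 * 25 ^ T
      ≤ (Fintype.card V : ℝ) ^ 4 * d * (1 - f) ^ (2 * T) := by
    have h1 := two_T_le2 T (by omega)
    have h3 : (7 / 8 : ℝ) ^ (2 * T) ≤ (1 - f) ^ (2 * T) :=
      pow_le_pow_left₀ (by norm_num) hθ _
    have h2 : (64 : ℝ) ^ T ≤ 64 * (Fintype.card V : ℝ) ^ 3 := by
      obtain ⟨t, ht⟩ : ∃ t, T = t + 1 := ⟨T - 1, by omega⟩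
      rw [ht] at hTlt ⊢
      simp only [Nat.add_sub_cancel] at hTlt
      have h4 : ((4 : ℕ) : ℝ) ^ t < Fintype.card V := by exact_mod_cast hTlt
      have h5 : (4 : ℝ) ^ t ≤ Fintype.card V := by push_cast at h4; linarith
      have h6 : (64 : ℝ) ^ t = ((4 : ℝ) ^ t) ^ 3 := by
        rw [← pow_mul, mul_comm, pow_mul]; norm_num
      have h7 : ((4 : ℝ) ^ t) ^ 3 ≤ (Fintype.card V : ℝ) ^ 3 :=
        pow_le_pow_left₀ (by positivity) h5 3
      rw [pow_succ, h6]
      linarith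
    have hNd' : (512 : ℝ) ≤ Fintype.card V * d := by nlinarith
    have hN3 : (0 : ℝ) ≤ (Fintype.card V : ℝ) ^ 3 := by positivity
    calc (2 * (T : ℝ) + 1) * 8 * 25 ^ T = 8 * ((2 * (T : ℝ) + 1) * 25 ^ T) := by ring
      _ ≤ 8 * (64 ^ T * (7 / 8 : ℝ) ^ (2 * T)) := by linarith
      _ ≤ 8 * (64 ^ T * (1 - f) ^ (2 * T)) := by
          have : (64 : ℝ) ^ T * (7 / 8 : ℝ) ^ (2 * T) ≤ 64 ^ T * (1 - f) ^ (2 * T) :=
            mul_le_mul_of_nonneg_left h3 (by positivity)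
          linarith
      _ ≤ 8 * (64 * (Fintype.card V : ℝ) ^ 3 * (1 - f) ^ (2 * T)) := by
          have := mul_le_mul_of_nonneg_right h2 hθpos.le
          linarith
      _ = 512 * ((Fintype.card V : ℝ) ^ 3 * (1 - f) ^ (2 * T)) := by ring
      _ ≤ (Fintype.card V * d) * ((Fintype.card V : ℝ) ^ 3 * (1 - f) ^ (2 * T)) :=
          mul_le_mul_of_nonneg_right hNd' (by positivity)
      _ = (Fintype.card V : ℝ) ^ 4 * d * (1 - f) ^ (2 * T) := by ring
  have hfinal : (Nat.card {M : G.Subgraph // M.IsMatching ∧ M.vertsᶜ.ncard = 2} : ℝ)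
      ≤ (Fintype.card V : ℝ) ^ 6 * Nat.card {M : G.Subgraph // M.IsPerfectMatching} := by
    obtain ⟨A, hA⟩ : ∃ A : ℝ,
        A = Nat.card {M : G.Subgraph // M.IsMatching ∧ M.vertsᶜ.ncard = 2} := ⟨_, rfl⟩
    obtain ⟨B, hB⟩ : ∃ B : ℝ, B = Nat.card {M : G.Subgraph // M.IsPerfectMatching} := ⟨_, rfl⟩
    rw [← hA, ← hB]
    rw [← hA, ← hB] at hW
    have hB0 : 0 ≤ B := by rw [hB]; positivity
    push_cast at hW
    have e1 : A * (1 - f) ^ (2 * T) ≤
        ((2 * (T : ℝ) + 1) * 8 * 25 ^ T) * ((Fintype.card V : ℝ) ^ 2 / d * B) := by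
      have hz' : z * (8 * (Fintype.card V : ℝ) * 25 ^ T) = (1 - f) ^ (2 * T) := by
        rw [hzdef]
        field_simp
      calc A * (1 - f) ^ (2 * T) = (A * z) * (8 * (Fintype.card V : ℝ) * 25 ^ T) := by
            rw [← hz']; ring
        _ ≤ ((2 * (T : ℝ) + 1) * Fintype.card V / d * B) * (8 * (Fintype.card V : ℝ) * 25 ^ T) :=
            mul_le_mul_of_nonneg_right hW (by positivity)
        _ = _ := by ring
    have e2 : ((2 * (T : ℝ) + 1) * 8 * 25 ^ T) * ((Fintype.card V : ℝ) ^ 2 / d * B)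
        ≤ ((Fintype.card V : ℝ) ^ 4 * d * (1 - f) ^ (2 * T))
          * ((Fintype.card V : ℝ) ^ 2 / d * B) :=
      mul_le_mul_of_nonneg_right hkey (by positivity)
    have e3 : ((Fintype.card V : ℝ) ^ 4 * d * (1 - f) ^ (2 * T))
          * ((Fintype.card V : ℝ) ^ 2 / d * B)
        = ((Fintype.card V : ℝ) ^ 6 * B) * (1 - f) ^ (2 * T) := by
      field_simp
    have e4 : A * (1 - f) ^ (2 * T) ≤ ((Fintype.card V : ℝ) ^ 6 * B) * (1 - f) ^ (2 * T) := by
      linarith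
    exact le_of_mul_le_mul_right e4 hθpos
  exact_mod_cast hfinal

end Vale.Agent.H83.Poly
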