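import Mathlib

/-!
A binomial tail bound in counting form (exponential moment with z = (3/4)^8).

Proof.  With m = S.card and agree w = the number of r in S with w r = fav r:
if 8 * agree w <= m then 1 <= (4/3)^m * ((3/4)^8)^(agree w).  Moreover the sum over all w of
((3/4)^8)^(agree w) is the product over r of the sum over b : Bool of
(if r in S and b = fav r then (3/4)^8 else 1), by Finset.prod_univ_sum, which equals
(1 + (3/4)^8)^m * 2^(card P - m).  Since (4/3) * (1 + (3/4)^8) / 2 = 72097/98304, the claim follows.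
-/

namespace Vale.Agent.H83.Poly

open Finset

/-- The exponential weight of a configuration is a product over the sites. -/
theorem tail_weight_prod {P : Type*} [Fintype P] [DecidableEq P] (S : Finset P) (fav : P → Bool)
    (z : ℝ) (ω : P → Bool) :
    (∏ r, (if r ∈ S ∧ ω r = fav r then z else 1)) =
      z ^ (S.filter (fun r => ω r = fav r)).card := by
  rw [← Finset.prod_const, Finset.prod_filter, ← Finset.prod_subset (Finset.subset_univ S)]
  · apply Finset.prod_congr rfl
    intro r hr
    simp [hr]
  · intro r _ hr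
    simp [hr]

/-- The sum of the exponential weights over all configurations factorises. -/
theorem tail_weight_sum {P : Type*} [Fintype P] [DecidableEq P] (S : Finset P) (fav : P → Bool)
    (z : ℝ) :
    (∑ ω : P → Bool, z ^ (S.filter (fun r => ω r = fav r)).card) =
      (1 + z) ^ S.card * 2 ^ (Fintype.card P - S.card) := by
  have h1 : (∑ ω : P → Bool, z ^ (S.filter (fun r => ω r = fav r)).card) =
      ∑ ω : P → Bool, ∏ r, (if r ∈ S ∧ ω r = fav r then z else 1) := by
    apply Finset.sum_congr rfl
    intro ω _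
    rw [tail_weight_prod]
  have h2 : (∑ ω : P → Bool, ∏ r, (if r ∈ S ∧ ω r = fav r then z else 1)) =
      ∏ r : P, ∑ b : Bool, (if r ∈ S ∧ b = fav r then z else 1) := by
    rw [Finset.prod_univ_sum, Fintype.piFinset_univ]
  have h3 : ∀ r : P, (∑ b : Bool, (if r ∈ S ∧ b = fav r then z else (1 : ℝ))) =
      if r ∈ S then 1 + z else 2 := by
    intro r
    by_cases hr : r ∈ S
    · cases fav r <;> simp [hr] <;> ring
    · simp [hr]
  rw [h1, h2]
  simp_rw [h3]
  rw [Finset.prod_ite, Finset.prod_const, Finset.prod_const]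
  have e1 : (univ.filter (fun r : P => r ∈ S)) = S := by
    ext r
    simp
  have e2 : (univ.filter (fun r : P => ¬ r ∈ S)).card = Fintype.card P - S.card := by
    have : (univ.filter (fun r : P => ¬ r ∈ S)) = univ \ S := by
      ext r
      simp
    rw [this, Finset.card_sdiff_of_subset (Finset.subset_univ S), Finset.card_univ]
  rw [e1, e2]

theorem tail_count {P : Type*} [Fintype P] [DecidableEq P] (S : Finset P) (fav : P → Bool) :
    ((univ.filter (fun ω : P → Bool =>
        8 * (S.filter (fun r => ω r = fav r)).card ≤ S.card)).card : ℝ)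
      ≤ (72097 / 98304 : ℝ) ^ S.card * Fintype.card (P → Bool) := by
  have hm : S.card ≤ Fintype.card P := Finset.card_le_univ S
  have hcard : (Fintype.card (P → Bool) : ℝ) = 2 ^ Fintype.card P := by
    rw [Fintype.card_fun, Fintype.card_bool]
    push_cast
    rfl
  have hpt : ∀ ω : P → Bool, 8 * (S.filter (fun r => ω r = fav r)).card ≤ S.card →
      (1 : ℝ) ≤ (4 / 3) ^ S.card * ((3 / 4 : ℝ) ^ 8) ^ (S.filter (fun r => ω r = fav r)).card := by
    intro ω h
    rw [← pow_mul]
    have h1 : ((3 / 4 : ℝ)) ^ S.card ≤ (3 / 4 : ℝ) ^ (8 * (S.filter (fun r => ω r = fav r)).card) :=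
      pow_le_pow_of_le_one (by norm_num) (by norm_num) h
    have h2 : (4 / 3 : ℝ) ^ S.card * (3 / 4 : ℝ) ^ S.card = 1 := by
      rw [← mul_pow]
      norm_num
    calc (1 : ℝ) = (4 / 3 : ℝ) ^ S.card * (3 / 4 : ℝ) ^ S.card := h2.symm
      _ ≤ (4 / 3) ^ S.card * (3 / 4 : ℝ) ^ (8 * (S.filter (fun r => ω r = fav r)).card) := by
          apply mul_le_mul_of_nonneg_left h1
          positivity
  calc ((univ.filter (fun ω : P → Bool =>
        8 * (S.filter (fun r => ω r = fav r)).card ≤ S.card)).card : ℝ)
      = ∑ ω ∈ univ.filter (fun ω : P → Bool =>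
          8 * (S.filter (fun r => ω r = fav r)).card ≤ S.card), (1 : ℝ) := by
        simp
    _ ≤ ∑ ω ∈ univ.filter (fun ω : P → Bool =>
          8 * (S.filter (fun r => ω r = fav r)).card ≤ S.card),
          (4 / 3 : ℝ) ^ S.card * ((3 / 4 : ℝ) ^ 8) ^ (S.filter (fun r => ω r = fav r)).card := by
        apply Finset.sum_le_sum
        intro ω hω
        exact hpt ω (Finset.mem_filter.mp hω).2
    _ ≤ ∑ ω : P → Bool,
          (4 / 3 : ℝ) ^ S.card * ((3 / 4 : ℝ) ^ 8) ^ (S.filter (fun r => ω r = fav r)).card := by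
        apply Finset.sum_le_sum_of_subset_of_nonneg (Finset.filter_subset _ _)
        intro ω _ _
        positivity
    _ = (4 / 3 : ℝ) ^ S.card * ((1 + (3 / 4 : ℝ) ^ 8) ^ S.card * 2 ^ (Fintype.card P - S.card)) := by
        rw [← Finset.mul_sum, tail_weight_sum]
    _ = (72097 / 98304 : ℝ) ^ S.card * Fintype.card (P → Bool) := by
        rw [hcard]
        have e : (2 : ℝ) ^ Fintype.card P = 2 ^ S.card * 2 ^ (Fintype.card P - S.card) := by
          rw [← pow_add]
          congr 1
          omega
        rw [e, ← mul_assoc, ← mul_assoc, ← mul_pow, ← mul_pow]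
        norm_num

end Vale.Agent.H83.Poly
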