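import Vale.Agent.H83.Poly.LLL
import Vale.Agent.H83.Poly.Indep
import Vale.Agent.H83.Poly.Tail

/-!
Existence of a balanced orientation of a near-perfect matching (local lemma).

`τ` is the partner map of a matching with exactly two unmatched vertices `u`, `v`.  We want a set
`I` containing exactly one endpoint of every matching edge such that every vertex has at least
`d/16` neighbours in `I` and at least `d/16` neighbours among the other endpoints.

Proof sketch.  Fix `I₀` with one endpoint of each matching edge (e.g. through a linear order on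
`V` from `Fintype.equivFin`) and `rep x = if x ∈ I₀ then x else τ x`.  For `ω : V → Bool` put
`I ω = {x | x ≠ u ∧ x ≠ v ∧ (ω (rep x) = decide (x ∈ I₀))}`; then `x ∈ I ω ↔ τ x ∉ I ω`.
For a vertex `x` let `S x = image rep (neighbours of x other than u, v)`; `2 * (S x).card + 2 ≥ d`.
For `r ∈ S x` there is a bit value `favI x r` (resp. `favO x r`) such that `ω r = favI x r`
(resp. `favO x r`) forces a neighbour of `x` in the pair of `r` to lie in `I ω` (resp. to be an
endpoint outside `I ω`); different `r` give different neighbours.  So if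
`8 * agree > (S x).card` for both, then `x` has `≥ d/16` neighbours of both kinds.
Bad event `B x` = the union of the two tail events of `tail_count` (for `S x`, `favI x` / `favO x`):
card (B x) ≤ 2 * (72097/98304)^(card (S x)) * 2^(card V), and card (S x) ≥ (d-2)/2.
`B x` is determined by the coordinates in `S x`; `Γ x = {x' | ¬ Disjoint (S x) (S x')}` has at
most `2 * d^2` elements (`r ∈ S x'` forces `x'` adjacent to `r` or to `τ r`).  Independence
(`hind` of `lll_counting`) follows from `card_inter_of_determined`.  Numerics: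
`4 * (2 * (72097/98304)^((d-2)/2)) * (2 * d^2) ≤ 1` for `d ≥ 2000`
(e.g. (3/4)^m * 64 * (m+1)^2 ≤ 1 for m ≥ 50 by induction).
-/

namespace Vale.Agent.H83.Poly

open Finset

namespace Ori

theorem tau_ne_u {V : Type*} {τ : V → V} {u : V} (hinv : ∀ x, τ (τ x) = x) (hu : τ u = u) {x : V}
    (hx : x ≠ u) : τ x ≠ u := by
  intro h
  apply hx
  have := congrArg τ h
  rw [hinv, hu] at this
  exact this

variable {V : Type*} [Fintype V] [DecidableEq V]

/-- base orientation: the endpoint with the smaller index -/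
noncomputable def I0 (τ : V → V) (u v : V) : Finset V :=
  univ.filter (fun x => x ≠ u ∧ x ≠ v ∧ Fintype.equivFin V x < Fintype.equivFin V (τ x))

/-- the representative of the matching edge of `x` in the base orientation -/
noncomputable def rep (τ : V → V) (u v : V) (x : V) : V := if x ∈ I0 τ u v then x else τ x

/-- the orientation defined by a bit vector -/
noncomputable def IO (τ : V → V) (u v : V) (ω : V → Bool) : Finset V :=
  univ.filter (fun x => x ≠ u ∧ x ≠ v ∧ ω (rep τ u v x) = decide (x ∈ I0 τ u v))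

theorem mem_I0_iff {τ : V → V} {u v : V} (hinv : ∀ x, τ (τ x) = x) (hu : τ u = u) (hv : τ v = v)
    (hne : ∀ x, x ≠ u → x ≠ v → τ x ≠ x) {x : V} (hxu : x ≠ u) (hxv : x ≠ v) :
    x ∈ I0 τ u v ↔ τ x ∉ I0 τ u v := by
  have h1 : τ x ≠ u := tau_ne_u hinv hu hxu
  have h2 : τ x ≠ v := tau_ne_u hinv hv hxv
  have h3 : Fintype.equivFin V x ≠ Fintype.equivFin V (τ x) := by
    intro h
    exact hne x hxu hxv ((Fintype.equivFin V).injective h).symm
  unfold I0
  simp only [mem_filter, mem_univ, true_and, hinv]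
  constructor
  · rintro ⟨_, _, hlt⟩ ⟨_, _, hlt'⟩
    exact lt_asymm hlt hlt'
  · intro h
    refine ⟨hxu, hxv, ?_⟩
    rcases lt_trichotomy (Fintype.equivFin V x) (Fintype.equivFin V (τ x)) with h4 | h4 | h4
    · exact h4
    · exact absurd h4 h3
    · exact absurd ⟨h1, h2, h4⟩ h

theorem I0_ne {τ : V → V} {u v : V} {x : V} (hx : x ∈ I0 τ u v) : x ≠ u ∧ x ≠ v := by
  unfold I0 at hx
  simp only [mem_filter, mem_univ, true_and] at hx
  exact ⟨hx.1, hx.2.1⟩

theorem rep_of_mem {τ : V → V} {u v : V} {x : V} (hx : x ∈ I0 τ u v) : rep τ u v x = x := by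
  unfold rep
  rw [if_pos hx]

theorem rep_of_not_mem {τ : V → V} {u v : V} {x : V} (hx : x ∉ I0 τ u v) :
    rep τ u v x = τ x := by
  unfold rep
  rw [if_neg hx]

theorem rep_mem {τ : V → V} {u v : V} (hinv : ∀ x, τ (τ x) = x) (hu : τ u = u) (hv : τ v = v)
    (hne : ∀ x, x ≠ u → x ≠ v → τ x ≠ x) {x : V} (hxu : x ≠ u) (hxv : x ≠ v) :
    rep τ u v x ∈ I0 τ u v := by
  by_cases hx : x ∈ I0 τ u v
  · rw [rep_of_mem hx]; exact hx
  · rw [rep_of_not_mem hx]
    by_contra h
    exact hx ((mem_I0_iff hinv hu hv hne hxu hxv).2 h)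

theorem rep_tau {τ : V → V} {u v : V} (hinv : ∀ x, τ (τ x) = x) (hu : τ u = u) (hv : τ v = v)
    (hne : ∀ x, x ≠ u → x ≠ v → τ x ≠ x) {r : V} (hr : r ∈ I0 τ u v) :
    rep τ u v (τ r) = r := by
  have h := (mem_I0_iff hinv hu hv hne (I0_ne hr).1 (I0_ne hr).2).1 hr
  rw [rep_of_not_mem h, hinv]

theorem rep_eq {τ : V → V} {u v : V} (hinv : ∀ x, τ (τ x) = x) {y r : V}
    (h : rep τ u v y = r) : y = r ∨ y = τ r := by
  by_cases hy : y ∈ I0 τ u v
  · rw [rep_of_mem hy] at h; exact Or.inl h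
  · rw [rep_of_not_mem hy] at h
    right
    rw [← h, hinv]

theorem not_mem_IO_u (τ : V → V) (u v : V) (ω : V → Bool) : u ∉ IO τ u v ω := by
  unfold IO
  simp

theorem not_mem_IO_v (τ : V → V) (u v : V) (ω : V → Bool) : v ∉ IO τ u v ω := by
  unfold IO
  simp

theorem mem_IO_iff {τ : V → V} {u v : V} (ω : V → Bool) {x : V} (hxu : x ≠ u) (hxv : x ≠ v) :
    x ∈ IO τ u v ω ↔ ω (rep τ u v x) = decide (x ∈ I0 τ u v) := by
  unfold IO
  simp only [mem_filter, mem_univ, true_and]
  exact ⟨fun h => h.2.2, fun h => ⟨hxu, hxv, h⟩⟩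

theorem mem_IO_tau {τ : V → V} {u v : V} (hinv : ∀ x, τ (τ x) = x) (hu : τ u = u) (hv : τ v = v)
    (hne : ∀ x, x ≠ u → x ≠ v → τ x ≠ x) (ω : V → Bool) {x : V} (hxu : x ≠ u) (hxv : x ≠ v) :
    x ∈ IO τ u v ω ↔ τ x ∉ IO τ u v ω := by
  have h1 : τ x ≠ u := tau_ne_u hinv hu hxu
  have h2 : τ x ≠ v := tau_ne_u hinv hv hxv
  rw [mem_IO_iff ω hxu hxv, mem_IO_iff ω h1 h2]
  by_cases hx : x ∈ I0 τ u v
  · have hx' : τ x ∉ I0 τ u v := (mem_I0_iff hinv hu hv hne hxu hxv).1 hx
    rw [rep_of_mem hx, rep_of_not_mem hx', hinv]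
    simp [hx, hx']
  · have hx' : τ x ∈ I0 τ u v := by
      by_contra h
      exact hx ((mem_I0_iff hinv hu hv hne hxu hxv).2 h)
    rw [rep_of_not_mem hx, rep_of_mem hx']
    simp [hx, hx']


/-- the matching edges met by the neighbours of `x` other than the holes -/
noncomputable def S (G : SimpleGraph V) [DecidableRel G.Adj] (τ : V → V) (u v : V) (x : V) :
    Finset V :=
  ((G.neighborFinset x).filter (fun y => y ≠ u ∧ y ≠ v)).image (rep τ u v)

theorem S_sub (G : SimpleGraph V) [DecidableRel G.Adj] {τ : V → V} {u v : V}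
    (hinv : ∀ x, τ (τ x) = x) (hu : τ u = u) (hv : τ v = v)
    (hne : ∀ x, x ≠ u → x ≠ v → τ x ≠ x) (x : V) {r : V} (hr : r ∈ S G τ u v x) :
    r ∈ I0 τ u v := by
  unfold S at hr
  rcases mem_image.1 hr with ⟨y, hy, rfl⟩
  rw [mem_filter] at hy
  exact rep_mem hinv hu hv hne hy.2.1 hy.2.2

theorem d_le (G : SimpleGraph V) [DecidableRel G.Adj] (d : ℕ) (hreg : ∀ x, G.degree x = d)
    {τ : V → V} {u v : V} (hinv : ∀ x, τ (τ x) = x) (x : V) :
    d ≤ 2 * (S G τ u v x).card + 2 := by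
  have h1 : G.neighborFinset x ⊆
      (G.neighborFinset x).filter (fun y => y ≠ u ∧ y ≠ v) ∪ {u, v} := by
    intro y hy
    by_cases hyu : y = u
    · simp [hyu]
    · by_cases hyv : y = v
      · simp [hyv]
      · rw [mem_union, mem_filter]
        exact Or.inl ⟨hy, hyu, hyv⟩
  have h2 := Finset.card_le_card h1
  rw [SimpleGraph.card_neighborFinset_eq_degree, hreg] at h2
  have h3 := Finset.card_union_le ((G.neighborFinset x).filter (fun y => y ≠ u ∧ y ≠ v)) {u, v}
  have h4 : ({u, v} : Finset V).card ≤ 2 := Finset.card_le_two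
  have h5 : ((G.neighborFinset x).filter (fun y => y ≠ u ∧ y ≠ v)).card ≤
      2 * (S G τ u v x).card := by
    unfold S
    apply Finset.card_le_mul_card_image
    intro r _
    have h6 : ((G.neighborFinset x).filter (fun y => y ≠ u ∧ y ≠ v)).filter
        (fun y => rep τ u v y = r) ⊆ {r, τ r} := by
      intro y hy
      rw [mem_filter] at hy
      rcases rep_eq hinv hy.2 with h | h
      · simp [h]
      · simp [h]
    exact le_trans (Finset.card_le_card h6) Finset.card_le_two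
  omega

/-- the neighbour of `x` in the matching edge of `r ∈ S x` -/
theorem pick (G : SimpleGraph V) [DecidableRel G.Adj] {τ : V → V} {u v : V}
    (hinv : ∀ x, τ (τ x) = x) (hu : τ u = u) (hv : τ v = v)
    (hne : ∀ x, x ≠ u → x ≠ v → τ x ≠ x) (x : V) {r : V} (hr : r ∈ S G τ u v x) :
    G.Adj x (if G.Adj x r then r else τ r) ∧ (if G.Adj x r then r else τ r) ≠ u ∧
      (if G.Adj x r then r else τ r) ≠ v ∧ rep τ u v (if G.Adj x r then r else τ r) = r ∧
      decide ((if G.Adj x r then r else τ r) ∈ I0 τ u v) = decide (G.Adj x r) := by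
  have hr0 : r ∈ I0 τ u v := S_sub G hinv hu hv hne x hr
  unfold S at hr
  rcases mem_image.1 hr with ⟨y, hy, hyr⟩
  rw [mem_filter, SimpleGraph.mem_neighborFinset] at hy
  by_cases hadj : G.Adj x r
  · rw [if_pos hadj]
    refine ⟨hadj, (I0_ne hr0).1, (I0_ne hr0).2, rep_of_mem hr0, ?_⟩
    simp [hr0, hadj]
  · rw [if_neg hadj]
    have hy' : y = τ r := by
      rcases rep_eq hinv hyr with h | h
      · exfalso
        rw [h] at hy
        exact hadj hy.1
      · exact h
    have hτ : τ r ∉ I0 τ u v := (mem_I0_iff hinv hu hv hne (I0_ne hr0).1 (I0_ne hr0).2).1 hr0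
    rw [hy'] at hy
    refine ⟨hy.1, hy.2.1, hy.2.2, rep_tau hinv hu hv hne hr0, ?_⟩
    simp [hτ, hadj]

theorem pick_inj (G : SimpleGraph V) [DecidableRel G.Adj] {τ : V → V} {u v : V}
    (hinv : ∀ x, τ (τ x) = x) (hu : τ u = u) (hv : τ v = v)
    (hne : ∀ x, x ≠ u → x ≠ v → τ x ≠ x) (x : V) {r r' : V} (hr : r ∈ S G τ u v x)
    (hr' : r' ∈ S G τ u v x)
    (h : (if G.Adj x r then r else τ r) = (if G.Adj x r' then r' else τ r')) : r = r' := by
  have h1 := (pick G hinv hu hv hne x hr).2.2.2.1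
  have h2 := (pick G hinv hu hv hne x hr').2.2.2.1
  rw [← h1, ← h2, h]

theorem count_I (G : SimpleGraph V) [DecidableRel G.Adj] {τ : V → V} {u v : V}
    (hinv : ∀ x, τ (τ x) = x) (hu : τ u = u) (hv : τ v = v)
    (hne : ∀ x, x ≠ u → x ≠ v → τ x ≠ x) (ω : V → Bool) (x : V) :
    ((S G τ u v x).filter (fun r => ω r = decide (G.Adj x r))).card ≤
      ((G.neighborFinset x).filter (fun y => y ∈ IO τ u v ω)).card := by
  apply Finset.card_le_card_of_injOn (fun r => if G.Adj x r then r else τ r)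
  · intro r hr
    rw [Finset.mem_coe, mem_filter] at hr
    obtain ⟨p1, p2, p3, p4, p5⟩ := pick G hinv hu hv hne x hr.1
    rw [Finset.mem_coe, mem_filter, SimpleGraph.mem_neighborFinset, mem_IO_iff ω p2 p3, p4, p5]
    exact ⟨p1, hr.2⟩
  · intro r hr r' hr' h
    rw [Finset.mem_coe, mem_filter] at hr hr'
    exact pick_inj G hinv hu hv hne x hr.1 hr'.1 h

theorem count_O (G : SimpleGraph V) [DecidableRel G.Adj] {τ : V → V} {u v : V}
    (hinv : ∀ x, τ (τ x) = x) (hu : τ u = u) (hv : τ v = v)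
    (hne : ∀ x, x ≠ u → x ≠ v → τ x ≠ x) (ω : V → Bool) (x : V) :
    ((S G τ u v x).filter (fun r => ω r = !decide (G.Adj x r))).card ≤
      ((G.neighborFinset x).filter (fun y => y ∉ IO τ u v ω ∧ y ≠ u ∧ y ≠ v)).card := by
  apply Finset.card_le_card_of_injOn (fun r => if G.Adj x r then r else τ r)
  · intro r hr
    rw [Finset.mem_coe, mem_filter] at hr
    obtain ⟨p1, p2, p3, p4, p5⟩ := pick G hinv hu hv hne x hr.1
    rw [Finset.mem_coe, mem_filter, SimpleGraph.mem_neighborFinset, mem_IO_iff ω p2 p3, p4, p5]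
    refine ⟨p1, ?_, p2, p3⟩
    rw [hr.2]
    cases decide (G.Adj x r) <;> simp
  · intro r hr r' hr' h
    rw [Finset.mem_coe, mem_filter] at hr hr'
    exact pick_inj G hinv hu hv hne x hr.1 hr'.1 h


/-- the bad event of the vertex `x` -/
noncomputable def Bad (G : SimpleGraph V) [DecidableRel G.Adj] (τ : V → V) (u v : V) (x : V) :
    Finset (V → Bool) :=
  univ.filter (fun ω : V → Bool =>
      8 * ((S G τ u v x).filter (fun r => ω r = decide (G.Adj x r))).card ≤ (S G τ u v x).card) ∪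
    univ.filter (fun ω : V → Bool =>
      8 * ((S G τ u v x).filter (fun r => ω r = !decide (G.Adj x r))).card ≤ (S G τ u v x).card)

theorem bad_congr (G : SimpleGraph V) [DecidableRel G.Adj] (τ : V → V) (u v : V) (x : V)
    {ω ω' : V → Bool} (h : ∀ r ∈ S G τ u v x, ω r = ω' r) :
    ω ∈ Bad G τ u v x ↔ ω' ∈ Bad G τ u v x := by
  have e1 : (S G τ u v x).filter (fun r => ω r = decide (G.Adj x r)) =
      (S G τ u v x).filter (fun r => ω' r = decide (G.Adj x r)) :=
    Finset.filter_congr (fun r hr => by rw [h r hr])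
  have e2 : (S G τ u v x).filter (fun r => ω r = !decide (G.Adj x r)) =
      (S G τ u v x).filter (fun r => ω' r = !decide (G.Adj x r)) :=
    Finset.filter_congr (fun r hr => by rw [h r hr])
  unfold Bad
  simp only [mem_union, mem_filter, mem_univ, true_and]
  rw [e1, e2]

theorem card_bad_le (G : SimpleGraph V) [DecidableRel G.Adj] (τ : V → V) (u v : V) (x : V)
    (m : ℕ) (hm : m ≤ (S G τ u v x).card) :
    ((Bad G τ u v x).card : ℝ) ≤
      2 * (72097 / 98304 : ℝ) ^ m * Fintype.card (V → Bool) := by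
  have h1 := tail_count (S G τ u v x) (fun r => decide (G.Adj x r))
  have h2 := tail_count (S G τ u v x) (fun r => !decide (G.Adj x r))
  have h3 : ((Bad G τ u v x).card : ℝ) ≤
      ((univ.filter (fun ω : V → Bool =>
        8 * ((S G τ u v x).filter (fun r => ω r = decide (G.Adj x r))).card ≤
          (S G τ u v x).card)).card : ℝ) +
      ((univ.filter (fun ω : V → Bool =>
        8 * ((S G τ u v x).filter (fun r => ω r = !decide (G.Adj x r))).card ≤
          (S G τ u v x).card)).card : ℝ) := by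
    unfold Bad
    exact_mod_cast Finset.card_union_le _ _
  have h4 : (72097 / 98304 : ℝ) ^ (S G τ u v x).card ≤ (72097 / 98304 : ℝ) ^ m :=
    pow_le_pow_of_le_one (by norm_num) (by norm_num) hm
  have h5 : (0 : ℝ) ≤ (Fintype.card (V → Bool) : ℝ) := Nat.cast_nonneg _
  have h6 := mul_le_mul_of_nonneg_right h4 h5
  linarith

/-- the dependency neighbourhood of `x` -/
noncomputable def Gam (G : SimpleGraph V) [DecidableRel G.Adj] (τ : V → V) (u v : V) (x : V) :
    Finset V :=
  univ.filter (fun x' => ¬ Disjoint (S G τ u v x) (S G τ u v x'))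

theorem card_Gam_le (G : SimpleGraph V) [DecidableRel G.Adj] (d : ℕ) (hreg : ∀ x, G.degree x = d)
    {τ : V → V} {u v : V} (hinv : ∀ x, τ (τ x) = x) (x : V) :
    (Gam G τ u v x).card ≤ 2 * d ^ 2 := by
  have h1 : Gam G τ u v x ⊆
      (S G τ u v x).biUnion (fun r => G.neighborFinset r ∪ G.neighborFinset (τ r)) := by
    intro x' hx'
    unfold Gam at hx'
    rw [mem_filter, Finset.not_disjoint_iff] at hx'
    obtain ⟨r, hr, hr'⟩ := hx'.2
    rw [mem_biUnion]
    refine ⟨r, hr, ?_⟩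
    unfold S at hr'
    rcases mem_image.1 hr' with ⟨y, hy, hyr⟩
    rw [mem_filter, SimpleGraph.mem_neighborFinset] at hy
    rw [mem_union, SimpleGraph.mem_neighborFinset, SimpleGraph.mem_neighborFinset]
    rcases rep_eq hinv hyr with h | h
    · left
      rw [← h]
      exact hy.1.symm
    · right
      rw [← h]
      exact hy.1.symm
  have h2 : (S G τ u v x).card ≤ d := by
    unfold S
    refine le_trans Finset.card_image_le (le_trans (Finset.card_filter_le _ _) ?_)
    rw [SimpleGraph.card_neighborFinset_eq_degree, hreg]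
  have h3 : ∀ r ∈ S G τ u v x, (G.neighborFinset r ∪ G.neighborFinset (τ r)).card ≤ 2 * d := by
    intro r _
    have := Finset.card_union_le (G.neighborFinset r) (G.neighborFinset (τ r))
    rw [SimpleGraph.card_neighborFinset_eq_degree, SimpleGraph.card_neighborFinset_eq_degree,
      hreg, hreg] at this
    omega
  have h4 := Finset.card_le_card h1
  have h5 := Finset.card_biUnion_le (s := S G τ u v x)
    (t := fun r => G.neighborFinset r ∪ G.neighborFinset (τ r))
  have h6 := Finset.sum_le_card_nsmul (S G τ u v x)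
    (fun r => (G.neighborFinset r ∪ G.neighborFinset (τ r)).card) (2 * d) h3
  rw [smul_eq_mul] at h6
  have h7 : (S G τ u v x).card * (2 * d) ≤ d * (2 * d) := Nat.mul_le_mul_right _ h2
  have h8 : d * (2 * d) = 2 * d ^ 2 := by ring
  omega

theorem indep (G : SimpleGraph V) [DecidableRel G.Adj] (τ : V → V) (u v : V) (x : V)
    (J : Finset V) (hJ : Disjoint J (Gam G τ u v x)) :
    ((Bad G τ u v x ∩ univ.filter (fun ω => ∀ j ∈ J, ω ∉ Bad G τ u v j)).card : ℝ) *
        Fintype.card (V → Bool) =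
      (Bad G τ u v x).card * (univ.filter (fun ω => ∀ j ∈ J, ω ∉ Bad G τ u v j)).card := by
  have hdisj : Disjoint (S G τ u v x) (J.biUnion (fun j => S G τ u v j)) := by
    rw [Finset.disjoint_biUnion_right]
    intro j hj
    have hj' : j ∉ Gam G τ u v x := Finset.disjoint_left.1 hJ hj
    unfold Gam at hj'
    rw [mem_filter] at hj'
    by_contra hcon
    exact hj' ⟨mem_univ _, hcon⟩
  have key := card_inter_of_determined (S G τ u v x) (J.biUnion (fun j => S G τ u v j)) hdisj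
    (Bad G τ u v x) (univ.filter (fun ω => ∀ j ∈ J, ω ∉ Bad G τ u v j))
    (fun ω ω' h => bad_congr G τ u v x h)
    (by
      intro ω ω' h
      simp only [mem_filter, mem_univ, true_and]
      constructor
      · intro hh j hj
        rw [← bad_congr G τ u v j (fun r hr => h r (mem_biUnion.2 ⟨j, hj, hr⟩))]
        exact hh j hj
      · intro hh j hj
        rw [bad_congr G τ u v j (fun r hr => h r (mem_biUnion.2 ⟨j, hj, hr⟩))]
        exact hh j hj)
  exact_mod_cast key

theorem num (m : ℕ) (hm : 50 ≤ m) : (3 / 4 : ℝ) ^ m * (64 * ((m : ℝ) + 2) ^ 2) ≤ 1 := by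
  induction m, hm using Nat.le_induction with
  | base => norm_num
  | succ m hm ih =>
    have hm' : (50 : ℝ) ≤ (m : ℝ) := by exact_mod_cast hm
    have hp : (0 : ℝ) ≤ (3 / 4 : ℝ) ^ m := by positivity
    have hb : (3 / 4 : ℝ) * (64 * (((m + 1 : ℕ) : ℝ) + 2) ^ 2) ≤ 64 * ((m : ℝ) + 2) ^ 2 := by
      push_cast
      nlinarith
    have h1 := mul_le_mul_of_nonneg_left hb hp
    rw [pow_succ, mul_assoc]
    linarith

theorem num2 (d : ℕ) (hd : 2000 ≤ d) :
    4 * (2 * (72097 / 98304 : ℝ) ^ (d / 2 - 1)) * ((2 * d ^ 2 : ℕ) : ℝ) ≤ 1 := by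
  have h50 : 50 ≤ d / 2 - 1 := by omega
  have hd2 : d ≤ 2 * (d / 2 - 1) + 3 := by omega
  have hd2' : (d : ℝ) ≤ 2 * ((d / 2 - 1 : ℕ) : ℝ) + 3 := by exact_mod_cast hd2
  have hd0 : (0 : ℝ) ≤ (d : ℝ) := Nat.cast_nonneg _
  have hm0 : (0 : ℝ) ≤ ((d / 2 - 1 : ℕ) : ℝ) := Nat.cast_nonneg _
  have hq : (72097 / 98304 : ℝ) ^ (d / 2 - 1) ≤ (3 / 4 : ℝ) ^ (d / 2 - 1) :=
    pow_le_pow_left₀ (by norm_num) (by norm_num) _
  have hq0 : (0 : ℝ) ≤ (72097 / 98304 : ℝ) ^ (d / 2 - 1) := by positivity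
  have hp0 : (0 : ℝ) ≤ (3 / 4 : ℝ) ^ (d / 2 - 1) := by positivity
  have hD : ((2 * d ^ 2 : ℕ) : ℝ) ≤ 8 * (((d / 2 - 1 : ℕ) : ℝ) + 2) ^ 2 := by
    push_cast
    nlinarith
  have hD0 : (0 : ℝ) ≤ ((2 * d ^ 2 : ℕ) : ℝ) := Nat.cast_nonneg _
  have hn := num (d / 2 - 1) h50
  calc 4 * (2 * (72097 / 98304 : ℝ) ^ (d / 2 - 1)) * ((2 * d ^ 2 : ℕ) : ℝ)
      ≤ 4 * (2 * (3 / 4 : ℝ) ^ (d / 2 - 1)) * ((2 * d ^ 2 : ℕ) : ℝ) := by
        apply mul_le_mul_of_nonneg_right _ hD0
        linarith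
    _ ≤ 4 * (2 * (3 / 4 : ℝ) ^ (d / 2 - 1)) * (8 * (((d / 2 - 1 : ℕ) : ℝ) + 2) ^ 2) := by
        apply mul_le_mul_of_nonneg_left hD
        positivity
    _ = (3 / 4 : ℝ) ^ (d / 2 - 1) * (64 * (((d / 2 - 1 : ℕ) : ℝ) + 2) ^ 2) := by ring
    _ ≤ 1 := hn

end Ori

theorem exists_orientation {V : Type*} [Fintype V] [DecidableEq V] (G : SimpleGraph V)
    [DecidableRel G.Adj] (d : ℕ) (hd : 2000 ≤ d) (hreg : ∀ x, G.degree x = d)
    (τ : V → V) (u v : V) (hinv : ∀ x, τ (τ x) = x) (hu : τ u = u) (hv : τ v = v)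
    (hne : ∀ x, x ≠ u → x ≠ v → τ x ≠ x) :
    ∃ I : Finset V, u ∉ I ∧ v ∉ I ∧ (∀ x, x ≠ u → x ≠ v → (x ∈ I ↔ τ x ∉ I)) ∧
      (∀ x, d ≤ 16 * ((G.neighborFinset x).filter (fun y => y ∈ I)).card) ∧
      (∀ x, d ≤ 16 * ((G.neighborFinset x).filter (fun y => y ∉ I ∧ y ≠ u ∧ y ≠ v)).card) := by
  have hS : ∀ x, d / 2 - 1 ≤ (Ori.S G τ u v x).card := by
    intro x
    have := Ori.d_le G d hreg (τ := τ) (u := u) (v := v) hinv x
    omega
  obtain ⟨ω, hω⟩ := lll_counting (Ori.Bad G τ u v) (Ori.Gam G τ u v)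
    (2 * (72097 / 98304 : ℝ) ^ (d / 2 - 1)) (2 * d ^ 2) ⟨fun _ => true⟩
    (by
      have : 1 ≤ d ^ 2 := Nat.one_le_pow _ _ (by omega)
      omega)
    (fun x => Ori.card_bad_le G τ u v x (d / 2 - 1) (hS x))
    (fun x => Ori.card_Gam_le G d hreg hinv x)
    (Ori.num2 d hd)
    (fun x J hJ => Ori.indep G τ u v x J hJ)
  refine ⟨Ori.IO τ u v ω, Ori.not_mem_IO_u τ u v ω, Ori.not_mem_IO_v τ u v ω,
    fun x hxu hxv => Ori.mem_IO_tau hinv hu hv hne ω hxu hxv, fun x => ?_, fun x => ?_⟩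
  · have h1 := hω x
    have h2 := Ori.d_le G d hreg (τ := τ) (u := u) (v := v) hinv x
    have h3 := Ori.count_I G hinv hu hv hne ω x
    unfold Ori.Bad at h1
    rw [mem_union, mem_filter, mem_filter, not_or] at h1
    have h4 := h1.1
    simp only [mem_univ, true_and, not_le] at h4
    omega
  · have h1 := hω x
    have h2 := Ori.d_le G d hreg (τ := τ) (u := u) (v := v) hinv x
    have h3 := Ori.count_O G hinv hu hv hne ω x
    unfold Ori.Bad at h1
    rw [mem_union, mem_filter, mem_filter, not_or] at h1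
    have h4 := h1.2
    simp only [mem_univ, true_and, not_le] at h4
    omega

end Vale.Agent.H83.Poly
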